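import Vale.Agent.P101.Final

/-! Existence of the minimal tensor product. -/

open scoped InnerProductSpace TensorProduct ENNReal Matrix.Norms.L2Operator
open UniformSpace TensorProduct

namespace Vale.Agent.P101

universe u

section

variable {E : Type*} [NormedAddCommGroup E] [InnerProductSpace ℂ E]

theorem cpl_ext {S T : Completion E →L[ℂ] Completion E} (h : ∀ a : E, S a = T a) : S = T :=
  ContinuousLinearMap.ext fun x => Completion.induction_on x
    (isClosed_eq S.continuous T.continuous) h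

/-- Extension of operators to the completion. -/
noncomputable def cpl : (E →L[ℂ] E) →ₐ[ℂ] (Completion E →L[ℂ] Completion E) where
  toFun T := T.completion
  map_one' := cpl_ext fun a => by simp
  map_mul' S T := cpl_ext fun a => by simp
  map_zero' := cpl_ext fun a => by simp [Completion.coe_zero]
  map_add' S T := cpl_ext fun a => by simp [Completion.coe_add]
  commutes' c := cpl_ext fun a => by simp [Algebra.algebraMap_eq_smul_one, Completion.coe_smul]

theorem cpl_coe (T : E →L[ℂ] E) (a : E) : cpl T a = T a := T.completion_apply_coe a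

theorem norm_cpl (T : E →L[ℂ] E) : ‖cpl T‖ = ‖T‖ := by
  refine le_antisymm (ContinuousLinearMap.opNorm_le_bound _ (norm_nonneg _) fun x =>
    Completion.induction_on x (isClosed_le (by fun_prop) (by fun_prop)) fun a => ?_)
    (ContinuousLinearMap.opNorm_le_bound _ (norm_nonneg _) fun a => ?_)
  · simpa [cpl_coe] using (cpl T).le_opNorm a
  · simpa [cpl_coe] using T.le_opNorm a

theorem star_cpl {S T : E →L[ℂ] E} (h : ∀ x y, ⟪S x, y⟫_ℂ = ⟪x, T y⟫_ℂ) : cpl S = star (cpl T) := by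
  refine (ContinuousLinearMap.eq_adjoint_iff _ _).2 fun x y => ?_
  induction x, y using Completion.induction_on₂ with
  | hp => apply isClosed_eq <;> fun_prop
  | ih x y => simp [cpl_coe, h]

end

theorem inner_mapL {H K : Type*} [NormedAddCommGroup H] [InnerProductSpace ℂ H] [CompleteSpace H]
    [NormedAddCommGroup K] [InnerProductSpace ℂ K] [CompleteSpace K] (S : H →L[ℂ] H)
    (T : K →L[ℂ] K) (x y : H ⊗[ℂ] K) : ⟪mapL (star S) (star T) x, y⟫_ℂ = ⟪x, mapL S T y⟫_ℂ := by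
  induction x using TensorProduct.induction_on with
  | zero => simp
  | add a b ha hb => simp only [map_add, inner_add_left, ha, hb]
  | tmul a b =>
    induction y using TensorProduct.induction_on with
    | zero => simp
    | add a b ha hb => simp only [map_add, inner_add_right, ha, hb]
    | tmul c d => simp [ContinuousLinearMap.star_eq_adjoint, ContinuousLinearMap.adjoint_inner_left]

variable {A B : Type u} [CStarAlgebra A] [CStarAlgebra B]

theorem rep_pair {H K : Type u} [NormedAddCommGroup H] [InnerProductSpace ℂ H] [CompleteSpace H]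
    [NormedAddCommGroup K] [InnerProductSpace ℂ K] [CompleteSpace K]
    (π : A →⋆ₐ[ℂ] (H →L[ℂ] H)) (σ : B →⋆ₐ[ℂ] (K →L[ℂ] K)) :
    ∃ (Q : Type u) (_ : CStarAlgebra Q) (ι : A →⋆ₐ[ℂ] Q) (κ : B →⋆ₐ[ℂ] Q),
      (∀ a b, Commute (ι a) (κ b)) ∧ ∀ (n : ℕ) (a : Fin n → A) (b : Fin n → B),
        ‖∑ i, ι (a i) * κ (b i)‖ = ‖∑ i, mapL (π (a i)) (σ (b i))‖ := by
  have one : mapL (1 : H →L[ℂ] H) (1 : K →L[ℂ] K) = 1 := mapL_id_id
  let ι : A →⋆ₐ[ℂ] (Completion (H ⊗[ℂ] K) →L[ℂ] Completion (H ⊗[ℂ] K)) :=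
    { AlgHom.ofLinearMap
        { toFun := fun a => cpl (mapL (π a) 1)
          map_add' := fun a b => by rw [map_add, mapL_add_left, map_add]
          map_smul' := fun c a => by rw [map_smul, mapL_smul_left, map_smul]; rfl }
        (by simp [one]) (fun a b => by simp [← map_mul cpl, ← mapL_mul]) with
      map_star' := fun a => star_cpl fun x y => by
        simpa [map_star] using inner_mapL (π a) (1 : K →L[ℂ] K) x y }
  let κ : B →⋆ₐ[ℂ] (Completion (H ⊗[ℂ] K) →L[ℂ] Completion (H ⊗[ℂ] K)) :=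
    { AlgHom.ofLinearMap
        { toFun := fun a => cpl (mapL 1 (σ a))
          map_add' := fun a b => by rw [map_add, mapL_add_right, map_add]
          map_smul' := fun c a => by rw [map_smul, mapL_smul_right, map_smul]; rfl }
        (by simp [one]) (fun a b => by simp [← map_mul cpl, ← mapL_mul]) with
      map_star' := fun a => star_cpl fun x y => by
        simpa [map_star] using inner_mapL (1 : H →L[ℂ] H) (σ a) x y }
  have e1 : ∀ a b, ι a * κ b = cpl (mapL (π a) (σ b)) := fun a b => by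
    change cpl _ * cpl _ = _
    rw [← map_mul, ← mapL_mul, mul_one, one_mul]
  have e2 : ∀ a b, κ b * ι a = cpl (mapL (π a) (σ b)) := fun a b => by
    change cpl _ * cpl _ = _
    rw [← map_mul, ← mapL_mul, mul_one, one_mul]
  exact ⟨Completion (H ⊗[ℂ] K) →L[ℂ] Completion (H ⊗[ℂ] K), inferInstance, ι, κ, fun a b => (e1 a b).trans (e2 a b).symm, fun n a b => by
    simp only [e1, ← map_sum, norm_cpl]⟩

theorem exists_rep_ne {a : A} (ha : a ≠ 0) : ∃ (H : Type u) (_ : NormedAddCommGroup H)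
    (_ : InnerProductSpace ℂ H) (_ : CompleteSpace H) (π : A →⋆ₐ[ℂ] (H →L[ℂ] H)) (ξ : H),
    π a ξ ≠ 0 := by
  have := nontrivial_of_ne a 0 ha
  obtain ⟨H, _, _, _, π, -, -, h⟩ := fiber 0 a (IsSelfAdjoint.zero A) Commute.zero_left (by simp)
    (by simp)
  refine ⟨H, _, _, inferInstance, π, not_forall.1 fun h' => ha ?_⟩
  rwa [show π a = 0 from ContinuousLinearMap.ext h', norm_zero, norm_le_zero_iff] at h

theorem exists_pos [Nontrivial B] {a : A} (ha : a ≠ 0) : ∃ (H : Type u) (_ : NormedAddCommGroup H)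
    (_ : InnerProductSpace ℂ H) (_ : CompleteSpace H) (K : Type u) (_ : NormedAddCommGroup K)
    (_ : InnerProductSpace ℂ K) (_ : CompleteSpace K) (π : A →⋆ₐ[ℂ] (H →L[ℂ] H))
    (σ : B →⋆ₐ[ℂ] (K →L[ℂ] K)), 0 < ‖∑ _ : Fin 1, mapL (π a) (σ 1)‖ := by
  obtain ⟨H, _, _, _, π, ξ, h⟩ := exists_rep_ne ha
  obtain ⟨K, _, _, _, σ, η, h'⟩ := exists_rep_ne (one_ne_zero' B)
  refine ⟨H, _, _, inferInstance, K, _, _, inferInstance, π, σ, ?_⟩
  have := (∑ _ : Fin 1, mapL (π a) (σ 1)).le_opNorm (ξ ⊗ₜ η)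
  rw [Fin.sum_univ_one, mapL_tmul, norm_tmul] at this
  rw [Fin.sum_univ_one]
  exact pos_of_mul_pos_left ((mul_pos (norm_pos_iff.2 h) (norm_pos_iff.2 h')).trans_le this)
    (norm_nonneg _)

theorem IsMinTensor.injective [Nontrivial B] {C : Type u} [CStarAlgebra C] {ι : A →⋆ₐ[ℂ] C}
    {κ : B →⋆ₐ[ℂ] C} (h : IsMinTensor ι κ) : Function.Injective ι :=
  (injective_iff_map_eq_zero ι).2 fun a ha => by
    by_contra hne
    obtain ⟨H, _, _, _, K, _, _, _, π, σ, hp⟩ := exists_pos (B := B) hne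
    have := hp.trans_le (le_minNorm π σ (fun _ => a) fun _ => 1)
    simp [← h.2.2, ha] at this

theorem exists_pair [Nontrivial A] [Nontrivial B] {n : ℕ} (a : Fin n → A) (b : Fin n → B) {ε : ℝ}
    (hε : 0 < ε) : ∃ (Q : Type u) (_ : CStarAlgebra Q) (_ : Nontrivial Q) (ι : A →⋆ₐ[ℂ] Q)
      (κ : B →⋆ₐ[ℂ] Q), (∀ a b, Commute (ι a) (κ b)) ∧
      (∀ (n : ℕ) (a : Fin n → A) (b : Fin n → B), ‖∑ i, ι (a i) * κ (b i)‖ ≤ minNorm a b) ∧
      minNorm a b < ‖∑ i, ι (a i) * κ (b i)‖ + ε := by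
  obtain ⟨H, _, _, _, K, _, _, _, π, σ, hp⟩ := exists_pos (B := B) (one_ne_zero' A)
  obtain ⟨Q, _, ι, κ, h1, h2⟩ := rep_pair π σ
  have : Nontrivial Q := nontrivial_of_ne _ 0 (norm_pos_iff.1 (hp.trans_eq (h2 1 (fun _ => 1) _).symm))
  obtain ⟨_, ⟨H', _, _, _, K', _, _, _, π₀, σ₀, ⟨π', hπ⟩, ⟨σ', hσ⟩, rfl⟩, hlt⟩ :=
    exists_lt_of_lt_csSup (by
      exact ⟨_, H, _, _, inferInstance, K, _, _, inferInstance, π, σ, ⟨π, fun _ => rfl⟩,
        ⟨σ, fun _ => rfl⟩, rfl⟩) (sub_lt_self (minNorm a b) hε)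
  obtain ⟨Q', _, ι', κ', h1', h2'⟩ := rep_pair π' σ'
  have e : ∀ (n : ℕ) (a : Fin n → A) (b : Fin n → B), ‖∑ i, ι.prod ι' (a i) * κ.prod κ' (b i)‖ =
      max ‖∑ i, mapL (π (a i)) (σ (b i))‖ ‖∑ i, mapL (π' (a i)) (σ' (b i))‖ := fun n a b => by
    simp [Prod.norm_def, Prod.fst_sum, Prod.snd_sum, h2, h2']
  refine ⟨Q × Q', inferInstance, inferInstance, ι.prod ι', κ.prod κ',
    fun a b => Prod.ext (h1 a b).eq (h1' a b).eq,
    fun n a b => (e n a b).trans_le (max_le (le_minNorm _ _ _ _) (le_minNorm _ _ _ _)), ?_⟩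
  simp only [hπ, hσ] at hlt
  rw [e]
  exact (sub_lt_iff_lt_add.1 hlt).trans_le (add_le_add_left (le_max_right _ _) _)

/-- The homomorphism to a product given by its components. -/
noncomputable def piHom {I : Type*} {Q : I → Type*} [∀ i, CStarAlgebra (Q i)]
    [∀ i, Nontrivial (Q i)] (θ : ∀ i, A →⋆ₐ[ℂ] Q i) : A →⋆ₐ[ℂ] lp Q ∞ where
  toFun a := ⟨fun i => θ i a, memℓp_infty ⟨‖a‖, by rintro _ ⟨i, rfl⟩; exact hom_le _ _⟩⟩
  map_one' := Subtype.ext (funext fun i => map_one (θ i))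
  map_mul' a b := Subtype.ext (funext fun i => map_mul (θ i) a b)
  map_zero' := Subtype.ext (funext fun i => map_zero (θ i))
  map_add' a b := Subtype.ext (funext fun i => map_add (θ i) a b)
  commutes' c := Subtype.ext (funext fun i => (θ i).commutes c)
  map_star' a := Subtype.ext (funext fun i => map_star (θ i) a)

theorem exists_pi {I : Type u} {Q : I → Type u} [∀ i, CStarAlgebra (Q i)] [∀ i, Nontrivial (Q i)]
    (ι : ∀ i, A →⋆ₐ[ℂ] Q i) (κ : ∀ i, B →⋆ₐ[ℂ] Q i) (h : ∀ i a b, Commute (ι i a) (κ i b)) :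
    ∃ (P : Type u) (_ : CStarAlgebra P) (ι' : A →⋆ₐ[ℂ] P) (κ' : B →⋆ₐ[ℂ] P),
      (∀ a b, Commute (ι' a) (κ' b)) ∧ ∀ (n : ℕ) (a : Fin n → A) (b : Fin n → B),
        (∀ i, ‖∑ k, ι i (a k) * κ i (b k)‖ ≤ ‖∑ k, ι' (a k) * κ' (b k)‖) ∧
        ∀ c, 0 ≤ c → (∀ i, ‖∑ k, ι i (a k) * κ i (b k)‖ ≤ c) → ‖∑ k, ι' (a k) * κ' (b k)‖ ≤ c := by
  letI : CStarAlgebra (lp Q ∞) := { }
  refine ⟨lp Q ∞, inferInstance, piHom ι, piHom κ,
    fun a b => Subtype.ext (funext fun i => (h i a b).eq), fun n a b => ?_⟩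
  have e : ∀ i, (∑ k, piHom ι (a k) * piHom κ (b k) : lp Q ∞) i = ∑ k, ι i (a k) * κ i (b k) :=
    fun i => by rw [lp.coeFn_sum, Finset.sum_apply]; rfl
  exact ⟨fun i => e i ▸ lp.norm_apply_le_norm ENNReal.top_ne_zero _ i,
    fun c hc h => lp.norm_le_of_forall_le hc fun i => (e i).symm ▸ h i⟩

theorem exists_minTensor (A B : Type u) [CStarAlgebra A] [CStarAlgebra B] [Nontrivial A]
    [Nontrivial B] : ∃ (C : Type u) (_ : CStarAlgebra C) (ι : A →⋆ₐ[ℂ] C) (κ : B →⋆ₐ[ℂ] C),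
    IsMinTensor ι κ := by
  choose Q _ _ ι κ h1 h2 h3 using fun i : (Σ n : ℕ, (Fin n → A) × (Fin n → B)) × ℕ =>
    exists_pair i.1.2.1 i.1.2.2 (Nat.one_div_pos_of_nat (n := i.2))
  obtain ⟨P, _, ι', κ', c1, c2⟩ := exists_pi ι κ h1
  set s := Set.range ι' ∪ Set.range κ'
  let E := (StarAlgebra.adjoin ℂ s).topologicalClosure
  have hE : IsClosed (E : Set P) := StarSubalgebra.isClosed_topologicalClosure _
  have hsub : s ⊆ E := (StarAlgebra.subset_adjoin ℂ _).trans (StarSubalgebra.le_topologicalClosure _)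
  refine ⟨E, inferInstance, ι'.codRestrict E fun a => hsub (Or.inl ⟨a, rfl⟩),
    κ'.codRestrict E fun a => hsub (Or.inr ⟨a, rfl⟩), fun a b => Subtype.ext (c1 a b).eq,
    fun x => ?_, fun n a b => ?_⟩
  · rw [closure_subtype]
    refine closure_mono (fun y hy => ?_) x.2
    obtain ⟨n, a, b, rfl⟩ := exists_sum_of_adjoin ι' κ' c1 hy
    exact ⟨_, ⟨n, a, b, rfl⟩, by simp⟩
  · rw [← NonUnitalStarAlgHom.norm_map E.subtype Subtype.val_injective, map_sum]
    refine le_antisymm ((c2 n a b).2 _ (minNorm_nonneg _ _) fun i => h2 i n a b)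
      (le_of_forall_pos_le_add fun ε hε => ?_)
    obtain ⟨m, hm⟩ := exists_nat_one_div_lt hε
    exact (h3 (⟨n, a, b⟩, m)).le.trans (add_le_add ((c2 n a b).1 _) hm.le)

theorem IsJiangSu.nontrivial {Z : Type u} [CStarAlgebra Z] (hZ : IsJiangSu Z) : Nontrivial Z := by
  obtain ⟨⟨T, hT, -, -⟩, -⟩ := hZ
  obtain ⟨p, q, hp, hq, -, j, hj, -⟩ := hT 0
  have : NeZero p := ⟨by omega⟩
  have : NeZero q := ⟨by omega⟩
  have : Nontrivial (DD p q) := (DD.ev (p := p) (q := q) 0).toRingHom.domain_nontrivial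
  exact Function.Injective.nontrivial (α := DD p q) hj

theorem absorbs {Z : Type u} [CStarAlgebra Z] (hZ : IsJiangSu Z) [Nontrivial A]
    [TopologicalSpace.SeparableSpace A] {ω : Ultrafilter ℕ} (hω : (ω : Filter ℕ) ≤ Filter.cofinite)
    (h : ¬ HasCharacter (CentralSeq A ω)) : Absorbs A Z := by
  have := hZ.nontrivial
  obtain ⟨C, _, ι, κ, hC⟩ := exists_minTensor A Z
  exact ⟨C, _, ι, κ, hC, absorb hZ hω h ι κ hC.injective hC.1 hC.2.1⟩

end Vale.Agent.P101
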