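import Vale.Agent.P101.JStep
import Vale.Agent.P101.MinT

/-! Inductive limits and the existence of the Jiang-Su algebra. -/

open Filter Topology TopologicalSpace
open scoped ENNReal

namespace Vale.Agent.P101

universe u

section

variable {ι : Type u} {Q : ι → Type} [∀ i, CStarAlgebra (Q i)] [∀ i, Nontrivial (Q i)]

/-- The null ideal of an ultraproduct. -/
def nullP (Q : ι → Type) [∀ i, CStarAlgebra (Q i)] [∀ i, Nontrivial (Q i)] (ω : Ultrafilter ι) :
    Ideal (lp Q ∞) where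
  carrier := {x | Tendsto (fun n => ‖x n‖) (ω : Filter ι) (𝓝 0)}
  zero_mem' := by simp
  add_mem' {x y} hx hy :=
    squeeze_zero (fun _ => norm_nonneg _) (fun n => norm_add_le (x n) (y n))
      (by simpa using Tendsto.add hx hy)
  smul_mem' y x hx :=
    squeeze_zero (fun _ => norm_nonneg _) (fun n => (norm_mul_le (y n) (x n)).trans
      (mul_le_mul_of_nonneg_right (lp.norm_apply_le_norm ENNReal.top_ne_zero y n) (norm_nonneg _)))
      (by simpa using Tendsto.const_mul ‖y‖ hx)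

instance (ω : Ultrafilter ι) : (nullP Q ω).IsTwoSided where
  mul_mem_of_left {x} y hx :=
    squeeze_zero (fun _ => norm_nonneg _) (fun n => (norm_mul_le (x n) (y n)).trans
      (mul_le_mul_of_nonneg_left (lp.norm_apply_le_norm ENNReal.top_ne_zero y n) (norm_nonneg _)))
      (by simpa using Tendsto.mul_const ‖y‖ hx)

variable {ω : Ultrafilter ι}

theorem tendsto_norm_mkP (x : lp Q ∞) :
    Tendsto (fun n => ‖x n‖) ω (𝓝 ‖(Submodule.Quotient.mk x : lp Q ∞ ⧸ nullP Q ω)‖) := by
  have hb := fun y : lp Q ∞ => lp.norm_apply_le_norm ENNReal.top_ne_zero y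
  obtain ⟨L, hL, h⟩ := (isCompact_Icc (a := 0) (b := ‖x‖)).ultrafilter_le_nhds
    (ω.map fun n => ‖x n‖) (by
      rw [le_principal_iff]
      exact mem_map.2 (univ_mem' fun n => ⟨norm_nonneg _, hb x n⟩))
  have h' : Tendsto (fun n => ‖x n‖) ω (𝓝 L) := h
  convert h'
  refine le_antisymm (le_of_forall_pos_le_add fun ε hε => ?_)
    (QuotientAddGroup.le_norm_iff.2 fun y hy => ?_)
  · have hy : ∀ n, ‖if ‖x n‖ ≤ L + ε then x n else 0‖ ≤ L + ε := fun n => by
      split_ifs with h; exacts [h, by simp; linarith [hL.1]]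
    let y : lp Q ∞ := ⟨fun n => if ‖x n‖ ≤ L + ε then x n else 0,
      memℓp_infty ⟨L + ε, by rintro _ ⟨n, rfl⟩; exact hy n⟩⟩
    have : (Submodule.Quotient.mk x : lp Q ∞ ⧸ nullP Q ω) = Submodule.Quotient.mk y := by
      rw [Submodule.Quotient.eq]
      refine tendsto_const_nhds.congr' ?_
      filter_upwards [h'.eventually_le_const (lt_add_of_pos_right L hε)] with n hn
      rw [lp.coeFn_sub, Pi.sub_apply, show y n = x n from if_pos hn, sub_self, norm_zero]
    rw [this]
    exact (Submodule.Quotient.norm_mk_le _ y).trans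
      (lp.norm_le_of_forall_le (by linarith [hL.1]) hy)
  · have e : x - y ∈ nullP Q ω := (Submodule.Quotient.eq _).1 hy.symm
    have := Tendsto.const_add ‖y‖ (show Tendsto (fun n => ‖(x - y) n‖) ω (𝓝 0) from e)
    rw [add_zero] at this
    refine le_of_tendsto_of_tendsto' h' this fun n => ?_
    exact (norm_le_norm_add_norm_sub' _ (y n)).trans (add_le_add_left (hb y n) _)

theorem exists_ultraP (Q : ι → Type) [∀ i, CStarAlgebra (Q i)] [∀ i, Nontrivial (Q i)]
    (ω : Ultrafilter ι) : ∃ (U : Type u) (_ : CStarAlgebra U) (mk : lp Q ∞ →⋆ₐ[ℂ] U),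
      ∀ x, Tendsto (fun n => ‖x n‖) ω (𝓝 ‖mk x‖) := by
  let U := lp Q ∞ ⧸ nullP Q ω
  letI r : NormedRing U :=
    { __ := Ideal.Quotient.ring (nullP Q ω)
      __ := NormedAddCommGroup.ofSeparation (E := U) (by
        rintro ⟨x⟩ hx
        have := tendsto_norm_mkP (ω := ω) x
        rw [show ‖(Submodule.Quotient.mk x : U)‖ = 0 from hx] at this
        exact (Submodule.Quotient.mk_eq_zero _).2 this)
      norm_mul_le := by
        rintro ⟨x⟩ ⟨y⟩
        exact le_of_tendsto_of_tendsto' (tendsto_norm_mkP (x * y))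
          ((tendsto_norm_mkP x).mul (tendsto_norm_mkP y)) fun n => norm_mul_le _ _ }
  letI s : StarRing U :=
    { star := Quotient.map' star fun x y h => by
        rw [Submodule.quotientRel_def] at h ⊢
        rw [← star_sub]
        change Tendsto (fun n => ‖star ((x - y) n)‖) _ _
        simp only [norm_star]
        exact h
      star_involutive := by rintro ⟨x⟩; exact congrArg (Ideal.Quotient.mk _) (star_star x)
      star_mul := by rintro ⟨x⟩ ⟨y⟩; exact congrArg (Ideal.Quotient.mk _) (star_mul x y)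
      star_add := by rintro ⟨x⟩ ⟨y⟩; exact congrArg (Ideal.Quotient.mk _) (star_add x y) }
  letI a : Algebra ℂ U := Ideal.Quotient.algebra ℂ
  letI : CStarAlgebra U :=
    { __ := r, __ := s, __ := a
      star_smul := by rintro c ⟨x⟩; exact congrArg (Ideal.Quotient.mk _) (star_smul c x)
      complete := (Submodule.Quotient.completeSpace (nullP Q ω)).complete
      norm_mul_self_le := by
        rintro ⟨x⟩
        exact le_of_tendsto_of_tendsto' ((tendsto_norm_mkP x).mul (tendsto_norm_mkP x))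
          (tendsto_norm_mkP (star x * x)) fun n => CStarRing.norm_mul_self_le _
      norm_smul_le := by
        rintro c ⟨x⟩
        exact le_of_tendsto_of_tendsto' (tendsto_norm_mkP (c • x))
          ((tendsto_norm_mkP x).const_mul ‖c‖) fun n => norm_smul_le c (x n) }
  exact ⟨U, this, { Ideal.Quotient.mkₐ ℂ (nullP Q ω) with map_star' := fun _ => rfl },
    tendsto_norm_mkP⟩

end

theorem exists_lim {Q : ℕ → Type} [∀ n, CStarAlgebra (Q n)] [∀ n, Nontrivial (Q n)]
    (φ : ∀ n, Q n →⋆ₐ[ℂ] Q (n + 1)) (hφ : ∀ n, Function.Injective (φ n)) :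
    ∃ (Z : Type u) (_ : CStarAlgebra Z) (J : ∀ n, Q n →⋆ₐ[ℂ] Z), (∀ n, Function.Injective (J n)) ∧
      (∀ n x, J (n + 1) (φ n x) = J n x) ∧ Dense (⋃ n, Set.range (J n)) := by
  let Ψ : ∀ n m, n ≤ m → (Q n →⋆ₐ[ℂ] Q m) := fun n m h =>
    Nat.leRec (motive := fun m _ => Q n →⋆ₐ[ℂ] Q m) (StarAlgHom.id ℂ _)
      (fun k _ ih => (φ k).comp ih) h
  have Ψ0 : ∀ n x, Ψ n n le_rfl x = x := fun n x => by simp [Ψ, Nat.leRec_self]
  have Ψ1 : ∀ n m h x, Ψ n (m + 1) (Nat.le_succ_of_le h) x = φ m (Ψ n m h x) := fun n m h x => by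
    simp [Ψ, Nat.leRec_succ _ _ h]
  have Ψ2 : ∀ n x m h, Ψ (n + 1) m h (φ n x) = Ψ n m (Nat.le_of_succ_le h) x := fun n x m h => by
    induction m, h using Nat.le_induction with
    | base => rw [Ψ0, Ψ1 n n le_rfl, Ψ0]
    | succ m h ih => rw [Ψ1 _ _ h, Ψ1 _ _ (Nat.le_of_succ_le h), ih]
  have Ψ3 : ∀ n x m h, ‖Ψ n m h x‖ = ‖x‖ := fun n x m h => by
    induction m, h using Nat.le_induction with
    | base => rw [Ψ0]
    | succ m h ih => rw [Ψ1 _ _ h, NonUnitalStarAlgHom.norm_map _ (hφ m), ih]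
  obtain ⟨U, _, mk, hmk⟩ := exists_ultraP (fun n : ULift.{u} ℕ => Q n.down)
    ((hyperfilter ℕ).map ULift.up)
  have ev : ∀ n, ∀ᶠ m : ULift.{u} ℕ in ((hyperfilter ℕ).map ULift.up : Ultrafilter _),
      n ≤ m.down := fun n => Nat.hyperfilter_le_atTop (eventually_ge_atTop n)
  have eq : ∀ n (x y : lp (fun n : ULift.{u} ℕ => Q n.down) ∞), (∀ m, n ≤ m.down → x m = y m) →
      mk x = mk y := fun n x y h => by
    rw [← sub_eq_zero, ← map_sub, ← norm_eq_zero]
    refine tendsto_nhds_unique (hmk _) (tendsto_const_nhds.congr' ?_)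
    filter_upwards [ev n] with m hm
    simp [h m hm]
  let sq : ∀ n, Q n → lp (fun n : ULift.{u} ℕ => Q n.down) ∞ := fun n x =>
    ⟨fun m => if h : n ≤ m.down then Ψ n _ h x else 0, memℓp_infty ⟨‖x‖, by
      rintro _ ⟨m, rfl⟩
      dsimp only
      split_ifs
      exacts [hom_le _ _, by simp]⟩⟩
  have hs : ∀ n x (m : ULift.{u} ℕ) h, sq n x m = Ψ n _ h x := fun n x m h => dif_pos h
  let J : ∀ n, Q n →⋆ₐ[ℂ] U := fun n =>
    { toFun := fun x => mk (sq n x)
      map_one' := (eq n _ _ fun m h => by rw [hs _ _ _ h, map_one]; rfl).trans (map_one mk)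
      map_mul' := fun x y => (eq n _ _ fun m h => by
        rw [lp.infty_coeFn_mul, Pi.mul_apply]; simp only [hs _ _ _ h, map_mul]).trans (map_mul mk _ _)
      map_zero' := (eq n _ _ fun m h => by rw [hs _ _ _ h, map_zero]; rfl).trans (map_zero mk)
      map_add' := fun x y => (eq n _ _ fun m h => by
        rw [lp.coeFn_add, Pi.add_apply]; simp only [hs _ _ _ h, map_add]).trans (map_add mk _ _)
      commutes' := fun c => (eq n _ _ fun m h => by
        rw [hs _ _ _ h, AlgHomClass.commutes]; rfl).trans (mk.commutes c)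
      map_star' := fun x => (eq n _ _ fun m h => by
        rw [lp.coeFn_star, Pi.star_apply]; simp only [hs _ _ _ h, map_star]).trans (map_star mk _) }
  have J1 : ∀ n x, J (n + 1) (φ n x) = J n x := fun n x => eq (n + 1) _ _ fun m h => by
    rw [hs _ _ _ h, hs _ _ _ (Nat.le_of_succ_le h), Ψ2]
  have J2 : ∀ n x, ‖J n x‖ = ‖x‖ := fun n x =>
    tendsto_nhds_unique (hmk _) (tendsto_const_nhds.congr' (by
      filter_upwards [ev n] with m hm
      rw [hs _ _ _ hm, Ψ3]))
  have mono : Monotone fun n => (J n).range := monotone_nat_of_le_succ fun n => by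
    rintro _ ⟨x, rfl⟩; exact ⟨_, J1 n x⟩
  let E := (⨆ n, (J n).range).topologicalClosure
  have hE : IsClosed (E : Set U) := StarSubalgebra.isClosed_topologicalClosure _
  have hsub : ∀ n x, J n x ∈ E := fun n x => StarSubalgebra.le_topologicalClosure _
    (le_iSup (fun n => (J n).range) n ⟨x, rfl⟩)
  refine ⟨E, inferInstance, fun n => (J n).codRestrict E (hsub n), fun n =>
    (injective_iff_map_eq_zero _).2 fun x hx => norm_eq_zero.1 ?_, fun n x => Subtype.ext (J1 n x),
    fun x => ?_⟩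
  · rw [← J2, show J n x = 0 from congrArg Subtype.val hx, norm_zero]
  · rw [closure_subtype]
    refine closure_mono (fun y hy => ?_) x.2
    rw [StarSubalgebra.coe_iSup_of_directed mono.directed_le] at hy
    obtain ⟨n, y, rfl⟩ := Set.mem_iUnion.1 hy
    exact ⟨_, Set.mem_iUnion.2 ⟨n, y, rfl⟩, rfl⟩

/-- A stage of the construction. -/
structure St where
  /-- first size -/
  p : ℕ
  /-- second size -/
  q : ℕ
  hp : 2 ≤ p
  hq : 2 ≤ q
  hpq : p.Coprime q
  /-- the listed elements -/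
  D : ℕ → DD p q

theorem St.nontrivial (s : St) : Nontrivial (DD s.p s.q) :=
  have : NeZero s.p := ⟨by have := s.hp; omega⟩
  have : NeZero s.q := ⟨by have := s.hq; omega⟩
  (DD.ev (p := s.p) (q := s.q) 0).toRingHom.domain_nontrivial

theorem St.step (m : ℕ) (s : St) : ∃ (s' : St) (φ : DD s.p s.q →⋆ₐ[ℂ] DD s'.p s'.q),
    Function.Injective φ ∧
    (∀ i, s'.D i = if i.unpair.1 ≤ m then φ (s.D i) else denseSeq _ i.unpair.2) ∧
    ∀ (C : Type u) [CStarAlgebra C] (α β : DD s'.p s'.q →⋆ₐ[ℂ] C), (∀ f g, Commute (α f) (β g)) →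
      ∃ V ∈ unitary C, ∀ i ≤ m, ‖V * α (φ (s.D i)) * star V - β (φ (s.D i))‖ ≤ 1 / (m + 1) := by
  classical
  obtain ⟨p, q, hp, hq, hpq, φ, h1, h2⟩ := exists_step.{u} s.hp s.hq s.hpq
    ((Finset.range (m + 1)).image s.D) (show (0 : ℝ) < 1 / (m + 1) / 6 by positivity)
  refine ⟨⟨p, q, hp, hq, hpq, fun i => if i.unpair.1 ≤ m then φ (s.D i) else denseSeq _ i.unpair.2⟩,
    φ, h1, fun _ => rfl, fun C _ α β hc => ?_⟩
  obtain ⟨V, hV, h⟩ := h2 C α β hc
  exact ⟨V, hV, fun i hi => (h _ (Finset.mem_image_of_mem _ (Finset.mem_range.2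
    (Nat.lt_succ_of_le hi)))).trans_eq (by ring)⟩

theorem exists_isJiangSu : ∃ (Z : Type u) (_ : CStarAlgebra Z), IsJiangSu Z := by
  choose nx φ h1 h2 h3 using St.step.{u}
  let S : ℕ → St := fun n => Nat.rec ⟨2, 3, le_rfl, by norm_num, by norm_num,
    fun i => denseSeq _ i.unpair.2⟩ nx n
  obtain ⟨Z, _, J, J1, J2, J3⟩ := @exists_lim.{u} (fun n => DD (S n).p (S n).q) _
    (fun n => (S n).nontrivial) (fun n => φ n (S n)) fun n => h1 n (S n)
  have := (S 0).nontrivial
  have := (J1 0).nontrivial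
  obtain ⟨C, _, ι, κ, hC⟩ := exists_minTensor Z Z
  refine ⟨Z, _, ⟨fun n => Set.range (J n), fun n => ⟨_, _, (S n).hp, (S n).hq, (S n).hpq, J n,
    J1 n, rfl⟩, monotone_nat_of_le_succ fun n => ?_, J3⟩, C, _, ι, κ, hC, fun F ε hε => ?_⟩
  · rintro _ ⟨x, rfl⟩; exact ⟨_, J2 n x⟩
  have k1 : ∀ i m, i.unpair.1 ≤ m → J m ((S m).D i) = J i.unpair.1 (denseSeq _ i.unpair.2) :=
    fun i m h => by
      induction m, h using Nat.le_induction with
      | base =>
        generalize hn : i.unpair.1 = n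
        rcases n with _ | n
        · rfl
        · exact congrArg _ ((h2 n (S n) i).trans (if_neg (by omega)))
      | succ m h ih => exact (congrArg _ ((h2 m (S m) i).trans (if_pos h))).trans ((J2 m _).trans ih)
  have k2 : ∀ d : Z, ∃ i : ℕ, ‖d - J i.unpair.1 (denseSeq _ i.unpair.2)‖ < ε / 3 := fun d => by
    obtain ⟨y, hy, h⟩ := Metric.mem_closure_iff.1 (J3 d) (ε / 6) (by positivity)
    obtain ⟨n, x, rfl⟩ := Set.mem_iUnion.1 hy
    obtain ⟨k, hk⟩ := (denseRange_denseSeq _).exists_dist_lt x (show 0 < ε / 6 by positivity)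
    refine ⟨Nat.pair n k, ?_⟩
    rw [Nat.unpair_pair]
    rw [dist_eq_norm] at h hk
    have := (hom_le (J n) _).trans_lt hk
    rw [map_sub] at this
    exact ((norm_sub_le_norm_sub_add_norm_sub _ _ _).trans_lt (add_lt_add h this)).trans_eq
      (by ring)
  choose i hi using k2
  obtain ⟨m, hm1, hm2⟩ := ((eventually_ge_atTop (F.sup i)).and
    (tendsto_one_div_add_atTop_nhds_zero_nat.eventually_lt_const
      (show (0 : ℝ) < ε / 3 by positivity))).exists
  obtain ⟨V, hV, h⟩ := h3 m (S m) C (ι.comp (J (m + 1))) (κ.comp (J (m + 1))) fun f g => hC.1 _ _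
  refine ⟨V, hV, fun d hd => ?_⟩
  have l1 : i d ≤ m := (Finset.le_sup hd).trans hm1
  have := h _ l1
  simp only [StarAlgHom.comp_apply] at this
  rw [J2, k1 _ _ ((Nat.unpair_left_le _).trans l1)] at this
  have a1 := (norm_ad hV _ _).trans_lt ((map_sub ι _ _ ▸ hom_le ι _).trans_lt (hi d))
  have a2 := (map_sub κ _ _ ▸ hom_le κ _).trans_lt (hi d)
  rw [norm_sub_rev] at a2
  exact ((norm_sub_le_norm_sub_add_norm_sub _ _ _).trans_lt (add_lt_add a1
    ((norm_sub_le_norm_sub_add_norm_sub _ _ _).trans_lt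
      (add_lt_add (this.trans_lt hm2) a2)))).trans_eq (by ring)

end Vale.Agent.P101
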