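import Vale.Agent.P101.Defs

/-! The definition of the Jiang-Su algebra from the paper of Jiang and Su. -/

namespace Vale.Agent.P101

universe u

/-- A tracial state. -/
def IsTracialState {Z : Type u} [CStarAlgebra Z] (τ : Z →ₗ[ℂ] ℂ) : Prop :=
  τ 1 = 1 ∧ (∀ x, ∃ r : ℝ, 0 ≤ r ∧ τ (star x * x) = r) ∧ ∀ x y, τ (x * y) = τ (y * x)

/-- The Jiang-Su algebra: a simple unital inductive limit of prime dimension-drop algebras with
a unique tracial state. -/
def IsJS (Z : Type u) [CStarAlgebra Z] : Prop :=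
  (∃ S : ℕ → Set Z, (∀ n, IsPrimeDimDrop (S n)) ∧ Monotone S ∧ Dense (⋃ n, S n)) ∧
  IsSimpleRing Z ∧ ∃! τ : Z →ₗ[ℂ] ℂ, IsTracialState τ

end Vale.Agent.P101
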