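import Vale.Agent.P101.JLim
import Vale.Agent.P101.Defs2

/-! The constructed algebra is simple and has a unique tracial state. -/

open Filter Topology TensorProduct
open scoped InnerProductSpace ComplexOrder Matrix.Norms.L2Operator

namespace Vale.Agent.P101

universe u

variable {A B C Z : Type u} [CStarAlgebra A] [CStarAlgebra B] [CStarAlgebra C] [CStarAlgebra Z]

theorem exists_prod_state {ι : A →⋆ₐ[ℂ] C} {κ : B →⋆ₐ[ℂ] C} (h : IsMinTensor ι κ)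
    (f : A →L[ℂ] ℂ) (f0 : ∀ x, ‖f x‖ ≤ ‖x‖) (f1 : f 1 = 1)
    (g : B →L[ℂ] ℂ) (g0 : ∀ x, ‖g x‖ ≤ ‖x‖) (g1 : g 1 = 1) :
    ∃ G : C →L[ℂ] ℂ, (∀ x, ‖G x‖ ≤ ‖x‖) ∧ ∀ a b, G (ι a * κ b) = f a * g b := by
  obtain ⟨H, _, _, _, π, Ω, h1, -⟩ := exists_gns f f0 f1
  obtain ⟨K, _, _, _, ρ, Ξ, h2, -⟩ := exists_gns g g0 g1
  have e1 : ∀ a, ⟪Ω, π a Ω⟫_ℂ = f a := fun a => by simpa using h1 1 a
  have e2 : ∀ a, ⟪Ξ, ρ a Ξ⟫_ℂ = g a := fun a => by simpa using h2 1 a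
  have n1 : ‖Ω‖ = 1 := by
    have := e1 1
    rw [map_one, ContinuousLinearMap.one_apply, f1] at this
    rw [inner_self_eq_norm_sq_to_K] at this
    exact (pow_eq_one_iff_of_nonneg (norm_nonneg _) two_ne_zero).1 
      (Complex.ofReal_injective (by simpa using this))
  have n2 : ‖Ξ‖ = 1 := by
    have := e2 1
    rw [map_one, ContinuousLinearMap.one_apply, g1] at this
    rw [inner_self_eq_norm_sq_to_K] at this
    exact (pow_eq_one_iff_of_nonneg (norm_nonneg _) two_ne_zero).1 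
      (Complex.ofReal_injective (by simpa using this))
  obtain ⟨G, G0, G1⟩ := exists_ext (LinearMap.mul' ℂ C ∘ₗ map ι.toLinearMap κ.toLinearMap)
    (LinearMap.mul' ℂ ℂ ∘ₗ map f.toLinearMap g.toLinearMap) fun d => by
      obtain ⟨n, a, b, rfl⟩ := exists_sum_tmul_eq d
      have := (norm_inner_le_norm (𝕜 := ℂ) (Ω ⊗ₜ[ℂ] Ξ) _).trans (mul_le_mul_of_nonneg_left
        ((∑ i, mapL (π (a i)) (ρ (b i))).le_opNorm (Ω ⊗ₜ Ξ)) (norm_nonneg _))
      rw [norm_tmul, n1, n2, mul_one, mul_one, one_mul] at this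
      have := this.trans ((le_minNorm π ρ a b).trans_eq (h.2.2 n a b).symm)
      simpa [inner_sum, e1, e2] using this
  exact ⟨G, G0, fun a b => by simpa using G1 (a ⊗ₜ b)⟩

theorem flip_eq {ι κ : Z →⋆ₐ[ℂ] C}
    (h : ∀ (F : Finset Z) (ε : ℝ), 0 < ε → ∃ v ∈ unitary C, ∀ d ∈ F, ‖v * ι d * star v - κ d‖ < ε)
    (G : C →L[ℂ] ℂ) (G0 : ∀ x, ‖G x‖ ≤ ‖x‖) {d : Z} {c : ℂ}
    (hc : ∀ v ∈ unitary C, G (v * ι d * star v) = c) : G (κ d) = c := by
  rw [eq_comm, ← sub_eq_zero, ← norm_le_zero_iff]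
  refine le_of_forall_pos_le_add fun ε hε => ?_
  obtain ⟨v, hv, h1⟩ := h {d} ε hε
  rw [← hc v hv, ← map_sub, zero_add]
  exact (G0 _).trans (h1 d (by simp)).le

theorem IsMinTensor.ind₂ {ι : A →⋆ₐ[ℂ] C} {κ : B →⋆ₐ[ℂ] C} (h : IsMinTensor ι κ)
    (T T' : C × C → ℂ) (c : Continuous T) (c' : Continuous T')
    (hT : ∀ (n m : ℕ) (a : Fin n → A) (b : Fin n → B) (a' : Fin m → A) (b' : Fin m → B),
      T (∑ i, ι (a i) * κ (b i), ∑ i, ι (a' i) * κ (b' i)) =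
        T' (∑ i, ι (a i) * κ (b i), ∑ i, ι (a' i) * κ (b' i))) (x y) : T (x, y) = T' (x, y) :=
  congrFun (c.ext_on (h.2.1.prod h.2.1) c' (by
    rintro ⟨_, _⟩ ⟨⟨n, a, b, rfl⟩, m, a', b', rfl⟩
    exact hT n m a b a' b')) _

theorem IsMinTensor.mul {ι : A →⋆ₐ[ℂ] C} {κ : B →⋆ₐ[ℂ] C} (h : IsMinTensor ι κ) (a b a' b') :
    ι a * κ b * (ι a' * κ b') = ι (a * a') * κ (b * b') := by
  rw [map_mul, map_mul, mul_assoc, ← mul_assoc (κ b), ← h.1, mul_assoc, mul_assoc]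

theorem exists_state {a : A} (ha : a ≠ 0) :
    ∃ g : A →L[ℂ] ℂ, (∀ x, ‖g x‖ ≤ ‖x‖) ∧ g 1 = 1 ∧ g (star a * a) ≠ 0 := by
  obtain ⟨H, _, _, _, π, ξ, h⟩ := exists_rep_ne ha
  have h0 : ξ ≠ 0 := fun e => h (by simp [e])
  set η := ((‖ξ‖⁻¹ : ℝ) : ℂ) • ξ with hη
  have n1 : ‖η‖ = 1 := by simp [hη, norm_smul, h0]
  have hb : ∀ x, ‖⟪η, π x η⟫_ℂ‖ ≤ 1 * ‖x‖ := fun x =>
    (norm_inner_le_norm _ _).trans (mul_le_mul n1.le (((π x).le_opNorm _).trans
      (by rw [n1, mul_one]; exact hom_le π x)) (norm_nonneg _) zero_le_one)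
  refine ⟨LinearMap.mkContinuous ⟨⟨fun x => ⟪η, π x η⟫_ℂ, fun x y => by simp [inner_add_right]⟩,
    fun c x => by simp⟩ 1 hb, fun x => by simpa using hb x, by simp [n1], ?_⟩
  simp [map_star, ContinuousLinearMap.star_eq_adjoint, ContinuousLinearMap.adjoint_inner_right,
    hη, h0, h]

theorem IsJiangSu.simple (hZ : IsJiangSu Z) : IsSimpleRing Z := by
  have := hZ.nontrivial
  obtain ⟨C, _, ι, κ, hC, h⟩ := hZ.2
  refine .of_eq_bot_or_eq_top fun I => or_iff_not_imp_left.2 fun hI => ?_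
  obtain ⟨a, aI, a0⟩ := SetLike.exists_of_lt (bot_lt_iff_ne_bot.2 hI)
  refine I.eq_top (cov_of_prime (s := {a}) (fun Q _ _ π _ hπ => ?_) I (by simpa))
  obtain ⟨f, f0, f1, -⟩ := exists_state (one_ne_zero' Q)
  obtain ⟨g, g0, g1, g2⟩ := exists_state (show a ≠ 0 by simpa using a0)
  obtain ⟨f', hf⟩ : ∃ f' : Z →L[ℂ] ℂ, ∀ x, f' x = f (π x) :=
    ⟨f ∘L ⟨π.toLinearMap, hom_cont π⟩, fun _ => rfl⟩
  obtain ⟨G, G0, G1⟩ := exists_prod_state hC f'
    (fun x => hf x ▸ (f0 _).trans (hom_le π x)) (by simpa [hf]) g g0 g1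
  have := flip_eq h G G0 (d := star a * a) (c := 0) fun v _ =>
    hC.ind₂ (fun z => G (z.1 * ι (star a * a) * z.2)) 0 (by fun_prop) continuous_const
      (fun n m x y x' y' => by
        rw [← mul_one (ι (star a * a)), ← map_one κ]
        simp only [Finset.sum_mul, Finset.mul_sum, hC.mul, map_sum, G1]
        simp [hf, hπ a rfl]) v (star v)
  have e := G1 1 (star a * a)
  rw [map_one, one_mul, this, hf, map_one, f1, one_mul] at e
  exact g2 e.symm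

theorem IsTracialState.norm_le {τ : Z →ₗ[ℂ] ℂ} (h : IsTracialState τ) (x) : ‖τ x‖ ≤ ‖x‖ := by
  let _ := CStarAlgebra.spectralOrder Z
  have := CStarAlgebra.spectralOrderedRing Z
  let f : Z →ₚ[ℂ] ℂ := PositiveLinearMap.mk₀ τ fun x hx => by
    obtain ⟨y, rfl⟩ := CStarAlgebra.nonneg_iff_eq_star_mul_self.1 hx
    obtain ⟨r, hr, e⟩ := h.2.1 y
    rw [e]; exact_mod_cast hr
  have n : ∀ y, ‖f.toPreGNS y‖ ^ 2 ≤ ‖y‖ ^ 2 := fun y => by
    have := f.norm_apply_le_of_nonneg _ (star_mul_self_nonneg y)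
    rw [show f 1 = 1 from h.1, norm_one, one_mul, CStarRing.norm_star_mul_self, ← sq] at this
    rw [← inner_self_eq_norm_sq (𝕜 := ℂ)]
    exact (RCLike.re_le_norm _).trans this
  have n' := fun y => (sq_le_sq₀ (norm_nonneg _) (norm_nonneg _)).1 (n y)
  have k := norm_inner_le_norm (𝕜 := ℂ) (f.toPreGNS 1) (f.toPreGNS x)
  rw [f.preGNS_inner_def] at k
  have : Nontrivial Z := ⟨⟨1, 0, fun e => by simpa [e] using h.1⟩⟩
  have k' := k.trans (mul_le_mul (n' 1) (n' x) (norm_nonneg _) (norm_nonneg _))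
  rw [norm_one, one_mul] at k'
  exact le_of_eq_of_le (congrArg (‖τ ·‖) (by simp)) k'

theorem IsJiangSu.trace_unique (hZ : IsJiangSu Z) {τ τ' : Z →ₗ[ℂ] ℂ} (h1 : IsTracialState τ)
    (h2 : IsTracialState τ') : τ = τ' := by
  obtain ⟨C, _, ι, κ, hC, h⟩ := hZ.2
  obtain ⟨G, G0, G1⟩ := exists_prod_state hC
    (τ.mkContinuous 1 fun x => by simpa using h1.norm_le x) h1.norm_le h1.1
    (τ'.mkContinuous 1 fun x => by simpa using h2.norm_le x) h2.norm_le h2.1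
  simp only [LinearMap.mkContinuous_apply] at G1
  have tr : ∀ x y, G (x * y) = G (y * x) :=
    hC.ind₂ (fun z => G (z.1 * z.2)) (fun z => G (z.2 * z.1)) (by fun_prop) (by fun_prop)
      fun n m x y x' y' => by
        simp only [Finset.sum_mul, Finset.mul_sum, hC.mul, map_sum, G1]
        rw [Finset.sum_comm]
        simp only [h1.2.2 (x _), h2.2.2 (y _)]
  ext d
  have := flip_eq h G G0 (d := d) (c := τ d) fun v hv => by
    rw [tr, ← mul_assoc, hv.1, one_mul]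
    simpa [h2.1] using G1 d 1
  simpa [h1.1, this] using G1 1 d

theorem IsJiangSu.trace_exists (hZ : IsJiangSu Z) : ∃ τ : Z →ₗ[ℂ] ℂ, IsTracialState τ := by
  obtain ⟨⟨S, hS, mono, hd⟩, -⟩ := hZ
  have h1 : ∀ n, ∃ g : WeakDual ℂ Z, (∀ x, ‖g x‖ ≤ ‖x‖) ∧ g 1 = 1 ∧
      ∀ x ∈ S n, ∀ y ∈ S n, g (x * y) = g (y * x) := fun n => by
    obtain ⟨p, q, hp, hq, -, h⟩ := hS n
    obtain ⟨j, hj, hr⟩ : ∃ j : DD p q →⋆ₐ[ℂ] Z, Function.Injective j ∧ Set.range j = S n := h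
    have c0 : ((p * q : ℕ) : ℝ) ≠ 0 := by positivity
    obtain ⟨g, g0, g1⟩ := exists_ext j.toLinearMap ((((p * q : ℕ) : ℂ))⁻¹ •
      Matrix.traceLinearMap _ ℂ ℂ ∘ₗ (DD.ev 0).toLinearMap) fun d => by
        have : ‖(DD.ev 0 d).trace‖ ≤ (p * q : ℕ) * ‖d‖ :=
          (norm_sum_le_of_le _ fun i _ => (entry_le _ i).trans (hom_le _ d)).trans_eq (by simp)
        change ‖_ * (DD.ev 0 d).trace‖ ≤ ‖j d‖
        rw [NonUnitalStarAlgHom.norm_map j hj, norm_mul, norm_inv, Complex.norm_natCast]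
        exact inv_mul_le_of_le_mul₀ (by positivity) (norm_nonneg _) this
    replace g1 : ∀ d, g (j d) = (((p * q : ℕ) : ℂ))⁻¹ * (DD.ev 0 d).trace := g1
    refine ⟨g, g0, ?_, ?_⟩
    · change g 1 = 1
      rw [← map_one j, g1, map_one, Matrix.trace_one]
      exact inv_mul_eq_one₀ (by exact_mod_cast c0) |>.2 (by simp)
    · rw [← hr]
      rintro _ ⟨x, rfl⟩ _ ⟨y, rfl⟩
      change g (j x * j y) = g (j y * j x)
      rw [← map_mul j, ← map_mul j, g1, g1, map_mul, map_mul, Matrix.trace_mul_comm]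
  choose g g0 g1 g2 using h1
  obtain ⟨τ, -, hτ⟩ := (WeakDual.isCompact_closedBall (0 : StrongDual ℂ Z) 1).ultrafilter_le_nhds
    ((hyperfilter ℕ).map g) (le_principal_iff.2 (mem_map.2 (univ_mem' fun n =>
      mem_closedBall_zero_iff.2 (ContinuousLinearMap.opNorm_le_bound _ zero_le_one
        fun x => by simpa using g0 n x))))
  have ev : ∀ x, Tendsto (fun n => g n x) (hyperfilter ℕ) (𝓝 (τ x)) := fun x =>
    ((WeakDual.eval_continuous x).tendsto τ).comp hτ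
  have t0 : ∀ x, ‖τ x‖ ≤ ‖x‖ := fun x => le_of_tendsto' (ev x).norm fun n => g0 n x
  have t1 : τ 1 = 1 := tendsto_nhds_unique (ev 1) (by simp [g1])
  let t : Z →L[ℂ] ℂ := τ
  refine ⟨t.toLinearMap, t1, fun x => ?_, fun x y => ?_⟩
  · let _ := CStarAlgebra.spectralOrder Z
    have := CStarAlgebra.spectralOrderedRing Z
    obtain ⟨r, hr, e⟩ := RCLike.nonneg_iff_exists_ofReal.1
      (state_nonneg t t0 t1 _ (star_mul_self_nonneg x))
    exact ⟨r, hr, e.symm⟩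
  · refine congrFun (Continuous.ext_on (hd.prod hd) (f := fun z : Z × Z => t (z.1 * z.2))
      (g := fun z => t (z.2 * z.1)) (by fun_prop) (by fun_prop) ?_) (x, y)
    rintro ⟨x, y⟩ ⟨hx, hy⟩
    obtain ⟨n, hn⟩ := Set.mem_iUnion.1 hx
    obtain ⟨m, hm⟩ := Set.mem_iUnion.1 hy
    refine tendsto_nhds_unique (ev _) ((ev _).congr' ?_)
    filter_upwards [Nat.hyperfilter_le_atTop (eventually_ge_atTop (max n m))] with k hk
    exact g2 k _ (mono (le_of_max_le_right hk) hm) _ (mono (le_of_max_le_left hk) hn)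

theorem IsJiangSu.isJS (hZ : IsJiangSu Z) : IsJS Z :=
  ⟨hZ.1, hZ.simple, hZ.trace_exists.elim fun τ h => ⟨τ, h, fun _ h' => hZ.trace_unique h' h⟩⟩

end Vale.Agent.P101
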