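import Vale.Agent.P101.OZ

/-! Combining two commuting order zero maps; order zero maps from square-zero elements. -/

open scoped Kronecker

namespace Vale.Agent.P101

variable {B : Type*} [CStarAlgebra B] {m n : Type*} [Fintype m] [DecidableEq m] [Fintype n]
  [DecidableEq n]

theorem exists_sqrt [PartialOrder B] [StarOrderedRing B] {y : B} (hy : 0 ≤ y) :
    ∃ r : B, 0 ≤ r ∧ r * r = y ∧ ∀ x, Commute y x → Commute r x :=
  ⟨CFC.sqrt y, CFC.sqrt_nonneg y, CFC.sqrt_mul_sqrt_self y hy, fun _ h => h.cfcₙ_nnreal _⟩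

theorem one_sub_sq_nonneg [PartialOrder B] [StarOrderedRing B] {s : B} (hs : IsSelfAdjoint s)
    (h : ‖s‖ ≤ 1) : 0 ≤ 1 - s * s := by
  rw [sub_nonneg, ← CStarAlgebra.norm_le_one_iff_of_nonneg _ hs.mul_self_nonneg]
  exact (norm_mul_le _ _).trans (mul_le_one₀ h (norm_nonneg _) h)

theorem eq_zero_of_prod {s t : B} (hs : IsSelfAdjoint s) (ht : IsSelfAdjoint t) (h1 : ‖s‖ ≤ 1)
    (h : (1 - s * s) * (1 - t * t) = 1) (hc : Commute s t) : s = 0 ∧ t = 0 := by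
  let _ := CStarAlgebra.spectralOrder B
  have := CStarAlgebra.spectralOrderedRing B
  have a1 := Commute.mul_nonneg (one_sub_sq_nonneg hs h1) ht.mul_self_nonneg
    ((Commute.one_left _).sub_left ((hc.mul_right hc).mul_left (hc.mul_right hc)))
  have a2 : (1 - s * s) * (t * t) = -(s * s) := by
    rw [mul_sub, mul_one] at h
    linear_combination (norm := abel) -h
  have a3 : s = 0 := sa_sq_zero hs (le_antisymm (by rwa [a2, neg_nonneg] at a1) hs.mul_self_nonneg)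
  exact ⟨a3, sa_sq_zero ht (by simpa [a3] using a2)⟩

theorem combine {χ₁ χ₂ : Matrix n n ℂ →ₗ[ℂ] B} (h₁ : IsOZ χ₁) (h₂ : IsOZ χ₂)
    (hc : ∀ a b, Commute (χ₁ a) (χ₂ b)) (n1 : ‖χ₁ 1‖ ≤ 1) (n2 : ‖χ₂ 1‖ ≤ 1) :
    ∃ ψ : Matrix n n ℂ →ₗ[ℂ] B, IsOZ ψ ∧ ‖ψ 1‖ ≤ 1 ∧
      1 - ψ 1 = (1 - χ₁ 1 * χ₁ 1) * (1 - χ₂ 1 * χ₂ 1) ∧
      ∀ a t, χ₁ 1 * t = t → ψ a * t = χ₁ a * t := by
  let _ := CStarAlgebra.spectralOrder B
  have := CStarAlgebra.spectralOrderedRing B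
  have p1 := one_sub_sq_nonneg h₁.sa1 n1
  have p2 := one_sub_sq_nonneg h₂.sa1 n2
  obtain ⟨κ, κ0, κ2, κc⟩ := exists_sqrt p1
  have κs : IsSelfAdjoint κ := .of_nonneg κ0
  set k := Complex.I • κ with hk
  have k2 : k * k = χ₁ 1 * χ₁ 1 - 1 := by
    rw [hk, smul_mul_smul_comm, κ2, Complex.I_mul_I]; simp
  have ks : star k = -k := by simp [hk, κs.star_eq]
  have kc : ∀ x, Commute (χ₁ 1) x → Commute k x := fun x hx =>
    (κc x ((Commute.one_left _).sub_left (hx.mul_left hx))).smul_left _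
  let Φ : Matrix (n × n) (n × n) ℂ := Matrix.of fun x y => if x = y.swap then 1 else 0
  let l : Matrix n n ℂ →ₗ[ℂ] Matrix (n × n) (n × n) ℂ := (Matrix.kroneckerBilinear (R := ℂ)).flip 1
  have hl : ∀ a, l a = a ⊗ₖ (1 : Matrix n n ℂ) := fun _ => rfl
  let D := LinearMap.mulLeft ℂ Φ ∘ₗ l - LinearMap.mulRight ℂ Φ ∘ₗ l
  let μ := tens χ₁ χ₂
  have hμ : IsOZ μ := h₁.tens h₂ hc
  let ψ := LinearMap.mulLeft ℂ (χ₁ 1) ∘ₗ χ₁ - LinearMap.mulLeft ℂ (k * k * χ₂ 1) ∘ₗ χ₂ +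
    LinearMap.mulLeft ℂ k ∘ₗ μ ∘ₗ D
  have hψ : ∀ a, ψ a = χ₁ 1 * χ₁ a - k * k * χ₂ 1 * χ₂ a + k * μ (Φ * l a - l a * Φ) := fun _ => rfl
  have cμ1 : ∀ x, Commute (χ₁ 1) (μ x) := commute_tens h₁.comm (hc 1)
  have cμ2 : ∀ x, Commute (χ₂ 1) (μ x) := commute_tens (fun a => (hc a 1).symm) h₂.comm
  have ψ1 : ψ 1 = χ₁ 1 * χ₁ 1 - k * k * χ₂ 1 * χ₂ 1 := by simp [hψ, hl]
  have e : 1 - ψ 1 = (1 - χ₁ 1 * χ₁ 1) * (1 - χ₂ 1 * χ₂ 1) := by rw [ψ1, k2]; noncomm_ring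
  have c12 : Commute (1 - χ₁ 1 * χ₁ 1) (χ₂ 1 * χ₂ 1) := (Commute.one_left _).sub_left
    (((hc 1 1).mul_right (hc 1 1)).mul_left ((hc 1 1).mul_right (hc 1 1)))
  refine ⟨ψ, ⟨fun a => ?_, fun a b => ?_⟩, ?_, e, fun a t ht => ?_⟩
  · have e1 : star Φ = Φ := by
      ext ⟨a, b⟩ ⟨c, d⟩; simp [Φ, Matrix.star_apply, and_comm, eq_comm]
    have e2 : star (l a) = l (star a) := by
      simp [hl, Matrix.star_eq_conjTranspose, Matrix.conjTranspose_kronecker]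
    rw [hψ, hψ, star_add, star_sub, star_mul, star_mul, star_mul, star_mul, star_mul, ← hμ.star,
      ← h₁.star, ← h₂.star, h₁.sa1.star_eq, h₂.sa1.star_eq, ks, star_sub, star_mul, star_mul, e1, e2,
      ← (h₁.comm _).eq, neg_mul_neg, ← ((kc _ (hc 1 1)).mul_left (kc _ (hc 1 1))).eq,
      ← (((kc _ (hc 1 _)).mul_left (kc _ (hc 1 _))).mul_left (h₂.comm _)).eq, mul_neg,
      ← (kc _ (cμ1 _)).eq, ← mul_neg, ← map_neg, neg_sub]
  · rw [ψ1, hψ, hψ, hψ]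
    refine comb_alg l (fun a => (1 : Matrix n n ℂ) ⊗ₖ a) Φ χ₁ χ₂ μ.toAddMonoidHom _ _ k a b
      (by simp [hl, ← Matrix.mul_kronecker_mul]) (by simp [← Matrix.mul_kronecker_mul])
      (by simp [hl, ← Matrix.mul_kronecker_mul]) ?_ (fun a => ?_) (h₁.mul a b) (h₂.mul a b)
      (fun a b => by simp [hl, ← Matrix.mul_kronecker_mul, μ, tens_kron])
      (fun a b => by simp [hl, ← Matrix.mul_kronecker_mul, μ, tens_kron, (hc a b).eq])
      (tens_l h₁) (tens_l' h₁ hc) (tens_r h₂ hc) (tens_r' h₂ hc)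
      (fun x y => by rw [← mul_assoc, ← tens_one]; exact hμ.mul x y)
      (by simp [hl, μ, tens_kron, (hc _ 1).eq]) (by simp [μ, tens_kron])
      (by simpa using fun a => ⟨h₁.comm a, (hc a 1).symm, kc _ (h₁.comm a)⟩)
      (by simpa using fun a => ⟨hc 1 a, h₂.comm a, kc _ (hc 1 a)⟩)
      (by simpa using fun a => ⟨cμ1 a, cμ2 a, kc _ (cμ1 a)⟩)
      (hc 1 1) (kc _ (Commute.refl _)).symm (kc _ (hc 1 1)).symm
    · ext ⟨a, b⟩ ⟨c, d⟩
      simp [Φ, Matrix.mul_apply, Matrix.one_apply]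
    · ext ⟨a, b⟩ ⟨c, d⟩
      simp [Φ, hl, Matrix.mul_apply, Matrix.one_apply, Fintype.sum_prod_type, ite_and, eq_comm]
  · have a1 : 0 ≤ ψ 1 := by
      have := add_nonneg h₁.sa1.mul_self_nonneg (Commute.mul_nonneg p1 h₂.sa1.mul_self_nonneg c12)
      convert this using 1
      rw [ψ1, k2]; noncomm_ring
    rw [CStarAlgebra.norm_le_one_iff_of_nonneg _ a1, ← sub_nonneg, e]
    exact Commute.mul_nonneg p1 p2 ((Commute.one_right _).sub_right c12)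
  · have e1 : k * t = 0 := by
      rw [← CStarRing.star_mul_self_eq_zero_iff, star_mul, ks, mul_neg, neg_mul, mul_assoc,
        ← mul_assoc k, k2, sub_mul, mul_assoc, ht, ht]
      simp
    rw [hψ, add_mul, sub_mul, (kc _ (cμ1 _)).eq, mul_assoc (μ _) k, e1, (h₁.comm a).eq, mul_assoc, ht,
      mul_assoc (k * k), ((kc _ ((hc 1 1).mul_right (hc 1 a))).mul_left
        (kc _ ((hc 1 1).mul_right (hc 1 a)))).eq, mul_assoc, mul_assoc k, e1]
    simp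

theorem IsOZ.normalize {χ : Matrix n n ℂ →ₗ[ℂ] B} (h : IsOZ χ) :
    ∃ c : ℂ, c ≠ 0 ∧ IsOZ (c • χ) ∧ ‖(c • χ) 1‖ ≤ 1 := by
  have h0 : 0 < ‖χ 1‖ + 1 := by positivity
  refine ⟨((‖χ 1‖ + 1)⁻¹ : ℝ), by exact_mod_cast (inv_pos.2 h0).ne', ⟨fun a => ?_, fun a b => ?_⟩, ?_⟩
  · simp only [LinearMap.smul_apply, h.star, star_smul, Complex.star_def, Complex.conj_ofReal]
  · simp only [LinearMap.smul_apply, smul_mul_smul_comm, h.mul a b]
  · rw [LinearMap.smul_apply, norm_smul, Complex.norm_real, Real.norm_of_nonneg (inv_pos.2 h0).le,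
      inv_mul_le_iff₀ h0]
    linarith

theorem combine' {χ₁ χ₂ : Matrix n n ℂ →ₗ[ℂ] B} (h₁ : IsOZ χ₁) (h₂ : IsOZ χ₂)
    (hc : ∀ a b, Commute (χ₁ a) (χ₂ b)) :
    ∃ ψ : Matrix n n ℂ →ₗ[ℂ] B, IsOZ ψ ∧ ∀ (Q : Type*) [CStarAlgebra Q] (π : B →⋆ₐ[ℂ] Q),
      π (ψ 1) = 0 → π (χ₁ 1) = 0 ∧ π (χ₂ 1) = 0 := by
  obtain ⟨c, c0, k1, n1⟩ := h₁.normalize
  obtain ⟨d, d0, k2, n2⟩ := h₂.normalize
  have hc' : ∀ a b, Commute ((c • χ₁) a) ((d • χ₂) b) :=
    fun a b => ((hc a b).smul_left c).smul_right d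
  obtain ⟨ψ, h, -, e, -⟩ := combine k1 k2 hc' n1 n2
  refine ⟨ψ, h, fun Q _ π h0 => ?_⟩
  have := eq_zero_of_prod (k1.sa1.map π) (k2.sa1.map π) ((hom_le π _).trans n1)
    (by simpa [h0] using congrArg π e.symm) ((hc' 1 1).map π)
  simpa [c0, d0] using this

theorem exists_oz_of_sq {x : B} (hx : x * x = 0) :
    ∃ φ : Matrix (Fin 2) (Fin 2) ℂ →ₗ[ℂ] B, IsOZ φ ∧ φ 1 = x * star x + star x * x := by
  let _ := CStarAlgebra.spectralOrder B
  have := CStarAlgebra.spectralOrderedRing B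
  obtain ⟨h, h0, h2, hc⟩ := exists_sqrt (add_nonneg (mul_star_self_nonneg x) (star_mul_self_nonneg x))
  have hs : star h = h := (IsSelfAdjoint.of_nonneg h0).star_eq
  have hy : star x * star x = 0 := by rw [← star_mul, hx, star_zero]
  generalize hy' : star x = y at *
  have hy'' : star y = x := by rw [← hy', star_star]
  have hx' : ∀ z, x * (x * z) = 0 := fun z => by rw [← mul_assoc, hx, zero_mul]
  have hz' : ∀ z, y * (y * z) = 0 := fun z => by rw [← mul_assoc, hy, zero_mul]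
  have c1 : x * h = h * x := (hc x (by
    simp [Commute, SemiconjBy, mul_add, add_mul, mul_assoc, hx, hx'])).eq.symm
  have c2 : y * h = h * y := (hc y (by
    simp [Commute, SemiconjBy, mul_add, add_mul, mul_assoc, hy, hz'])).eq.symm
  have c1' : ∀ z, x * (h * z) = h * (x * z) := fun z => by rw [← mul_assoc, c1, mul_assoc]
  have c2' : ∀ z, y * (h * z) = h * (y * z) := fun z => by rw [← mul_assoc, c2, mul_assoc]
  have h2' : ∀ z, h * (h * z) = x * (y * z) + y * (x * z) := fun z => by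
    rw [← mul_assoc, h2, add_mul, mul_assoc, mul_assoc]
  let φ : Matrix (Fin 2) (Fin 2) ℂ →ₗ[ℂ] B :=
    { toFun := fun a => a 0 0 • (x * y) + a 0 1 • (h * x) + a 1 0 • (h * y) + a 1 1 • (y * x)
      map_add' := fun a b => by simp only [Matrix.add_apply]; module
      map_smul' := fun c a => by simp only [Matrix.smul_apply, smul_eq_mul, RingHom.id_apply]; module }
  have hφ : ∀ a, φ a = a 0 0 • (x * y) + a 0 1 • (h * x) + a 1 0 • (h * y) + a 1 1 • (y * x) :=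
    fun _ => rfl
  have φ1 : φ 1 = x * y + y * x := by simp [hφ]
  refine ⟨φ, ⟨fun a => ?_, fun a b => ?_⟩, φ1⟩
  · simp only [hφ, Matrix.star_apply, star_add, star_smul, star_mul, hs, hy', hy'', c1, c2]
    abel
  · simp only [φ1, hφ a, hφ b, hφ (a * b), Matrix.mul_apply, Fin.sum_univ_two, mul_add, add_mul,
      smul_mul_assoc, mul_smul_comm, mul_assoc, c1', c2', h2', hx, hy, hx', hz', mul_zero, smul_zero]
    module

end Vale.Agent.P101
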