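import Vale.Agent.P101.State

/-! Sets generating the unit ideal, prime representations, the graph lemma. -/

open scoped InnerProductSpace ComplexOrder Topology
open TopologicalSpace

namespace Vale.Agent.P101

universe u

theorem hom_le {A B : Type*} [CStarAlgebra A] [CStarAlgebra B] (π : A →⋆ₐ[ℂ] B) (a : A) :
    ‖π a‖ ≤ ‖a‖ := NonUnitalStarAlgHom.norm_apply_le π a

@[fun_prop]
theorem hom_cont {A B : Type*} [CStarAlgebra A] [CStarAlgebra B] (π : A →⋆ₐ[ℂ] B) :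
    Continuous π := AddMonoidHomClass.continuous_of_bound π 1 (by simpa using hom_le π)

theorem map_posPart {A B : Type*} [CStarAlgebra A] [CStarAlgebra B] (π : A →⋆ₐ[ℂ] B) {a : A}
    (ha : IsSelfAdjoint a) : π a⁺ = (π a)⁺ := by
  rw [CFC.posPart_def, CFC.posPart_def]
  exact NonUnitalStarAlgHomClass.map_cfcₙ (S := ℂ) π _ a (hφ := hom_cont π) (hφa := ha.map π)

theorem sa_sq_zero {A : Type*} [CStarAlgebra A] {a : A} (ha : IsSelfAdjoint a) (h : a * a = 0) :
    a = 0 := by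
  rw [← CStarRing.star_mul_self_eq_zero_iff, ha.star_eq, h]

theorem sa_cube_zero {A : Type*} [CStarAlgebra A] {a : A} (ha : IsSelfAdjoint a)
    (h : a * a * a = 0) : a = 0 :=
  sa_sq_zero ha (sa_sq_zero (ha.commute_iff ha |>.1 (Commute.refl a)) (by rw [← mul_assoc, h, zero_mul]))

/-- `s` generates the unit ideal. -/
def Cov {B : Type*} [Ring B] (s : Set B) : Prop :=
  ∀ I : TwoSidedIdeal B, s ⊆ I → (1 : B) ∈ I

theorem Cov.mono {B : Type*} [Ring B] {s t : Set B} (h : Cov s) (hst : s ⊆ t) : Cov t :=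
  fun I hI => h I (hst.trans hI)

theorem Cov.kill {D Q : Type*} [CStarAlgebra D] [CStarAlgebra Q] {s : Set D} (hs : Cov s)
    (θ : D →⋆ₐ[ℂ] Q) {y : Q} (hy : ∀ d, Commute (θ d) y) (h : ∀ x ∈ s, θ x * y = 0) : y = 0 := by
  have := hs (TwoSidedIdeal.mk' {x | θ x * y = 0} (by simp)
    (fun {a b} ha hb => by simp_all [add_mul]) (fun {a} ha => by simp_all)
    (fun {a b} hb => by simp_all [mul_assoc])
    (fun {a b} ha => by
      simp only [Set.mem_ofPred_eq, map_mul] at ha ⊢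
      rw [mul_assoc, (hy b).eq, ← mul_assoc, ha, zero_mul])) (fun x hx => by simpa using h x hx)
  simpa using this

theorem Cov.ne {D Q : Type*} [CStarAlgebra D] [CStarAlgebra Q] [Nontrivial Q] {s : Set D}
    (hs : Cov s) (θ : D →⋆ₐ[ℂ] Q) (h : ∀ x ∈ s, θ x = 0) : False :=
  one_ne_zero (hs.kill θ (y := 1) (fun _ => Commute.one_right _) (by simpa using h))

/-- The kernel of `π` is a prime ideal. -/
def IsPrimeRep {B Q : Type*} [CStarAlgebra B] [CStarAlgebra Q] (π : B →⋆ₐ[ℂ] Q) : Prop :=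
  ∀ x y, (∀ w, π (x * w * y) = 0) → π x = 0 ∨ π y = 0

theorem exists_max {B : Type*} [Ring B] {s : Set B} (h : ¬ Cov s) :
    ∃ M : TwoSidedIdeal B, s ⊆ M ∧ (1 : B) ∉ M ∧ ∀ I, M ≤ I → (1 : B) ∉ I → I ≤ M := by
  simp only [Cov, not_forall] at h
  obtain ⟨I₀, h0, h1⟩ := h
  obtain ⟨M, hM, hmax⟩ := zorn_le_nonempty₀ {I : TwoSidedIdeal B | (1 : B) ∉ I} (fun c hc hch y hy => by
    refine ⟨TwoSidedIdeal.mk' {x | ∃ I ∈ c, x ∈ I} ⟨y, hy, y.zero_mem⟩ ?_ ?_ ?_ ?_, ?_, ?_⟩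
    · rintro a b ⟨I, hI, ha⟩ ⟨J, hJ, hb⟩
      rcases hch.total hI hJ with e | e
      · exact ⟨J, hJ, J.add_mem (e ha) hb⟩
      · exact ⟨I, hI, I.add_mem ha (e hb)⟩
    · rintro a ⟨I, hI, ha⟩; exact ⟨I, hI, I.neg_mem ha⟩
    · rintro a b ⟨I, hI, ha⟩; exact ⟨I, hI, I.mul_mem_left _ _ ha⟩
    · rintro a b ⟨I, hI, ha⟩; exact ⟨I, hI, I.mul_mem_right _ _ ha⟩
    · simp only [Set.mem_ofPred_eq, TwoSidedIdeal.mem_mk']
      rintro ⟨I, hI, ha⟩; exact hc hI ha
    · intro z hz x hx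
      simp only [TwoSidedIdeal.mem_mk']
      exact ⟨z, hz, hx⟩) I₀ h1
  exact ⟨M, fun x hx => hM (h0 hx), hmax.1, fun I hI h1 => hmax.2 h1 hI⟩

theorem one_mem_of_near {B : Type*} [CStarAlgebra B] (I : TwoSidedIdeal B) {x : B} (hx : x ∈ I)
    (h : ‖1 - x‖ < 1) : (1 : B) ∈ I := by
  have := I.mul_mem_right _ ((Units.oneSub _ h)⁻¹ : Bˣ) hx
  have e : x = (Units.oneSub _ h : Bˣ) := by simp
  rwa [show x * ((Units.oneSub _ h)⁻¹ : Bˣ) = 1 by nth_rw 1 [e]; exact Units.mul_inv _] at this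

theorem cov_of_prime {B : Type u} [CStarAlgebra B] {s : Set B}
    (h : ∀ (Q : Type u) [CStarAlgebra Q] [Nontrivial Q] (π : B →⋆ₐ[ℂ] Q), IsPrimeRep π →
      (∀ x ∈ s, π x = 0) → False) : Cov s := by
  by_contra hs
  obtain ⟨M, hM, h1, hmax⟩ := exists_max hs
  have hsm : ∀ (c : ℂ) x, x ∈ M → c • x ∈ M := fun c x hx => by
    rw [Algebra.smul_def]; exact M.mul_mem_left _ _ hx
  let N : Submodule ℂ B :=
    { carrier := M, add_mem' := M.add_mem, zero_mem' := M.zero_mem, smul_mem' := hsm }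
  obtain ⟨g, hg, he⟩ := exists_ext ((Algebra.linearMap ℂ B).coprod N.subtype)
    (LinearMap.fst ℂ ℂ N) (fun d => by
      by_contra hlt
      simp only [LinearMap.fst_apply, LinearMap.coprod_apply, Algebra.linearMap_apply,
        Submodule.subtype_apply, not_le] at hlt
      have hc : d.1 ≠ 0 := fun e => by
        rw [e, norm_zero] at hlt; exact (norm_nonneg _).not_gt hlt
      refine h1 (one_mem_of_near M (hsm (-d.1⁻¹) _ d.2.2) ?_)
      rw [show (1 : B) - (-d.1⁻¹) • (d.2 : B) = d.1⁻¹ • (algebraMap ℂ B d.1 + d.2) by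
        rw [Algebra.algebraMap_eq_smul_one, smul_add, smul_smul, inv_mul_cancel₀ hc]; module,
        norm_smul, norm_inv, inv_mul_lt_iff₀ (norm_pos_iff.2 hc), mul_one]
      exact hlt)
  have g1 : g 1 = 1 := by simpa using he (1, 0)
  have g0 : ∀ x ∈ M, g x = 0 := fun x hx => by simpa using he (0, ⟨x, hx⟩)
  obtain ⟨H, _, _, _, π, Ω, hi, hcyc⟩ := exists_gns g hg g1
  have := nontrivial_of_unit (Ω := Ω) (by simpa [g1] using hi 1 1)
  have k1 : ∀ x ∈ M, π x = 0 := fun x hx => hcyc x fun y => by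
    rw [← mul_apply_eq_comp, ← map_mul, ← inner_self_eq_zero (𝕜 := ℂ), hi]
    exact g0 _ (M.mul_mem_left _ _ (M.mul_mem_right _ _ hx))
  refine h _ π (fun x y hxy => ?_) fun x hx => k1 x (hM hx)
  let J := TwoSidedIdeal.mk' {z | ∀ w, π (z * w * y) = 0} (by simp)
    (fun {a b} ha hb w => by rw [add_mul, add_mul, map_add, ha w, hb w, add_zero])
    (fun {a} ha w => by rw [neg_mul, neg_mul, map_neg, ha w, neg_zero])
    (fun {a b} hb w => by rw [mul_assoc a, mul_assoc a, map_mul, hb w, mul_zero])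
    (fun {a b} ha w => by rw [mul_assoc a b]; exact ha _)
  by_cases hJ : (1 : B) ∈ J
  · rw [TwoSidedIdeal.mem_mk'] at hJ
    right; simpa using hJ 1
  · left
    refine k1 x (hmax J (fun z hz => ?_) hJ ?_)
    · rw [TwoSidedIdeal.mem_mk']
      intro w; simp [k1 z hz]
    · rw [TwoSidedIdeal.mem_mk']; exact hxy

theorem Cov.eventually {B : Type*} [CStarAlgebra B] {x : B} (h : Cov {x}) :
    ∀ᶠ y in 𝓝 x, Cov {y} := by
  have := h (TwoSidedIdeal.mk' {w | ∃ F : B → B, Continuous F ∧ F x = w ∧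
      ∀ (y : B) (J : TwoSidedIdeal B), y ∈ J → F y ∈ J}
    ⟨0, continuous_const, rfl, fun _ J _ => J.zero_mem⟩
    (by rintro _ _ ⟨F, hF, rfl, h1⟩ ⟨G, hG, rfl, h2⟩
        exact ⟨F + G, hF.add hG, rfl, fun y J hy => J.add_mem (h1 y J hy) (h2 y J hy)⟩)
    (by rintro _ ⟨F, hF, rfl, h1⟩
        exact ⟨-F, hF.neg, rfl, fun y J hy => J.neg_mem (h1 y J hy)⟩)
    (by rintro c _ ⟨F, hF, rfl, h1⟩
        exact ⟨fun y => c * F y, by fun_prop, rfl, fun y J hy => J.mul_mem_left _ _ (h1 y J hy)⟩)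
    (by rintro _ c ⟨F, hF, rfl, h1⟩
        exact ⟨fun y => F y * c, by fun_prop, rfl, fun y J hy => J.mul_mem_right _ _ (h1 y J hy)⟩))
    (by rintro _ rfl
        simp only [SetLike.mem_coe, TwoSidedIdeal.mem_mk']
        exact ⟨id, continuous_id, rfl, fun _ _ h => h⟩)
  rw [TwoSidedIdeal.mem_mk'] at this
  obtain ⟨F, hF, h1, h2⟩ := this
  have : ∀ᶠ y in 𝓝 x, ‖1 - F y‖ < 1 :=
    ContinuousAt.eventually_lt (f := fun y => ‖1 - F y‖) (by fun_prop) continuousAt_const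
      (by simp [h1])
  exact this.mono fun y hy J hJ => one_mem_of_near J (h2 y J (hJ rfl)) hy

theorem exists_of_graph {T D B : Type*} [Semiring T] [Algebra ℂ T] [StarRing T] [CStarAlgebra D]
    [CStarAlgebra B] (p : T →⋆ₐ[ℂ] D) (q : T →⋆ₐ[ℂ] B) (hp : DenseRange p)
    (h : ∀ t, ‖q t‖ ≤ ‖p t‖) : ∃ θ : D →⋆ₐ[ℂ] B, ∀ t, θ (p t) = q t := by
  let G := (p.prod q).range.topologicalClosure
  have : IsClosed (G : Set (D × B)) := StarSubalgebra.isClosed_topologicalClosure _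
  let f : G →⋆ₐ[ℂ] D := (StarAlgHom.fst ℂ D B).comp G.subtype
  have hb : ∀ x ∈ G, ‖x.2‖ ≤ ‖x.1‖ := fun x hx =>
    closure_minimal (t := {x : D × B | ‖x.2‖ ≤ ‖x.1‖}) (by rintro _ ⟨t, rfl⟩; exact h t)
      (isClosed_le (by fun_prop) (by fun_prop)) hx
  have hi : Function.Injective f := (injective_iff_map_eq_zero f).2 fun x hx => by
    have h1 : x.1.1 = 0 := hx
    have := hb x x.2
    rw [h1, norm_zero, norm_le_zero_iff] at this
    exact Subtype.ext (Prod.ext h1 this)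
  have hm : ∀ t, (p t, q t) ∈ G := fun t => StarSubalgebra.le_topologicalClosure _ ⟨t, rfl⟩
  have hs : Function.Surjective f := fun d =>
    closure_minimal (by rintro _ ⟨t, rfl⟩; exact ⟨⟨_, hm t⟩, rfl⟩)
      (NonUnitalStarAlgHom.isometry f hi).isClosedEmbedding.isClosed_range (hp d)
  let e := StarAlgEquiv.ofBijective f ⟨hi, hs⟩
  refine ⟨((StarAlgHom.snd ℂ D B).comp G.subtype).comp e.symm, fun t => ?_⟩
  have : e.symm (p t) = ⟨_, hm t⟩ := e.symm_apply_eq.2 rfl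
  simp [this]

theorem isSeparable_adjoin {B : Type*} [CStarAlgebra B] {s : Set B} (hs : IsSeparable s) :
    IsSeparable ((StarAlgebra.adjoin ℂ s).topologicalClosure : Set B) := by
  obtain ⟨c, hc, hsc⟩ := hs
  have h1 : (Submonoid.closure (c ∪ star c) : Set B).Countable := by
    have hc' : (c ∪ star c).Countable := hc.union (by
      rw [← Set.image_star]; exact hc.image _)
    have := hc'.to_subtype
    refine (Set.countable_range fun l : List (c ∪ star c : Set B) => (l.map (↑) : List B).prod).mono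
      fun x hx => ?_
    obtain ⟨l, hl, rfl⟩ := Submonoid.exists_list_of_mem_closure hx
    exact ⟨l.pmap Subtype.mk hl, by simp [List.map_pmap]⟩
  have h2 : IsSeparable (StarAlgebra.adjoin ℂ c : Set B) := by
    have := h1.isSeparable.span (R := ℂ)
    rwa [← Algebra.adjoin_eq_span] at this
  refine h2.closure.mono ?_
  change _ ⊆ ((StarAlgebra.adjoin ℂ c).topologicalClosure : Set B)
  exact StarSubalgebra.topologicalClosure_minimal (StarAlgebra.adjoin_le (hsc.trans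
    (closure_mono (StarAlgebra.subset_adjoin ℂ c)))) (StarSubalgebra.isClosed_topologicalClosure _)

end Vale.Agent.P101
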