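import Vale.Agent.P101.Cov

/-! Order zero maps. -/

open scoped Kronecker
open TopologicalSpace

namespace Vale.Agent.P101

/-- Algebraic order zero maps. -/
structure IsOZ {R B : Type*} [Ring R] [StarRing R] [Algebra ℂ R] [CStarAlgebra B]
    (χ : R →ₗ[ℂ] B) : Prop where
  star : ∀ a, χ (star a) = star (χ a)
  mul : ∀ a b, χ a * χ b = χ 1 * χ (a * b)

namespace IsOZ

variable {R B : Type*} [Ring R] [StarRing R] [Algebra ℂ R] [CStarAlgebra B] {χ : R →ₗ[ℂ] B}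

theorem sa (h : IsOZ χ) {a : R} (ha : IsSelfAdjoint a) : IsSelfAdjoint (χ a) := by
  rw [IsSelfAdjoint, ← h.star, ha.star_eq]

theorem sa1 (h : IsOZ χ) : IsSelfAdjoint (χ 1) := h.sa (IsSelfAdjoint.one R)

theorem comm (h : IsOZ χ) (a : R) : Commute (χ 1) (χ a) := by
  rw [Commute, SemiconjBy, h.mul a 1, mul_one]

theorem map (h : IsOZ χ) {Q : Type*} [CStarAlgebra Q] (π : B →⋆ₐ[ℂ] Q) :
    IsOZ (π.toLinearMap ∘ₗ χ) :=
  ⟨fun a => by simp [h.star, map_star], fun a b => by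
    change π _ * π _ = π _ * π _
    rw [← map_mul, h.mul, map_mul]⟩

theorem comp (h : IsOZ χ) {R' : Type*} [Ring R'] [StarRing R'] [Algebra ℂ R'] (g : R' →ₗ[ℂ] R)
    (h1 : ∀ a, g (Star.star a) = Star.star (g a)) (h2 : ∀ a b, g (a * b) = g a * g b) :
    IsOZ (χ ∘ₗ g) :=
  ⟨fun a => by simp [h1, h.star], fun a b => by
    simp only [LinearMap.comp_apply]
    rw [h.mul, h.mul (g 1), ← h2, ← h2, one_mul]⟩

theorem scale (h : IsOZ χ) {c : B} (hc : IsSelfAdjoint c) (h1 : ∀ a, Commute c (χ a)) :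
    IsOZ (LinearMap.mulLeft ℂ c ∘ₗ χ) :=
  ⟨fun a => by
    simp only [LinearMap.comp_apply, LinearMap.mulLeft_apply]
    rw [star_mul, hc.star_eq, ← h.star, (h1 _).eq], fun a b => by
    simp only [LinearMap.comp_apply, LinearMap.mulLeft_apply]
    rw [mul_assoc, mul_assoc, ← mul_assoc (χ a), ← mul_assoc (χ 1), ← (h1 a).eq, ← (h1 1).eq,
      mul_assoc, mul_assoc, h.mul]⟩

theorem add (h : IsOZ χ) {χ' : R →ₗ[ℂ] B} (h' : IsOZ χ') (h1 : ∀ a b, χ a * χ' b = 0)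
    (h2 : ∀ a b, χ' a * χ b = 0) : IsOZ (χ + χ') :=
  ⟨fun a => by simp [h.star, h'.star], fun a b => by
    simp [mul_add, add_mul, h1, h2, h.mul a b, h'.mul a b]⟩

theorem cancel (h : IsOZ χ) {c : R} (hc : χ 1 * χ c = 0) : χ c = 0 := by
  rw [← CStarRing.star_mul_self_eq_zero_iff]
  refine sa_sq_zero (IsSelfAdjoint.star_mul_self _) ?_
  nth_rw 1 [← h.star, h.mul, (h.comm _).eq]
  rw [mul_assoc, ← mul_assoc (χ 1), ← h.star, (h.comm _).eq, mul_assoc, hc]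
  simp

theorem one_eq_zero [IsSimpleRing R] (h : IsOZ χ) {a : R} (ha : a ≠ 0) (h0 : χ a = 0) :
    χ 1 = 0 := by
  have := IsSimpleRing.one_mem_of_ne_zero_mem (TwoSidedIdeal.mk' {a | χ a = 0} (by simp)
    (fun {a b} ha hb => by simp_all) (fun {a} ha => by simp_all)
    (fun {a b} hb => h.cancel (by rw [← h.mul, hb, mul_zero]))
    (fun {a b} ha => h.cancel (by rw [← h.mul, ha, zero_mul]))) ha (by simpa using h0)
  simpa using this

theorem eq_zero (h : IsOZ χ) (h0 : χ 1 = 0) (a : R) : χ a = 0 := h.cancel (by simp [h0])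

theorem restrict (h : IsOZ χ) (D : StarSubalgebra ℂ B) [IsClosed (D : Set B)]
    (hD : ∀ a, χ a ∈ D) : ∃ χ' : R →ₗ[ℂ] D, IsOZ χ' ∧ ∀ a, (χ' a : B) = χ a :=
  ⟨χ.codRestrict D.toSubalgebra.toSubmodule hD,
    ⟨fun a => Subtype.ext (h.star a), fun a b => Subtype.ext (h.mul a b)⟩, fun _ => rfl⟩

end IsOZ

variable {B : Type*} [CStarAlgebra B] {m n : Type*} [Fintype m] [DecidableEq m] [Fintype n]
  [DecidableEq n]

omit [DecidableEq n] in
theorem isSeparable_lin (χ : Matrix n n ℂ →ₗ[ℂ] B) : IsSeparable (Set.range χ) :=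
  have : SeparableSpace (Matrix n n ℂ) := inferInstanceAs (SeparableSpace (n → n → ℂ))
  isSeparable_range χ.continuous_of_finiteDimensional

/-- The tensor product of two maps with commuting ranges. -/
noncomputable def tens (χ₁ : Matrix m m ℂ →ₗ[ℂ] B) (χ₂ : Matrix n n ℂ →ₗ[ℂ] B) :
    Matrix (m × n) (m × n) ℂ →ₗ[ℂ] B :=
  TensorProduct.lift ((LinearMap.mul ℂ B).compl₁₂ χ₁ χ₂) ∘ₗ
    (kroneckerLinearEquiv m m n n ℂ).symm.toLinearMap

theorem tens_kron (χ₁ : Matrix m m ℂ →ₗ[ℂ] B) (χ₂ : Matrix n n ℂ →ₗ[ℂ] B) (a b) :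
    tens χ₁ χ₂ (a ⊗ₖ b) = χ₁ a * χ₂ b := by
  simp [tens]

theorem kron_ind {P : Matrix (m × n) (m × n) ℂ → Prop} (h0 : P 0) (h1 : ∀ a b, P (a ⊗ₖ b))
    (h2 : ∀ x y, P x → P y → P (x + y)) (x) : P x := by
  obtain ⟨y, rfl⟩ := (kroneckerLinearEquiv m m n n ℂ).surjective x
  induction y using TensorProduct.induction_on with
  | zero => simpa
  | tmul a b => simpa using h1 a b
  | add x y hx hy => rw [map_add]; exact h2 _ _ hx hy

theorem commute_tens {χ₁ : Matrix m m ℂ →ₗ[ℂ] B} {χ₂ : Matrix n n ℂ →ₗ[ℂ] B} {c : B}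
    (h1 : ∀ a, Commute c (χ₁ a)) (h2 : ∀ a, Commute c (χ₂ a)) (x) : Commute c (tens χ₁ χ₂ x) := by
  induction x using kron_ind with
  | h0 => simp
  | h1 a b => rw [tens_kron]; exact (h1 a).mul_right (h2 b)
  | h2 x y hx hy => rw [map_add]; exact hx.add_right hy

section

variable {χ₁ : Matrix m m ℂ →ₗ[ℂ] B} {χ₂ : Matrix n n ℂ →ₗ[ℂ] B} (h₁ : IsOZ χ₁) (h₂ : IsOZ χ₂)
  (hc : ∀ a b, Commute (χ₁ a) (χ₂ b))

theorem tens_one : tens χ₁ χ₂ 1 = χ₁ 1 * χ₂ 1 := by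
  rw [← Matrix.one_kronecker_one, tens_kron]

include h₁ in
theorem tens_l (a x) : χ₁ a * tens χ₁ χ₂ x = χ₁ 1 * tens χ₁ χ₂ (a ⊗ₖ 1 * x) := by
  induction x using kron_ind with
  | h0 => simp
  | h1 c d => rw [← Matrix.mul_kronecker_mul, tens_kron, tens_kron, ← mul_assoc, h₁.mul, one_mul,
      mul_assoc]
  | h2 x y hx hy => simp only [map_add, mul_add, hx, hy]

include h₁ hc in
theorem tens_l' (a x) : tens χ₁ χ₂ x * χ₁ a = χ₁ 1 * tens χ₁ χ₂ (x * a ⊗ₖ 1) := by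
  induction x using kron_ind with
  | h0 => simp
  | h1 c d => rw [← Matrix.mul_kronecker_mul, tens_kron, tens_kron, mul_assoc, ← (hc a d).eq,
      ← mul_assoc, h₁.mul, mul_one, mul_assoc]
  | h2 x y hx hy => simp only [map_add, mul_add, add_mul, hx, hy]

include h₂ hc in
theorem tens_r (a x) : χ₂ a * tens χ₁ χ₂ x = χ₂ 1 * tens χ₁ χ₂ (1 ⊗ₖ a * x) := by
  induction x using kron_ind with
  | h0 => simp
  | h1 c d => rw [← Matrix.mul_kronecker_mul, tens_kron, tens_kron, ← mul_assoc, ← (hc c a).eq,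
      mul_assoc, h₂.mul, one_mul, ← mul_assoc, (hc c 1).eq, mul_assoc]
  | h2 x y hx hy => simp only [map_add, mul_add, hx, hy]

include h₂ hc in
theorem tens_r' (a x) : tens χ₁ χ₂ x * χ₂ a = χ₂ 1 * tens χ₁ χ₂ (x * 1 ⊗ₖ a) := by
  induction x using kron_ind with
  | h0 => simp
  | h1 c d => rw [← Matrix.mul_kronecker_mul, tens_kron, tens_kron, mul_assoc, h₂.mul, mul_one,
      ← mul_assoc, (hc c 1).eq, mul_assoc]
  | h2 x y hx hy => simp only [map_add, mul_add, add_mul, hx, hy]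

include h₁ h₂ hc in
theorem IsOZ.tens : IsOZ (tens χ₁ χ₂) := by
  refine ⟨fun x => ?_, fun x y => ?_⟩
  · induction x using kron_ind with
    | h0 => simp
    | h1 c d => rw [Matrix.star_eq_conjTranspose, Matrix.conjTranspose_kronecker, tens_kron,
        tens_kron, star_mul, ← h₁.star, ← h₂.star, (hc _ _).eq]; rfl
    | h2 x y hx hy => simp only [star_add, map_add, hx, hy]
  · induction x using kron_ind with
    | h0 => simp
    | h1 c d =>
      rw [tens_kron, mul_assoc, tens_r h₂ hc, ← mul_assoc, (hc c 1).eq, mul_assoc, tens_l h₁,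
        ← mul_assoc, ← mul_assoc, ← Matrix.mul_kronecker_mul, ← (hc 1 1).eq, tens_one]
      simp
    | h2 x y hx hy => simp only [map_add, mul_add, add_mul, hx, hy]

end

theorem comb_alg {R S : Type*} [Ring R] [Ring S] (l r : R → S) (Φ : S) (f g : R → B) (μ : S →+ B)
    (σ τ k : B) (a b : R) (hl : l a * l b = l (a * b)) (hr : r a * r b = r (a * b))
    (hlr : ∀ a b, l a * r b = r b * l a) (hΦ : Φ * Φ = 1) (hΦl : ∀ a, Φ * l a = r a * Φ)
    (hf : f a * f b = σ * f (a * b)) (hg : g a * g b = τ * g (a * b))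
    (hfg : ∀ a b, f a * g b = μ (l a * r b)) (hgf : ∀ a b, g b * f a = μ (l a * r b))
    (hfμ : ∀ a x, f a * μ x = σ * μ (l a * x)) (hμf : ∀ a x, μ x * f a = σ * μ (x * l a))
    (hgμ : ∀ a x, g a * μ x = τ * μ (r a * x)) (hμg : ∀ a x, μ x * g a = τ * μ (x * r a))
    (hμ : ∀ x y, μ x * μ y = σ * (τ * μ (x * y)))
    (hμl : μ (l (a * b)) = τ * f (a * b)) (hμr : μ (r (a * b)) = σ * g (a * b))
    (cf : ∀ a, ∀ c ∈ [σ, τ, k], Commute c (f a)) (cg : ∀ a, ∀ c ∈ [σ, τ, k], Commute c (g a))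
    (cμ : ∀ a, ∀ c ∈ [σ, τ, k], Commute c (μ a))
    (c1 : Commute σ τ) (c2 : Commute σ k) (c3 : Commute τ k) :
    (σ * f a - k * k * τ * g a + k * μ (Φ * l a - l a * Φ)) *
      (σ * f b - k * k * τ * g b + k * μ (Φ * l b - l b * Φ)) =
    (σ * σ - k * k * τ * τ) *
      (σ * f (a * b) - k * k * τ * g (a * b) + k * μ (Φ * l (a * b) - l (a * b) * Φ)) := by
  have hΦ' : ∀ x, Φ * (Φ * x) = x := fun x => by rw [← mul_assoc, hΦ, one_mul]
  have hΦr : ∀ a, Φ * r a = l a * Φ := fun a => by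
    rw [← mul_one (r a), ← hΦ, ← mul_assoc (r a), ← hΦl, mul_assoc, hΦ']
  have hΦl' : ∀ a x, Φ * (l a * x) = r a * (Φ * x) := fun a x => by
    rw [← mul_assoc, hΦl, mul_assoc]
  have hΦr' : ∀ a x, Φ * (r a * x) = l a * (Φ * x) := fun a x => by
    rw [← mul_assoc, hΦr, mul_assoc]
  have e1 : μ (l a * (Φ * l b - l b * Φ)) =
      μ (Φ * l (a * b) - l (a * b) * Φ) - μ ((Φ * l a - l a * Φ) * l b) := by
    rw [← map_sub, ← hl]; congr 1; noncomm_ring
  have e2 : μ (r a * (Φ * l b - l b * Φ)) =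
      μ (Φ * l (a * b) - l (a * b) * Φ) - μ ((Φ * l a - l a * Φ) * r b) := by
    rw [← map_sub, ← hl]; congr 1
    simp only [mul_sub, sub_mul, mul_assoc, hΦl, hΦr, hΦl']
    abel
  have e3 : μ ((Φ * l a - l a * Φ) * (Φ * l b - l b * Φ)) =
      μ (l b * r a) + μ (l a * r b) - τ * f (a * b) - σ * g (a * b) := by
    rw [← hμl, ← hμr, ← map_add, ← map_sub, ← map_sub, ← hl, ← hr, hlr b a]; congr 1
    simp only [mul_sub, sub_mul, mul_assoc, hΦl, hΦl', hΦr', hΦ, mul_one]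
    abel
  generalize Φ * l (a * b) - l (a * b) * Φ = D at *
  generalize Φ * l a - l a * Φ = Da at *
  generalize Φ * l b - l b * Φ = Db at *
  have sw : ∀ {c x : B}, Commute c x → ∀ y, x * (c * y) = c * (x * y) := fun h y => by
    rw [← mul_assoc, ← h.eq, mul_assoc]
  simp only [List.mem_cons, List.not_mem_nil, or_false, forall_eq_or_imp, forall_eq] at cf cg cμ
  simp only [mul_add, add_mul, mul_sub, sub_mul, mul_assoc, sw (cf _).1, sw (cf _).2.1,
    sw (cf _).2.2, sw (cg _).1, sw (cg _).2.1, sw (cg _).2.2, sw (cμ _).1, sw (cμ _).2.1,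
    sw (cμ _).2.2, hf, hg, hfg, hgf, hfμ, hμf, hgμ, hμg, hμ, e1, e2, e3, sw c1, sw c2, sw c3]
  abel

end Vale.Agent.P101
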