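import Vale.Agent.P101.Defs
import Vale.Agent.P101.OZ

/-! The dimension-drop algebra as a C*-algebra. -/

open scoped Matrix.Norms.L2Operator Kronecker

namespace Vale.Agent.P101

variable {p q : ℕ}

/-- `a ↦ a ⊗ 1`. -/
def kl (m n : Type) [Fintype m] [DecidableEq m] [Fintype n] [DecidableEq n] :
    Matrix m m ℂ →⋆ₐ[ℂ] Matrix (m × n) (m × n) ℂ where
  toFun a := a ⊗ₖ 1
  map_one' := by simp
  map_mul' a b := by simp [← Matrix.mul_kronecker_mul]
  map_zero' := by simp
  map_add' a b := by simp [Matrix.add_kronecker]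
  commutes' c := by simp [Algebra.algebraMap_eq_smul_one, Matrix.smul_kronecker]
  map_star' a := by simp [Matrix.star_eq_conjTranspose, Matrix.conjTranspose_kronecker]

/-- `b ↦ 1 ⊗ b`. -/
def kr (m n : Type) [Fintype m] [DecidableEq m] [Fintype n] [DecidableEq n] :
    Matrix n n ℂ →⋆ₐ[ℂ] Matrix (m × n) (m × n) ℂ where
  toFun a := 1 ⊗ₖ a
  map_one' := by simp
  map_mul' a b := by simp [← Matrix.mul_kronecker_mul]
  map_zero' := by simp
  map_add' a b := by simp [Matrix.kronecker_add]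
  commutes' c := by simp [Algebra.algebraMap_eq_smul_one, Matrix.kronecker_smul]
  map_star' a := by simp [Matrix.star_eq_conjTranspose, Matrix.conjTranspose_kronecker]

instance dimDrop_isClosed : IsClosed (DimDrop p q : Set C(unitInterval, Mat p q)) := by
  convert ((LinearMap.range (kl (Fin p) (Fin q)).toLinearMap).closed_of_finiteDimensional.preimage
    (continuous_eval_const (F := C(unitInterval, Mat p q)) 0)).inter
    ((LinearMap.range (kr (Fin p) (Fin q)).toLinearMap).closed_of_finiteDimensional.preimage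
    (continuous_eval_const (F := C(unitInterval, Mat p q)) 1))
  ext f
  exact and_congr (exists_congr fun _ => eq_comm) (exists_congr fun _ => eq_comm)

/-- The dimension-drop algebra as a type. -/
def DD (p q : ℕ) : Type := DimDrop p q

noncomputable instance : CStarAlgebra (DD p q) := inferInstanceAs (CStarAlgebra (DimDrop p q))

instance : TopologicalSpace.SeparableSpace (DD p q) :=
  (inferInstance : TopologicalSpace.SeparableSpace (DimDrop p q))

/-- The inclusion in the continuous matrix functions. -/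
noncomputable def DD.val : DD p q →⋆ₐ[ℂ] C(unitInterval, Mat p q) := (DimDrop p q).subtype

theorem DD.val_inj : Function.Injective (DD.val (p := p) (q := q)) := Subtype.val_injective

theorem DD.ext' {f g : DD p q} (h : ∀ t, DD.val f t = DD.val g t) : f = g :=
  DD.val_inj (ContinuousMap.ext h)

theorem DD.norm_val (f : DD p q) : ‖DD.val f‖ = ‖f‖ := rfl

/-- Evaluation at a point. -/
noncomputable def DD.ev (s : unitInterval) : DD p q →⋆ₐ[ℂ] Mat p q where
  toFun f := DD.val f s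
  map_one' := by simp
  map_mul' a b := by simp
  map_zero' := by simp
  map_add' a b := by simp
  commutes' c := by simp [Algebra.algebraMap_eq_smul_one]
  map_star' a := by simp [map_star]

/-- A scalar function times a matrix. -/
noncomputable def sm (u : C(unitInterval, ℝ)) (m : Mat p q) : C(unitInterval, Mat p q) :=
  ⟨fun t => (u t : ℂ) • m, by fun_prop⟩

@[simp] theorem sm_apply (u : C(unitInterval, ℝ)) (m : Mat p q) (t) : sm u m t = (u t : ℂ) • m := rfl

/-- The coordinate function. -/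
def tX : C(unitInterval, ℝ) := .restrict unitInterval (.id ℝ)

@[simp] theorem tX_apply (t : unitInterval) : tX t = t := rfl

/-- Scalar functions. -/
noncomputable def DD.sc (u : C(unitInterval, ℝ)) : DD p q :=
  ⟨sm u 1, ⟨(u 0 : ℂ) • 1, by simp [Matrix.smul_kronecker]⟩,
    (u 1 : ℂ) • 1, by simp [Matrix.kronecker_smul]⟩

/-- `(1 - t) a ⊗ 1`. -/
noncomputable def DD.lf (a : Matrix (Fin p) (Fin p) ℂ) : DD p q :=
  ⟨sm (1 - tX) (a ⊗ₖ 1), ⟨a, by simp⟩, 0, by simp⟩

/-- `t 1 ⊗ b`. -/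
noncomputable def DD.rt (b : Matrix (Fin q) (Fin q) ℂ) : DD p q :=
  ⟨sm tX (1 ⊗ₖ b), ⟨0, by simp⟩, b, by simp⟩

/-- `t (1 - t) m`. -/
noncomputable def DD.mid (m : Mat p q) : DD p q :=
  ⟨sm (tX * (1 - tX)) m, ⟨0, by simp⟩, 0, by simp⟩

@[simp] theorem DD.val_sc (u) : DD.val (DD.sc u : DD p q) = sm u 1 := rfl
@[simp] theorem DD.val_lf (a) : DD.val (DD.lf a : DD p q) = sm (1 - tX) (a ⊗ₖ 1) := rfl
@[simp] theorem DD.val_rt (a) : DD.val (DD.rt a : DD p q) = sm tX (1 ⊗ₖ a) := rfl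
@[simp] theorem DD.val_mid (a) : DD.val (DD.mid a : DD p q) = sm (tX * (1 - tX)) a := rfl
@[simp] theorem DD.ev_apply (s) (f : DD p q) : DD.ev s f = DD.val f s := rfl

theorem DD.sc_tX : (DD.sc tX : DD p q) = DD.rt 1 := DD.ext' (by simp)

theorem DD.sc_const (r : ℝ) : (DD.sc (.const _ r) : DD p q) = algebraMap ℂ _ r :=
  DD.ext' fun t => by rw [AlgHomClass.commutes, Algebra.algebraMap_eq_smul_one]; rfl

theorem DD.sc_add (f g) : (DD.sc (f + g) : DD p q) = DD.sc f + DD.sc g :=
  DD.ext' (by simp [add_smul])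

theorem DD.sc_mul (f g) : (DD.sc (f * g) : DD p q) = DD.sc f * DD.sc g :=
  DD.ext' (by simp [smul_smul, mul_comm, ← Complex.ofReal_mul])

@[fun_prop]
theorem DD.sc_cont : Continuous (DD.sc : _ → DD p q) :=
  Continuous.subtype_mk
    (ContinuousMap.continuous_postcomp ⟨fun r : ℝ => (r : ℂ) • (1 : Mat p q), by fun_prop⟩) _

theorem DD.X_central (f : DD p q) : Commute (DD.rt 1) f := DD.ext' (by simp)

theorem DD.X_sa : IsSelfAdjoint (DD.rt 1 : DD p q) := DD.ext' (by simp [map_star])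

theorem DD.norm_sc_mul_le {u : C(unitInterval, ℝ)} {f : DD p q} {c : ℝ} (hc : 0 ≤ c)
    (h : ∀ t, |u t| * ‖DD.val f t‖ ≤ c) : ‖DD.sc u * f‖ ≤ c := by
  rw [← DD.norm_val, ContinuousMap.norm_le _ hc]
  simpa [norm_smul] using h

theorem DD.X_le : ‖(DD.rt 1 : DD p q)‖ ≤ 1 ∧ ‖1 - (DD.rt 1 : DD p q)‖ ≤ 1 := by
  have : ‖(1 : Mat p q)‖ ≤ 1 := by
    nontriviality (Mat p q)
    exact norm_one.le
  constructor
  · rw [show DD.rt 1 = DD.sc tX * (1 : DD p q) from DD.ext' (by simp)]
    exact DD.norm_sc_mul_le zero_le_one fun t =>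
      mul_le_one₀ (by simpa [abs_of_nonneg t.2.1] using t.2.2) (norm_nonneg _) (by simpa)
  · rw [show 1 - DD.rt 1 = DD.sc (1 - tX) * (1 : DD p q) from DD.ext' (by simp [sub_smul])]
    exact DD.norm_sc_mul_le zero_le_one fun t =>
      mul_le_one₀ (by simpa [abs_of_nonneg (sub_nonneg.2 t.2.2)] using t.2.1) (norm_nonneg _)
        (by simpa)

theorem DD.kill {Q : Type*} [CStarAlgebra Q] (ρ : DD p q →⋆ₐ[ℂ] Q) {s : unitInterval}
    (h : ρ (DD.rt 1) = algebraMap ℂ Q (s : ℝ)) {f : DD p q} (hf : DD.val f s = 0) : ρ f = 0 := by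
  have key : ∀ u : C(unitInterval, ℝ), ρ (DD.sc u) = algebraMap ℂ Q (u s) := fun u => by
    induction u using ContinuousMap.induction_on_of_compact with
    | const r => rw [DD.sc_const, AlgHomClass.commutes]; rfl
    | id => exact (congrArg ρ DD.sc_tX).trans h
    | star_id => exact (congrArg ρ DD.sc_tX).trans h
    | add f g hf hg => simp [DD.sc_add, hf, hg]
    | mul f g hf hg => simp [DD.sc_mul, hf, hg]
    | frequently f hf => exact hf.mem_of_closed (isClosed_eq (by fun_prop) (by fun_prop))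
  refine norm_le_zero_iff.1 (le_of_forall_pos_le_add fun ε hε => ?_)
  let u : C(unitInterval, ℝ) := ⟨fun t => ‖DD.val f t‖ + ε, by fun_prop⟩
  have u0 : ∀ t, 0 < u t := fun t => add_pos_of_nonneg_of_pos (norm_nonneg _) hε
  let v : C(unitInterval, ℝ) := ⟨fun t => (u t)⁻¹, u.continuous.inv₀ fun t => (u0 t).ne'⟩
  have e : f = DD.sc u * (DD.sc v * f) := DD.ext' fun t => by
    simp [v, ← Complex.ofReal_inv, smul_smul, (u0 t).ne']
  have n1 : ‖DD.sc v * f‖ ≤ 1 := DD.norm_sc_mul_le zero_le_one fun t => by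
    change |(u t)⁻¹| * _ ≤ 1
    rw [abs_of_pos (inv_pos.2 (u0 t)), inv_mul_le_iff₀ (u0 t), mul_one]
    exact le_add_of_nonneg_right hε.le
  rw [e, map_mul, key, ← Algebra.smul_def, norm_smul, zero_add]
  have : u s = ε := by simp [u, hf]
  rw [this, Complex.norm_real, Real.norm_of_nonneg hε.le]
  exact mul_le_of_le_one_right hε.le ((hom_le ρ _).trans n1)

theorem exists_factor {D M N : Type*} [CStarAlgebra D] [CStarAlgebra M] [CStarAlgebra N]
    (ev : D →⋆ₐ[ℂ] M) (κ : N →⋆ₐ[ℂ] M) (hκ : Function.Injective κ) (h : ∀ f, ∃ a, ev f = κ a) :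
    ∃ ψ : D →⋆ₐ[ℂ] N, ∀ f, κ (ψ f) = ev f := by
  let e := StarAlgEquiv.ofBijective κ.rangeRestrict
    ⟨fun a b h => hκ (congrArg Subtype.val h), by rintro ⟨_, a, rfl⟩; exact ⟨a, rfl⟩⟩
  refine ⟨(e.symm : κ.range →⋆ₐ[ℂ] N).comp (ev.codRestrict κ.range fun f => (h f).imp fun _ => Eq.symm),
    fun f => congrArg Subtype.val (e.apply_symm_apply _)⟩

theorem DD.exists_psi0 [NeZero p] [NeZero q] : ∃ ψ : DD p q →⋆ₐ[ℂ] Matrix (Fin p) (Fin p) ℂ,
    (∀ f, ψ f ⊗ₖ 1 = DD.val f 0) ∧ (∀ a, ψ (DD.lf a) = a) ∧ ∀ b, ψ (DD.rt b) = 0 := by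
  have hi : Function.Injective (kl (Fin p) (Fin q)) := RingHom.injective _
  obtain ⟨ψ, h⟩ := exists_factor (DD.ev 0) _ hi fun f => f.2.1
  exact ⟨ψ, h, fun a => hi (by rw [h]; simp [kl]), fun a => hi (by simp [h])⟩

theorem DD.exists_psi1 [NeZero p] [NeZero q] : ∃ ψ : DD p q →⋆ₐ[ℂ] Matrix (Fin q) (Fin q) ℂ,
    (∀ f, 1 ⊗ₖ ψ f = DD.val f 1) ∧ (∀ a, ψ (DD.rt a) = a) ∧ ∀ b, ψ (DD.lf b) = 0 := by
  have hi : Function.Injective (kr (Fin p) (Fin q)) := RingHom.injective _
  obtain ⟨ψ, h⟩ := exists_factor (DD.ev 1) _ hi fun f => f.2.2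
  exact ⟨ψ, h, fun a => hi (by rw [h]; simp [kr]), fun a => hi (by simp [h])⟩

theorem DD.exists_fibre [NeZero p] [NeZero q] (s : unitInterval) :
    ∃ (n : Type) (_ : Fintype n) (_ : DecidableEq n) (_ : Nonempty n)
      (ψ : DD p q →⋆ₐ[ℂ] Matrix n n ℂ), Function.Surjective ψ ∧ ∀ f, ψ f = 0 → DD.val f s = 0 := by
  rcases eq_or_ne s 0 with rfl | h0
  · obtain ⟨ψ, h1, h2, -⟩ := DD.exists_psi0 (p := p) (q := q)
    exact ⟨_, _, _, inferInstance, ψ, fun a => ⟨_, h2 a⟩, fun f hf => by simp [← h1, hf]⟩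
  rcases eq_or_ne s 1 with rfl | h1
  · obtain ⟨ψ, h1, h2, -⟩ := DD.exists_psi1 (p := p) (q := q)
    exact ⟨_, _, _, inferInstance, ψ, fun a => ⟨_, h2 a⟩, fun f hf => by simp [← h1, hf]⟩
  have e0 : ((s : ℝ) : ℂ) ≠ 0 := by simpa
  have e1 : 1 - ((s : ℝ) : ℂ) ≠ 0 := by
    rw [sub_ne_zero, ne_comm]; exact_mod_cast fun h => h1 (Subtype.ext h)
  exact ⟨_, _, _, inferInstance, DD.ev s,
    fun m => ⟨DD.mid ((((s : ℝ) : ℂ) * (1 - s))⁻¹ • m), by
      simp only [ev_apply, val_mid, sm_apply, smul_smul, ContinuousMap.mul_apply, tX_apply,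
        ContinuousMap.sub_apply, ContinuousMap.one_apply]
      push_cast
      rw [mul_inv_cancel₀ (mul_ne_zero e0 e1), one_smul]⟩, fun f hf => hf⟩

theorem DD.dense (P : StarSubalgebra ℂ (DD p q)) (hP : IsClosed (P : Set (DD p q)))
    (h1 : ∀ a, DD.lf a ∈ P) (h2 : ∀ b, DD.rt b ∈ P) (f : DD p q) : f ∈ P := by
  have hsc : ∀ u, DD.sc u ∈ P := fun u => by
    induction u using ContinuousMap.induction_on_of_compact with
    | const r => rw [DD.sc_const]; exact algebraMap_mem P _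
    | id => exact DD.sc_tX (p := p) (q := q) ▸ h2 1
    | star_id => exact DD.sc_tX (p := p) (q := q) ▸ h2 1
    | add f g hf hg => rw [DD.sc_add]; exact add_mem hf hg
    | mul f g hf hg => rw [DD.sc_mul]; exact mul_mem hf hg
    | frequently f hf => exact hf.mem_of_closed (hP.preimage DD.sc_cont)
  let T := P.map DD.val
  have hT : IsClosed (T : Set C(unitInterval, Mat p q)) :=
    (NonUnitalStarAlgHom.isometry DD.val DD.val_inj).isClosedEmbedding.isClosedMap _ hP
  let J : Ideal C(unitInterval, ℝ) :=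
    { carrier := {u | ∀ m, sm u m ∈ T}
      add_mem' := fun {u v} hu hv m => by
        convert add_mem (hu m) (hv m) using 1; ext1; simp [add_smul]
      zero_mem' := fun m => by convert zero_mem T; ext1; simp
      smul_mem' := fun v u hu m => by
        convert mul_mem (⟨_, hsc v, rfl⟩ : _ ∈ T) (hu m) using 1; ext1; simp [mul_smul, smul_comm (v _)] }
  have hJ : IsClosed (J : Set C(unitInterval, ℝ)) := by
    change IsClosed {u | ∀ m, sm u m ∈ T}
    rw [Set.ofPred_forall]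
    exact isClosed_iInter fun m => hT.preimage
      (ContinuousMap.continuous_postcomp ⟨fun r : ℝ => (r : ℂ) • m, by fun_prop⟩)
  have j1 : tX * (1 - tX) ∈ J := fun m => by
    induction m using kron_ind with
    | h0 => convert zero_mem T; ext1; simp
    | h1 a b =>
      refine ⟨_, mul_mem (h1 a) (h2 b), ContinuousMap.ext fun t => ?_⟩
      simp [← Matrix.mul_kronecker_mul, mul_smul]
    | h2 x y hx hy => convert add_mem hx hy using 1; ext1; simp
  have j2 : ∀ u : C(unitInterval, ℝ), u 0 = 0 → u 1 = 0 → u ∈ J := fun u u0 u1 => by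
    rw [← Ideal.closure_eq_of_isClosed J hJ, ← ContinuousMap.idealOfSet_ofIdeal_eq_closure,
      ContinuousMap.mem_idealOfSet]
    intro x hx
    have := ContinuousMap.notMem_setOfIdeal.1 hx j1
    simp only [ContinuousMap.mul_apply, tX_apply, ContinuousMap.sub_apply, ContinuousMap.one_apply,
      mul_eq_zero, sub_eq_zero] at this
    rcases this with e | e
    · rwa [show x = 0 from Subtype.ext e]
    · rwa [show x = 1 from Subtype.ext e.symm]
  obtain ⟨⟨a, ha⟩, b, hb⟩ := f.2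
  set g := DD.val (f - DD.lf a - DD.rt b) with hg
  have g0 : g 0 = 0 := by simp [hg, show DD.val f 0 = _ from ha]
  have g1 : g 1 = 0 := by simp [hg, show DD.val f 1 = _ from hb]
  have hgT : g ∈ T := by
    have : g = ∑ x, ∑ y, (sm ⟨fun t => (g t x y).re, by fun_prop⟩ (Matrix.single x y 1) +
        sm ⟨fun t => (g t x y).im, by fun_prop⟩ (Matrix.single x y Complex.I)) := by
      ext1 t
      simp only [ContinuousMap.coe_sum, Finset.sum_apply, ContinuousMap.add_apply, sm_apply,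
        ContinuousMap.coe_mk, Matrix.smul_single, ← Matrix.single_add, smul_eq_mul, mul_one,
        Complex.re_add_im]
      exact Matrix.matrix_eq_sum_single _
    rw [this]
    exact sum_mem fun x _ => sum_mem fun y _ =>
      add_mem (j2 _ (by simp [g0]) (by simp [g1]) _) (j2 _ (by simp [g0]) (by simp [g1]) _)
  obtain ⟨g', hg', e⟩ := hgT
  rw [DD.val_inj e] at hg'
  simpa using add_mem (add_mem hg' (h2 b)) (h1 a)

end Vale.Agent.P101
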