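import Mathlib

/-! Definitions for P101. -/

open Filter Topology
open scoped BoundedContinuousFunction TensorProduct Kronecker

namespace Vale.Agent.P101

universe u

/-- The ideal of bounded sequences whose norms tend to `0` along `ω`. -/
def nullIdeal (A : Type u) [CStarAlgebra A] (ω : Ultrafilter ℕ) : Ideal (ℕ →ᵇ A) where
  carrier := {x | Tendsto (fun n => ‖x n‖) (ω : Filter ℕ) (𝓝 0)}
  zero_mem' := by simp
  add_mem' {x y} hx hy :=
    squeeze_zero (fun _ => norm_nonneg _) (fun n => norm_add_le (x n) (y n))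
      (by simpa using Tendsto.add hx hy)
  smul_mem' y x hx :=
    squeeze_zero (fun _ => norm_nonneg _) (fun n => (norm_mul_le (y n) (x n)).trans
      (mul_le_mul_of_nonneg_right (y.norm_coe_le_norm n) (norm_nonneg _)))
      (by simpa using Tendsto.const_mul ‖y‖ hx)

instance nullIdeal_isTwoSided (A : Type u) [CStarAlgebra A] (ω : Ultrafilter ℕ) :
    (nullIdeal A ω).IsTwoSided where
  mul_mem_of_left {x} y hx :=
    squeeze_zero (fun _ => norm_nonneg _) (fun n => (norm_mul_le (x n) (y n)).trans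
      (mul_le_mul_of_nonneg_left (y.norm_coe_le_norm n) (norm_nonneg _)))
      (by simpa using Tendsto.mul_const ‖y‖ hx)

/-- The ultrapower `A_ω`. -/
abbrev Ultrapower (A : Type u) [CStarAlgebra A] (ω : Ultrafilter ℕ) : Type u :=
  (ℕ →ᵇ A) ⧸ nullIdeal A ω

noncomputable instance ultrapowerRing (A : Type u) [CStarAlgebra A] (ω : Ultrafilter ℕ) :
    Ring (Ultrapower A ω) := Ideal.Quotient.ring (nullIdeal A ω)

noncomputable instance ultrapowerAlgebra (A : Type u) [CStarAlgebra A] (ω : Ultrafilter ℕ) :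
    Algebra ℂ (Ultrapower A ω) := Ideal.Quotient.algebra ℂ

/-- The class of a bounded sequence in the ultrapower. -/
noncomputable def Ultrapower.mk {A : Type u} [CStarAlgebra A] (ω : Ultrafilter ℕ) (x : ℕ →ᵇ A) :
    Ultrapower A ω := Ideal.Quotient.mk (nullIdeal A ω) x

theorem star_rel {A : Type u} [CStarAlgebra A] {ω : Ultrafilter ℕ} (x y : ℕ →ᵇ A)
    (h : (nullIdeal A ω).quotientRel x y) : (nullIdeal A ω).quotientRel (star x) (star y) := by
  rw [Submodule.quotientRel_def] at h ⊢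
  rw [← star_sub]
  change Tendsto (fun n => ‖star ((x - y) n)‖) _ _
  simp only [norm_star]
  exact h

/-- The involution of the ultrapower, induced by the pointwise involution. -/
noncomputable def ultrapowerStar {A : Type u} [CStarAlgebra A] {ω : Ultrafilter ℕ} :
    Ultrapower A ω → Ultrapower A ω := Quotient.map' star star_rel

noncomputable instance ultrapowerStarRing (A : Type u) [CStarAlgebra A] (ω : Ultrafilter ℕ) :
    StarRing (Ultrapower A ω) where
  star := ultrapowerStar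
  star_involutive := by rintro ⟨x⟩; exact congrArg (Ultrapower.mk ω) (star_star x)
  star_mul := by rintro ⟨x⟩ ⟨y⟩; exact congrArg (Ultrapower.mk ω) (star_mul x y)
  star_add := by rintro ⟨x⟩ ⟨y⟩; exact congrArg (Ultrapower.mk ω) (star_add x y)

instance ultrapowerStarModule (A : Type u) [CStarAlgebra A] (ω : Ultrafilter ℕ) :
    StarModule ℂ (Ultrapower A ω) where
  star_smul c := by rintro ⟨x⟩; exact congrArg (Ultrapower.mk ω) (star_smul c x)

/-- The central sequence algebra `F_ω(A) = A_ω ∩ A'`. -/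
noncomputable def CentralSeq (A : Type u) [CStarAlgebra A] (ω : Ultrafilter ℕ) :
    StarSubalgebra ℂ (Ultrapower A ω) :=
  StarSubalgebra.centralizer ℂ
    (Set.range fun a : A => Ultrapower.mk ω (BoundedContinuousFunction.const ℕ a))

/-- The star subalgebra `S` admits a character: a unital star homomorphism to `ℂ`. -/
def HasCharacter {B : Type u} [Ring B] [StarRing B] [Algebra ℂ B] [StarModule ℂ B]
    (S : StarSubalgebra ℂ B) : Prop := Nonempty (S →⋆ₐ[ℂ] ℂ)

/-- The operator norm of a finite sum of bounded operators. -/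
noncomputable def normSum {E : Type u} [NormedAddCommGroup E] [InnerProductSpace ℂ E] {n : ℕ}
    (T : Fin n → E →L[ℂ] E) : ℝ := ‖∑ i, T i‖

/-- The operator norm of `∑ S i ⊗ T i` on the Hilbertian tensor product `H ⊗ K`. -/
noncomputable def tensorNorm {H K : Type u} [NormedAddCommGroup H] [InnerProductSpace ℂ H]
    [NormedAddCommGroup K] [InnerProductSpace ℂ K] {n : ℕ}
    (S : Fin n → H →L[ℂ] H) (T : Fin n → K →L[ℂ] K) : ℝ :=
  normSum (E := H ⊗[ℂ] K) fun i => TensorProduct.mapL (S i) (T i)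

/-- `π` is a unital star representation of `A` on the Hilbert space `H`. -/
def IsRep {A H : Type u} [CStarAlgebra A] [NormedAddCommGroup H] [InnerProductSpace ℂ H]
    [CompleteSpace H] (π : A → H →L[ℂ] H) : Prop :=
  ∃ ρ : A →⋆ₐ[ℂ] (H →L[ℂ] H), ∀ a, π a = ρ a

/-- The minimal (spatial) C*-norm of `∑ a i ⊗ b i`. -/
noncomputable def minNorm {A B : Type u} [CStarAlgebra A] [CStarAlgebra B] {n : ℕ}
    (a : Fin n → A) (b : Fin n → B) : ℝ :=
  sSup {r | ∃ (H : Type u) (_ : NormedAddCommGroup H) (_ : InnerProductSpace ℂ H)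
    (_ : CompleteSpace H) (K : Type u) (_ : NormedAddCommGroup K) (_ : InnerProductSpace ℂ K)
    (_ : CompleteSpace K) (π : A → H →L[ℂ] H) (σ : B → K →L[ℂ] K), IsRep π ∧ IsRep σ ∧
    r = tensorNorm (fun i => π (a i)) (fun i => σ (b i))}

/-- `C`, with the maps `ι = (a ↦ a ⊗ 1)` and `κ = (b ↦ 1 ⊗ b)`, is the minimal tensor product
of `A` and `B`. -/
def IsMinTensor {A B C : Type u} [CStarAlgebra A] [CStarAlgebra B] [CStarAlgebra C]
    (ι : A →⋆ₐ[ℂ] C) (κ : B →⋆ₐ[ℂ] C) : Prop :=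
  (∀ a b, ι a * κ b = κ b * ι a) ∧
  Dense {x : C | ∃ (n : ℕ) (a : Fin n → A) (b : Fin n → B), x = ∑ i, ι (a i) * κ (b i)} ∧
  ∀ (n : ℕ) (a : Fin n → A) (b : Fin n → B), ‖∑ i, ι (a i) * κ (b i)‖ = minNorm a b

/-- `A` is isomorphic to the minimal tensor product `A ⊗ Z`. -/
def Absorbs (A Z : Type u) [CStarAlgebra A] [CStarAlgebra Z] : Prop :=
  ∃ (C : Type u) (_ : CStarAlgebra C) (ι : A →⋆ₐ[ℂ] C) (κ : Z →⋆ₐ[ℂ] C),
    IsMinTensor ι κ ∧ Nonempty (A ≃⋆ₐ[ℂ] C)

/-- The matrix algebra `M_p ⊗ M_q`. -/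
abbrev Mat (p q : ℕ) : Type := Matrix (Fin p × Fin q) (Fin p × Fin q) ℂ

/-- The dimension-drop algebra `I(p, q)`. -/
def DimDrop (p q : ℕ) : StarSubalgebra ℂ C(unitInterval, Mat p q) where
  carrier := {f | (∃ a : Matrix (Fin p) (Fin p) ℂ, f 0 = a ⊗ₖ (1 : Matrix (Fin q) (Fin q) ℂ)) ∧
    ∃ b : Matrix (Fin q) (Fin q) ℂ, f 1 = (1 : Matrix (Fin p) (Fin p) ℂ) ⊗ₖ b}
  mul_mem' := by
    rintro f g ⟨⟨a, ha⟩, b, hb⟩ ⟨⟨a', ha'⟩, b', hb'⟩
    exact ⟨⟨a * a', by simp [ha, ha', ← Matrix.mul_kronecker_mul]⟩,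
      b * b', by simp [hb, hb', ← Matrix.mul_kronecker_mul]⟩
  add_mem' := by
    rintro f g ⟨⟨a, ha⟩, b, hb⟩ ⟨⟨a', ha'⟩, b', hb'⟩
    exact ⟨⟨a + a', by simp [ha, ha', Matrix.add_kronecker]⟩,
      b + b', by simp [hb, hb', Matrix.kronecker_add]⟩
  algebraMap_mem' c :=
    ⟨⟨c • 1, by simp [Algebra.algebraMap_eq_smul_one, Matrix.smul_kronecker]⟩,
      c • 1, by simp [Algebra.algebraMap_eq_smul_one, Matrix.kronecker_smul]⟩
  star_mem' := by
    rintro f ⟨⟨a, ha⟩, b, hb⟩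
    exact ⟨⟨star a, by simp [ha, Matrix.star_eq_conjTranspose, Matrix.conjTranspose_kronecker]⟩,
      star b, by simp [hb, Matrix.star_eq_conjTranspose, Matrix.conjTranspose_kronecker]⟩

/-- `S` is the image of the star subalgebra `D` under an injective unital star homomorphism. -/
def IsCopy {B : Type} [Ring B] [StarRing B] [Algebra ℂ B] [StarModule ℂ B]
    (D : StarSubalgebra ℂ B) {Z : Type u} [CStarAlgebra Z] (S : Set Z) : Prop :=
  ∃ j : D →⋆ₐ[ℂ] Z, Function.Injective j ∧ Set.range j = S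

/-- `S` is a unital copy of a prime dimension-drop algebra. -/
def IsPrimeDimDrop {Z : Type u} [CStarAlgebra Z] (S : Set Z) : Prop :=
  ∃ p q : ℕ, 2 ≤ p ∧ 2 ≤ q ∧ Nat.Coprime p q ∧ IsCopy (DimDrop p q) S

/-- `d ↦ d ⊗ 1` and `d ↦ 1 ⊗ d` are approximately unitarily equivalent in `Z ⊗ Z`. -/
def HasApproxInnerHalfFlip (Z : Type u) [CStarAlgebra Z] : Prop :=
  ∃ (C : Type u) (_ : CStarAlgebra C) (ι κ : Z →⋆ₐ[ℂ] C), IsMinTensor ι κ ∧
    ∀ (F : Finset Z) (ε : ℝ), 0 < ε → ∃ v ∈ unitary C, ∀ d ∈ F, ‖v * ι d * star v - κ d‖ < ε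

/-- The Jiang-Su algebra: a unital inductive limit of prime dimension-drop algebras with
approximately inner half-flip. -/
def IsJiangSu (Z : Type u) [CStarAlgebra Z] : Prop :=
  (∃ S : ℕ → Set Z, (∀ n, IsPrimeDimDrop (S n)) ∧ Monotone S ∧ Dense (⋃ n, S n)) ∧
  HasApproxInnerHalfFlip Z

end Vale.Agent.P101
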