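import Vale.Agent.P101.Comb

/-! Commuting order zero maps whose units add up to one. -/

open Matrix Complex

namespace Vale.Agent.P101

theorem rot_alg {R : Type*} [Ring R] [Algebra ℂ R] (e σ F X : R) (c1 : Commute e σ)
    (c2 : Commute e F) (c3 : Commute e X) (c4 : Commute σ F) (c5 : Commute σ X)
    (h1 : F * F = σ * σ) (h2 : e * e = 1 - σ * σ) :
    (F * X * F * σ + (e * σ * X + I • (σ * (F * X - X * F))) * e) * (e + I • F) =
      (e + I • F) * (σ * X) := by
  have sw : ∀ {c x : R}, Commute c x → ∀ y, x * (c * y) = c * (x * y) := fun h y => by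
    rw [← mul_assoc, ← h.eq, mul_assoc]
  have h2' : ∀ y, e * (e * y) = y - σ * (σ * y) := fun y => by
    rw [← mul_assoc, h2, sub_mul, one_mul, mul_assoc]
  simp only [mul_add, add_mul, mul_sub, sub_mul, mul_assoc, smul_mul_assoc, mul_smul_comm, smul_add,
    smul_sub, smul_smul, I_mul_I, sw c1, sw c2, sw c3, sw c4, sw c5, ← c2.eq, ← c3.eq,
    ← c5.eq, h1, h2']
  module

section

variable {B N : Type*} [CStarAlgebra B] [Fintype N]

/-- The sandwich `W m W*`. -/
def sand (w : N → B) (m : Matrix N N B) : B := ∑ x, ∑ y, w x * m x y * star (w y)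

/-- `b W = W r`. -/
def Act (w : N → B) (b : B) (r : Matrix N N B) : Prop := ∀ y, b * w y = ∑ x, w x * r x y

variable {w : N → B}

theorem Act.add {b b' r r'} (h : Act w b r) (h' : Act w b' r') : Act w (b + b') (r + r') :=
  fun y => by simp [add_mul, h y, h' y, mul_add, Finset.sum_add_distrib]

theorem Act.sub {b b' r r'} (h : Act w b r) (h' : Act w b' r') : Act w (b - b') (r - r') :=
  fun y => by simp [sub_mul, h y, h' y, mul_sub, Finset.sum_sub_distrib]

theorem Act.mul {b b' r r'} (h : Act w b r) (h' : Act w b' r') : Act w (b * b') (r * r') :=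
  fun y => by
    simp only [mul_assoc, h' y, Finset.mul_sum, mul_apply]
    simp only [← mul_assoc, h _, Finset.sum_mul]
    exact Finset.sum_comm

theorem Act.sand {b r} (h : Act w b r) (m) : b * sand w m = sand w (r * m) := by
  simp only [P101.sand, Finset.mul_sum, ← mul_assoc, h _, Finset.sum_mul, mul_apply]
  rw [Finset.sum_comm]
  conv_rhs => rw [Finset.sum_comm]
  exact Finset.sum_congr rfl fun _ _ => Finset.sum_comm

theorem Act.kill {b r y} (h : Act w b r) (hy : Act w y 0) : Act w (y * b) 0 := by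
  simpa using hy.mul h

theorem star_sand (m : Matrix N N B) : star (sand w m) = sand w (star m) := by
  simp only [sand, star_sum, star_mul, star_star, star_apply, mul_assoc]
  exact Finset.sum_comm

theorem sand_add (m m' : Matrix N N B) : sand w (m + m') = sand w m + sand w m' := by
  simp [sand, mul_add, add_mul, Finset.sum_add_distrib]

theorem sand_smul (c : ℂ) (m : Matrix N N B) : sand w (c • m) = c • sand w m := by
  simp [sand, Finset.smul_sum]

variable [DecidableEq N]

theorem sand_scalar (d : B) : sand w (scalar N d) = ∑ x, w x * d * star (w x) := by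
  simp [sand, diagonal_apply]

theorem act_diag {b : B} {g : N → B} (h : ∀ x, b * w x = w x * g x) : Act w b (diagonal g) :=
  fun y => by simp [diagonal_apply, h]

theorem act_sand {e : B} (h : ∀ x y, star (w x) * w y = if x = y then e else 0) (m) :
    Act w (sand w m) (m * scalar N e) := fun y => by
  simp [sand, Finset.sum_mul, mul_assoc, h]

theorem rot_abs {R : Type*} [Ring R] [StarRing R] [Algebra ℂ R] {χ Y : R →ₗ[ℂ] B} (hχ : IsOZ χ)
    (hY : IsOZ Y) {e : B} {F : Matrix N N B} [PartialOrder B] [StarOrderedRing B] (e0 : 0 ≤ e)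
    (he : e * e = 1 - χ 1 * χ 1) (ce : ∀ a, Commute e (χ a))
    (hw : ∀ x y, star (w x) * w y = if x = y then e else 0)
    (F1 : star F = F) (F2 : F * F = scalar N (χ 1) * scalar N (χ 1))
    (F3 : Commute (scalar N e) F) (F4 : Commute (scalar N (χ 1)) F)
    (Y1 : Y 1 = 1 - sand w (scalar N e))
    (Y2 : ∀ a, ∃ r, Act w (Y a) r ∧ r * scalar N (χ 1) = F * scalar N (χ a) * F) :
    ∃ (α : R →ₗ[ℂ] B) (β : Matrix N N ℂ →ₗ[ℂ] B), IsOZ α ∧ IsOZ β ∧
      (∀ a c, Commute (α a) (β c)) ∧ α 1 = 1 - β 1 ∧ 0 ≤ α 1 ∧ 0 ≤ β 1 := by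
  set E := scalar N e with hE
  set σ := scalar N (χ 1) with hσ
  set H := sand w E with hH
  have es : star e = e := (IsSelfAdjoint.of_nonneg e0).star_eq
  have ss : ∀ b : B, star (scalar N b) = scalar N (star b) := fun b => by
    simp [star_eq_conjTranspose]
  have Es : star E = E := by rw [hE, ss, es]
  have σs : star σ = σ := by rw [hσ, ss, hχ.sa1.star_eq]
  have E2 : E * E = 1 - σ * σ := by rw [hE, hσ, ← map_mul, he]; simp only [map_sub, map_one, map_mul]
  have cE : ∀ a, Commute E (scalar N (χ a)) := fun a => (ce a).map _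
  have cσ : ∀ a, Commute σ (scalar N (χ a)) := fun a => (hχ.comm a).map _
  have Eσ : Commute E σ := cE 1
  have aH : Act w (1 - H) (σ * σ) := by
    have := (act_diag (w := w) (b := 1) (g := 1) (by simp)).sub (act_sand hw E)
    rwa [← hE, E2, show diagonal (1 : N → B) = 1 from rfl, sub_sub_cancel] at this
  set U := E + I • F with hU
  have Us : star U = E - I • F := by simp [hU, Es, F1, sub_eq_add_neg]
  have U1 : U * star U = 1 := by
    rw [Us, hU]
    simp only [mul_sub, add_mul, smul_mul_assoc, mul_smul_comm, smul_add, smul_smul, I_mul_I,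
      F3.eq, E2, F2]
    module
  have U2 : star U * U = 1 := by
    rw [Us, hU]
    simp only [mul_add, sub_mul, smul_mul_assoc, mul_smul_comm, smul_sub, smul_smul, I_mul_I,
      F3.eq, E2, F2]
    module
  have EU : Commute E U := (Commute.refl E).add_right (F3.smul_right _)
  have σU : Commute σ U := (cE 1).symm.add_right (F4.smul_right _)
  have EU' : Commute E (star U) := by rw [Us]; exact (Commute.refl E).sub_right (F3.smul_right _)
  let M : R → Matrix N N B := fun a =>
    E * σ * scalar N (χ a) + I • (σ * (F * scalar N (χ a) - scalar N (χ a) * F))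
  let α : R →ₗ[ℂ] B :=
    { toFun := fun a => (1 - H) * Y a + sand w (M a)
      map_add' := fun a b => by
        rw [show M (a + b) = M a + M b by
          simp only [M, map_add, mul_add, add_mul, mul_sub, smul_add, smul_sub]; abel, sand_add,
          map_add, mul_add]
        abel
      map_smul' := fun c a => by
        have : scalar N (c • χ a) = c • scalar N (χ a) := by simp [← diagonal_smul]
        rw [show M (c • a) = c • M a by
          simp only [M, map_smul, this, mul_smul_comm, smul_mul_assoc, mul_sub, smul_add, smul_sub,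
            smul_comm c I], sand_smul, map_smul, mul_smul_comm, smul_add, RingHom.id_apply] }
  have hα : ∀ a, α a = (1 - H) * Y a + sand w (M a) := fun _ => rfl
  let L : Matrix N N ℂ →ₐ[ℂ] Matrix N N B := (Algebra.ofId ℂ B).mapMatrix
  have cL : ∀ b c, Commute (scalar N b) (L c) := fun b c =>
    Matrix.ext fun i j => by simp [L, Algebra.ofId_apply, Algebra.commutes]
  have sL : ∀ c, star (L c) = L (star c) := fun c => by
    ext i j; simp [L, Algebra.ofId_apply, ← algebraMap_star_comm]
  let β : Matrix N N ℂ →ₗ[ℂ] B :=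
    { toFun := fun c => sand w (U * (L c * E) * star U)
      map_add' := fun a b => by simp only [map_add, add_mul, mul_add, sand_add]
      map_smul' := fun c a => by
        simp only [map_smul, smul_mul_assoc, mul_smul_comm, sand_smul, RingHom.id_apply] }
  have hβ : ∀ c, β c = sand w (U * (L c * E) * star U) := fun _ => rfl
  have β1 : β 1 = H := by rw [hβ, map_one, one_mul, ← EU.eq, mul_assoc, U1, mul_one]
  have HY : ∀ a, Commute (1 - H) (Y a) := fun a => Y1 ▸ hY.comm a
  have aα : ∀ a, Act w (α a) (U * (σ * scalar N (χ a)) * star U) := fun a => by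
    obtain ⟨r, h1, h2⟩ := Y2 a
    have := (h1.mul aH).add (act_sand hw (M a))
    rwa [← (HY a).eq, ← mul_assoc, h2, ← hE, ← mul_one (F * _ * F * σ + _), ← U1, ← mul_assoc, hU,
      rot_alg E σ F _ (cE 1) F3 (cE a) F4 (cσ a) F2 E2, ← hU] at this
  have Hs : star H = H := by rw [hH, star_sand, Es]
  have αs : ∀ a, α (star a) = star (α a) := fun a => by
    rw [hα, hα, star_add, star_mul, ← hY.star, star_sub, star_one, Hs, ← (HY _).eq, star_sand]
    congr 2
    simp only [M, star_add, star_mul, star_smul, star_sub, ss, ← hχ.star, σs, Es, F1, star_def, conj_I]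
    rw [((cσ _).symm.mul_right (cE _).symm).eq, (cE 1).eq, neg_smul, ← smul_neg, ← neg_mul, neg_sub,
      ((F4.mul_right (cσ _)).sub_right ((cσ _).mul_right F4)).eq]
  have βs : ∀ c, β (star c) = star (β c) := fun c => by
    rw [hβ, hβ, star_sand, star_mul, star_mul, star_mul, star_star, Es, sL, (cL e _).eq, mul_assoc]
  have can : ∀ x y, U * x * star U * (U * y * star U) = U * (x * y) * star U := fun x y => by
    rw [mul_assoc, mul_assoc U y, ← mul_assoc (star U), U2, one_mul]; simp only [mul_assoc]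
  have αβ : ∀ a c, Commute (α a) (β c) := fun a c => by
    have k : ∀ a c, α a * β c = sand w (U * (σ * scalar N (χ a) * (L c * E)) * star U) :=
      fun a c => by rw [hβ, (aα a).sand, can]
    rw [Commute, SemiconjBy, ← star_star (β c * α a), star_mul, ← αs, ← βs, k, k, star_sand]
    simp only [star_mul, star_star, Es, sL, ss, ← hχ.star, σs]
    rw [← (cσ a).eq, (cL e c).eq, (((cL _ c).mul_right (cE 1).symm).mul_left
      ((cL _ c).mul_right (cE a).symm)).eq, mul_assoc U]
  have HH : sand w (M 1) = H - H * H := by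
    have : M 1 + E * E * E = E := by
      simp only [M, ← hσ, F4.eq, sub_self, mul_zero, smul_zero, add_zero, mul_assoc]
      rw [E2]; noncomm_ring
    rw [hH, (act_sand hw E).sand, ← hE, eq_sub_iff_add_eq, ← sand_add, this]
  have α1 : α 1 = 1 - H := by rw [hα, Y1, HH]; noncomm_ring
  have K : ∀ y a, Act w y 0 → y * α a = y * Y a := fun y a hy => by
    rw [hα, mul_add, hy.sand, ← mul_assoc, mul_sub, hH, hy.sand]; simp [sand]
  refine ⟨α, β, ⟨αs, fun a b => ?_⟩, ⟨βs, fun a b => ?_⟩, αβ, by rw [α1, β1], ?_, ?_⟩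
  · have k1 : Act w (α a * α b - α 1 * α (a * b)) 0 := by
      have := ((aα a).mul (aα b)).sub ((aα 1).mul (aα (a * b)))
      rwa [can, can, (cσ a).symm.mul_mul_mul_comm, (cσ 1).symm.mul_mul_mul_comm, ← map_mul _ (χ a),
        ← map_mul _ (χ 1) (χ (a * b)), hχ.mul a, sub_self] at this
    have k2 : ∀ y a b, Act w y 0 → y * (α a * α b - α 1 * α (a * b)) = 0 := fun y a b hy => by
      obtain ⟨r, h1, -⟩ := Y2 a
      obtain ⟨r', h1', -⟩ := Y2 1
      rw [mul_sub, ← mul_assoc, ← mul_assoc, K y a hy, K y 1 hy, K _ b (h1.kill hy),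
        K _ _ (h1'.kill hy), mul_assoc, mul_assoc, hY.mul, sub_self]
    rw [← sub_eq_zero, ← CStarRing.mul_star_self_eq_zero_iff]
    convert k2 _ (star b) (star a) k1 using 2
    rw [star_sub, star_mul, star_mul, ← αs, ← αs, ← αs, ← αs, star_mul, star_one, α1, ← β1,
      ((Commute.one_right _).sub_right (αβ _ 1)).eq]
  · have k : ∀ a b, β a * β b = sand w (U * (L (a * b) * (E * E * E)) * star U) := fun a b => by
      rw [hβ a, hβ b, (act_sand hw _).sand, ← hE, mul_assoc _ _ E, ← EU'.eq, ← mul_assoc _ E,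
        mul_assoc U _ E, can, mul_assoc (L a) E, ((cL e b).mul_left (cL e b)).mul_mul_mul_comm,
        map_mul]
    rw [k, k, one_mul]
  · have : M 1 = scalar N (χ 1 * e * χ 1) := by
      simp only [M, ← hσ, F4.eq, sub_self, mul_zero, smul_zero, add_zero, map_mul, ← hE, Eσ.eq]
    rw [hα, Y1, this, sand_scalar]
    refine add_nonneg (IsSelfAdjoint.mul_self_nonneg (by simp [IsSelfAdjoint, Hs]))
      (Finset.sum_nonneg fun x _ => star_right_conjugate_nonneg (hχ.sa1.conjugate_nonneg e0) _)
  · rw [β1, hH, hE, sand_scalar]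
    exact Finset.sum_nonneg fun x _ => star_right_conjugate_nonneg e0 _

end

theorem kill_sqrt {B : Type*} [CStarAlgebra B] {r x : B} (hr : IsSelfAdjoint r)
    (h : r * r * x = 0) : r * x = 0 := by
  rw [← CStarRing.star_mul_self_eq_zero_iff, star_mul, hr.star_eq, mul_assoc, ← mul_assoc r, h,
    mul_zero]

theorem rot {B p κ : Type*} [CStarAlgebra B] [Fintype p] [DecidableEq p] [Fintype κ] [DecidableEq κ]
    {χ : Matrix p p ℂ →ₗ[ℂ] B} (hχ : IsOZ χ) (h1 : ‖χ 1‖ ≤ 1) {E : B} (hE : IsSelfAdjoint E)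
    (hE1 : E * (1 - χ 1) = 1 - χ 1) {i₀ : p} {z : κ → B}
    (hz : ∀ a, χ (single i₀ i₀ 1) * z a = z a ∧ χ 1 * z a = z a)
    (hz' : ∀ a b, star (z a) * z b = if a = b then E * E else 0) :
    ∃ (α : Matrix p p ℂ →ₗ[ℂ] B) (β : Matrix (Option (p × κ)) (Option (p × κ)) ℂ →ₗ[ℂ] B),
      IsOZ α ∧ IsOZ β ∧ (∀ a c, Commute (α a) (β c)) ∧ α 1 = 1 - β 1 ∧ ‖α 1‖ ≤ 1 ∧ ‖β 1‖ ≤ 1 := by
  let _ := CStarAlgebra.spectralOrder B
  have := CStarAlgebra.spectralOrderedRing B
  obtain ⟨e, e0, e2, ec⟩ := exists_sqrt (one_sub_sq_nonneg hχ.sa1 h1)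
  obtain ⟨η, η0, η2, ηc⟩ := exists_sqrt e0
  have es : IsSelfAdjoint e := .of_nonneg e0
  have ηs : IsSelfAdjoint η := .of_nonneg η0
  have ce : ∀ a, Commute e (χ a) := fun a =>
    ec _ ((Commute.one_left _).sub_left ((hχ.comm a).mul_left (hχ.comm a)))
  have cη : ∀ a, Commute η (χ a) := fun a => ηc _ (ce a)
  have kη : ∀ x, (1 - χ 1 * χ 1) * x = 0 → η * x = 0 := fun x h =>
    kill_sqrt ηs (η2 ▸ kill_sqrt es (e2 ▸ h))
  have ηz : ∀ a, η * z a = 0 := fun a => kη _ (by rw [sub_mul, mul_assoc, (hz a).2, (hz a).2]; simp)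
  have ηE : η * E = η := by
    have : star (E * (1 - χ 1 * χ 1)) = star (1 - χ 1 * χ 1) := by
      rw [show 1 - χ 1 * χ 1 = (1 - χ 1) * (1 + χ 1) by noncomm_ring, ← mul_assoc, hE1]
    rw [star_mul, hE.star_eq, ← e2, star_mul, es.star_eq, e2] at this
    have := kη (1 - E) (by rw [mul_sub, this]; simp)
    rw [mul_sub, mul_one, sub_eq_zero] at this
    exact this.symm
  have Eη : E * η = η := by simpa [ηs.star_eq, hE.star_eq] using congrArg star ηE
  have sχ : ∀ k l : p, star (χ (single k l 1)) = χ (single l k 1) := fun k l => by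
    rw [← hχ.star, star_eq_conjTranspose, conjTranspose_single, star_one]
  have mz : ∀ a b i, χ a * (χ b * (z i * η)) = χ (a * b) * (z i * η) := fun a b i => by
    rw [← mul_assoc, hχ.mul, (hχ.comm _).eq, mul_assoc, ← mul_assoc (χ 1), (hz i).2]
  let w : Option (p × κ) → B := fun x => match x with
    | none => η
    | some x => χ (single x.1 i₀ 1) * (z x.2 * η)
  have ηw : ∀ x, η * w (some x) = 0 := fun x => by
    simp only [w]
    rw [← mul_assoc, (cη _).eq, mul_assoc, ← mul_assoc η, ηz]; simp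
  have σw : ∀ x, χ 1 * w (some x) = w (some x) := fun x => by simp only [w, mz, one_mul]
  have hw : ∀ x y, star (w x) * w y = if x = y then e else 0 := by
    rintro (_ | ⟨k, i⟩) (_ | ⟨l, j⟩)
    · simp [w, ηs.star_eq, η2]
    · simpa [w, ηs.star_eq] using ηw (l, j)
    · simpa [w, ηs.star_eq] using congrArg star (ηw (k, i))
    · simp only [w, star_mul, sχ, mul_assoc, mz, ηs.star_eq]
      by_cases h : k = l
      · subst h
        rw [single_mul_single_same, mul_one, ← mul_assoc (χ _), (hz j).1, ← mul_assoc (star _), hz']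
        by_cases h : i = j <;> simp [h, mul_assoc, Eη, η2]
      · simp [single_mul_single_of_ne _ _ _ _ h, h]
  let F : Matrix (Option (p × κ)) (Option (p × κ)) B := of fun x y => match x, y with
    | none, none => χ 1
    | some x, some y => if x.2 = y.2 then χ (single y.1 x.1 1) else 0
    | _, _ => 0
  let A : Matrix p p ℂ → Matrix (Option (p × κ)) (Option (p × κ)) B := fun a =>
    of fun x y => match x, y with
    | none, none => χ a
    | some x, some y => if x.2 = y.2 then a x.1 y.1 • 1 else 0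
    | _, _ => 0
  have aA : ∀ a, Act w (χ a) (A a) := by
    rintro a (_ | ⟨k, j⟩)
    · simp [w, A, (cη a).eq]
    · have : a * single k i₀ 1 = ∑ l, a l k • single l i₀ (1 : ℂ) := by
        ext r s
        by_cases h : i₀ = s
        · subst h; simp [Matrix.sum_apply, single_apply]
        · simp [Matrix.sum_apply, h, Ne.symm h]
      simp [w, A, mz, this, Fintype.sum_prod_type, Finset.sum_mul, -smul_single]
  have sA : ∀ a, star (A a) = A (star a) := fun a => by
    ext (_ | ⟨k, i⟩) (_ | ⟨l, j⟩) <;> simp [A, hχ.star, apply_ite star, eq_comm]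
  have cF : ∀ b, (∀ a, Commute b (χ a)) → Commute (scalar _ b) F := fun b hb => by
    ext (_ | ⟨k, i⟩) (_ | ⟨l, j⟩) <;> simp [F, (hb _).eq]
  have cA : ∀ a, Commute (scalar _ e) (A a) := fun a => by
    ext (_ | ⟨k, i⟩) (_ | ⟨l, j⟩) <;> simp [A, (ce _).eq]
  set H := sand w (scalar _ e) with hH
  have se : star (scalar (Option (p × κ)) e) = scalar _ e := by
    simp [star_eq_conjTranspose, es.star_eq]
  have Hs : star H = H := by rw [hH, star_sand, se]
  have cH : ∀ a, Commute H (χ a) := fun a => by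
    rw [Commute, SemiconjBy, ← star_star (H * χ a), star_mul, Hs, ← hχ.star, hH, (aA _).sand,
      (aA _).sand, star_sand, star_mul, sA, star_star, se, (cA a).eq]
  have H1 : (H - e * e) * χ 1 = H - e * e := by
    rw [((cH 1).sub_left ((ce 1).mul_left (ce 1))).eq, hH, sand_scalar, Fintype.sum_option]
    rw [show w none * e * star (w none) = e * e by
      simp only [w, ηs.star_eq, ← η2, mul_assoc], add_sub_cancel_left, Finset.mul_sum]
    simp only [← mul_assoc, σw]
  have hY := hχ.scale (c := χ 1 - (H - e * e)) (by simp [IsSelfAdjoint, hχ.sa1.star_eq, Hs, es.star_eq])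
    fun a => (hχ.comm a).sub_left ((cH a).sub_left ((ce a).mul_left (ce a)))
  have aG : Act w (χ 1 - (H - e * e)) (diagonal fun x => x.elim (χ 1) fun _ => χ 1 * χ 1) := by
    refine act_diag fun x => ?_
    have : H * w x = w x * (e * e) := by simpa [diagonal_apply, hH] using act_sand hw (scalar _ e) x
    rw [sub_mul, sub_mul, this]
    rcases x with _ | x
    · simp only [w, Option.elim, ← η2, mul_assoc, sub_self, sub_zero, (cη 1).eq]
    · rw [σw, mul_assoc e, show e * w (some x) = 0 by rw [← η2, mul_assoc, ηw, mul_zero], e2]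
      simp [mul_sub]
  have sum1 : ∑ m : p, χ (single m m 1) = χ 1 := by
    rw [← map_sum, sum_single_one]
  have F1 : star F = F := by
    ext (_ | ⟨k, i⟩) (_ | ⟨l, j⟩) <;> simp [F, sχ, hχ.sa1.star_eq, apply_ite star, eq_comm]
  have F2 : F * F = scalar _ (χ 1) * scalar _ (χ 1) := by
    rw [← map_mul (scalar _)]
    ext (_ | ⟨k, i⟩) (_ | ⟨l, j⟩)
    iterate 3 simp [F, mul_apply]
    simp only [F, mul_apply, Fintype.sum_option, of_apply, Fintype.sum_prod_type]
    simp [diagonal_apply, hχ.mul (single _ _ _)]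
    by_cases h : k = l
    · subst h; simp [← Finset.mul_sum, sum1]
    · simp [single_mul_single_of_ne _ _ _ _ h, h]
  have Y2 : ∀ a, (diagonal fun x => x.elim (χ 1) fun _ => χ 1 * χ 1) * A a * scalar _ (χ 1) =
      F * scalar _ (χ a) * F := fun a => by
    ext (_ | ⟨k, i⟩) (_ | ⟨l, j⟩) <;>
      simp [F, A, mul_apply, Fintype.sum_prod_type, diagonal_apply]
    split_ifs
    · simp only [hχ.mul (single _ _ _) a, mul_assoc, hχ.mul (_ * a), ← Finset.mul_sum, ← mul_smul_comm]
      simp only [← mul_assoc, single_mul_mul_single, one_mul, mul_one, ← sum1, Finset.smul_sum,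
        ← map_smul, smul_single, smul_eq_mul]
    · rfl
  obtain ⟨α, β, o1, o2, o3, o4, o5, o6⟩ := rot_abs hχ hY e0 e2 ce hw F1 F2 (cF e ce)
    (cF _ hχ.comm) (show (χ 1 - (H - e * e)) * χ 1 = 1 - H by rw [sub_mul, H1, e2]; abel)
    fun a => ⟨_, aG.mul (aA a), Y2 a⟩
  refine ⟨α, β, o1, o2, o3, o4, ?_, ?_⟩
  · rw [CStarAlgebra.norm_le_one_iff_of_nonneg _ o5, o4]; exact sub_le_self _ o6
  · rw [CStarAlgebra.norm_le_one_iff_of_nonneg _ o6, ← sub_nonneg, ← o4]; exact o5

end Vale.Agent.P101
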