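import Vale.Agent.P101.Split

/-! The tree argument: many copies of `1 - ψ(1)` fit under `ψ(e₁₁)`. -/

open TopologicalSpace Matrix

namespace Vale.Agent.P101

universe u

theorem Cov.exists_sum {B : Type*} [CStarAlgebra B] {b : B} (h : Cov {b}) :
    ∃ (n : ℕ) (d : Fin n → B), ∑ m, star (b * d m) * (b * d m) = 1 := by
  let _ := CStarAlgebra.spectralOrder B
  have := CStarAlgebra.spectralOrderedRing B
  let K := AddSubmonoid.closure {y | ∃ d, y = star (b * d) * (b * d)}
  have hK : ∀ c, ∀ k ∈ K, star c * k * c ∈ K := fun c k hk => by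
    induction hk using AddSubmonoid.closure_induction with
    | mem y hy =>
      obtain ⟨d, rfl⟩ := hy
      exact AddSubmonoid.subset_closure ⟨d * c, by simp [mul_assoc]⟩
    | zero => simp
    | add x y _ _ hx hy => rw [mul_add, add_mul]; exact add_mem hx hy
  have := h (TwoSidedIdeal.mk' {x | ∃ k ∈ K, star x * x ≤ k} ⟨0, zero_mem K, by simp⟩
    (by rintro x y ⟨k, hk, h1⟩ ⟨l, hl, h2⟩
        refine ⟨k + l + (k + l), add_mem (add_mem hk hl) (add_mem hk hl),
          le_trans ?_ (add_le_add (add_le_add h1 h2) (add_le_add h1 h2))⟩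
        rw [← sub_nonneg]
        convert star_mul_self_nonneg (x - y) using 1
        simp only [star_add, star_sub]; noncomm_ring)
    (by rintro x ⟨k, hk, h1⟩; exact ⟨k, hk, by simpa using h1⟩)
    (by rintro c x ⟨k, hk, h1⟩
        refine ⟨_, hK (algebraMap ℝ B ‖c‖) k hk, le_trans ?_ (star_left_conjugate_le_conjugate h1 _)⟩
        have := star_left_conjugate_le_conjugate
          (CStarAlgebra.star_mul_le_algebraMap_norm_sq (a := c)) x
        simpa [mul_assoc, Algebra.algebraMap_eq_smul_one, smul_smul, sq] using this)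
    (by rintro x c ⟨k, hk, h1⟩
        exact ⟨_, hK c k hk, by simpa [mul_assoc] using star_left_conjugate_le_conjugate h1 c⟩))
    (by rintro _ rfl
        simp only [SetLike.mem_coe, TwoSidedIdeal.mem_mk']
        exact ⟨_, AddSubmonoid.subset_closure ⟨1, rfl⟩, by simp⟩)
  rw [TwoSidedIdeal.mem_mk'] at this
  obtain ⟨k, hk, h1⟩ := this
  rw [star_one, mul_one] at h1
  have hp : IsStrictlyPositive k := isStrictlyPositive_one.of_le h1
  have h2 := hK (k ^ (-(1 / 2) : ℝ)) k hk
  rw [(IsSelfAdjoint.of_nonneg CFC.rpow_nonneg).star_eq, CFC.conjugate_rpow_neg_one_half k hp] at h2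
  obtain ⟨l, hl, e⟩ := AddSubmonoid.exists_list_of_mem_closure h2
  choose d hd using fun i : Fin l.length => hl l[i.1] (List.getElem_mem i.2)
  exact ⟨l.length, d, by rw [← e, ← Fin.sum_univ_getElem]; simp only [hd]⟩

variable {p : Type} [Fintype p] [DecidableEq p]

/-- The data carried by one tensor position. -/
structure Pack {B : Type*} [CStarAlgebra B] (i₀ : p) {n : ℕ} (χ : Matrix p p ℂ →ₗ[ℂ] B) (ε : B)
    (t : Fin n → B) : Prop where
  oz : IsOZ χ
  le : ‖χ 1‖ ≤ 1
  sa : IsSelfAdjoint ε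
  comm : ∀ a, Commute ε (χ a)
  sum : ∑ m, star (t m) * t m = 1
  fix : ∀ m, χ (single i₀ i₀ 1) * t m = t m
  kill : ∀ m, ε * t m = 0
  one : ε * (1 - χ 1) = 1 - χ 1

theorem exists_pack {B : Type u} [CStarAlgebra B] (i₀ : p) (h : FullOZ B p) :
    ∃ (n : ℕ) (χ : Matrix p p ℂ →ₗ[ℂ] B) (ε : B) (t : Fin n → B), Pack i₀ χ ε t := by
  obtain ⟨φ, hφ, hc⟩ := h
  have : Nonempty p := ⟨i₀⟩
  set e := single i₀ i₀ (1 : ℂ) with he
  set h := φ 1 with hh
  have hs : IsSelfAdjoint h := hφ.sa1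
  have c1 : Cov {h * (h * φ e)} := cov_of_prime fun Q _ _ π _ hk => hc.ne π (by
    rintro _ rfl
    have o := hφ.map π
    refine o.one_eq_zero (a := e) (fun h => by simpa [he] using congrFun (congrFun h i₀) i₀)
      (o.cancel ?_)
    change π h * π (φ e) = 0
    rw [← CStarRing.star_mul_self_eq_zero_iff, star_mul, (hs.map π).star_eq, mul_assoc, ← map_mul,
      ← map_mul, hk _ rfl, mul_zero])
  obtain ⟨r, r0, hr⟩ := Metric.eventually_nhds_iff.1 c1.eventually
  obtain ⟨δ, δ0, hδ⟩ : ∃ δ : ℝ, 0 < δ ∧ 2 * δ * ‖φ e‖ < r :=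
    ⟨r / (2 * (‖φ e‖ + 1)), by positivity, by
      rw [mul_div_assoc', div_mul_eq_mul_div, div_lt_iff₀ (by positivity)]
      nlinarith [norm_nonneg (φ e)]⟩
  let g : ℝ → ℝ := fun t => t / max (t * t) δ
  let ε : ℝ → ℝ := fun t => max 0 (min 1 (2 - t * t / δ))
  let c : ℝ → ℝ := fun t => max (t * t - 2 * δ) 0
  have m0 : ∀ t : ℝ, 0 < max (t * t) δ := fun t => lt_max_of_lt_right δ0
  have cg : Continuous g := Continuous.div (by fun_prop) (by fun_prop) fun t => (m0 t).ne'
  have cε : Continuous ε := by fun_prop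
  have cc : Continuous c := by fun_prop
  have cm : ∀ (f : ℝ → ℝ) a, Commute (cfc f h) (φ a) := fun f a => (hφ.comm a).cfc_real f
  have mc : ∀ {f f' : ℝ → ℝ}, Continuous f → Continuous f' →
      cfc f h * cfc f' h = cfc (fun t => f t * f' t) h := fun h1 h2 =>
    (cfc_mul _ _ h h1.continuousOn h2.continuousOn).symm
  have cg' : Continuous fun t => g t * t := by fun_prop
  have c2 : Cov {cfc c h * φ e} := hr (by
    rw [dist_eq_norm, ← mul_assoc, ← sub_mul]
    refine (norm_mul_le _ _).trans_lt (lt_of_le_of_lt ?_ hδ)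
    refine mul_le_mul_of_nonneg_right ?_ (norm_nonneg _)
    nth_rw 2 3 [← cfc_id' ℝ h]
    rw [← cfc_mul .., ← cfc_sub ..]
    refine norm_cfc_le (by positivity) fun t _ => abs_le.2 ?_
    simp only [c, max_def]; split_ifs <;> constructor <;> nlinarith [mul_self_nonneg t])
  obtain ⟨n, d, hd⟩ := c2.exists_sum
  have σe : cfc g h * h = cfc (fun t => g t * t) h := by
    rw [← mc cg continuous_id', cfc_id' ℝ h]
  refine ⟨n, _, cfc ε h, fun m => cfc c h * φ e * d m, hφ.scale (c := cfc g h) IsSelfAdjoint.cfc (cm g),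
    ?_, IsSelfAdjoint.cfc, fun a => ((hφ.comm 1).cfc_real g).symm.cfc_real ε |>.mul_right (cm ε a),
    hd, fun m => ?_, fun m => ?_, ?_⟩
  · change ‖cfc g h * h‖ ≤ 1
    rw [σe]
    refine norm_cfc_le zero_le_one fun t _ => ?_
    simp only [g]
    rw [div_mul_eq_mul_div, Real.norm_of_nonneg (div_nonneg (mul_self_nonneg t) (m0 t).le),
      div_le_one (m0 t)]
    exact le_max_left _ _
  · change cfc g h * φ e * _ = _
    rw [← mul_assoc, mul_assoc (cfc g h), ← mul_assoc (φ e), ← (cm c e).eq, mul_assoc _ (φ e), hφ.mul,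
      ← hh, ← mul_assoc, ← mul_assoc, mul_assoc (cfc g h), ((hφ.comm 1).cfc_real c).eq, ← mul_assoc,
      σe, mc cg' cc, he, single_mul_single_same, mul_one]
    congr 3
    ext t
    simp only [g, c]
    rcases le_total (t * t) δ with e | e
    · rw [max_eq_right (show t * t - 2 * δ ≤ 0 by linarith), mul_zero]
    · rw [max_eq_left e, div_mul_eq_mul_div, div_self (by linarith), one_mul]
  · rw [← mul_assoc, ← mul_assoc, mc cε cc, show (fun t => ε t * c t) = fun _ => 0 from ?_]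
    · simp
    ext t
    simp only [ε, c]
    rcases le_total (t * t) (2 * δ) with e | e
    · rw [max_eq_right (sub_nonpos.2 e), mul_zero]
    · rw [max_eq_left ((min_le_right _ _).trans (by rwa [sub_nonpos, le_div_iff₀ δ0])), zero_mul]
  · change cfc ε h * (1 - cfc g h * h) = 1 - cfc g h * h
    rw [σe, ← cfc_const_one ℝ h, ← cfc_sub _ _ h continuousOn_const cg'.continuousOn,
      mc cε (f' := fun t => 1 - g t * t) (by fun_prop)]
    congr 1
    ext t
    simp only [g, ε]
    rcases le_total (t * t) δ with e | e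
    · rw [min_eq_left (by have := (div_le_one δ0).2 e; linarith), max_eq_right zero_le_one, one_mul]
    · rw [max_eq_left e, div_mul_eq_mul_div, div_self (by linarith), sub_self, mul_zero]

/-- `s` commutes with all the data of a position. -/
structure Com {B : Type*} [CStarAlgebra B] {n : ℕ} (χ : Matrix p p ℂ →ₗ[ℂ] B) (ε : B)
    (t : Fin n → B) (s : B) : Prop where
  c1 : ∀ a, Commute (χ a) s
  c2 : Commute ε s
  c3 : ∀ m, Commute (t m) s
  c4 : ∀ m, Commute (star (t m)) s

theorem fresh_pack {B : Type u} [CStarAlgebra B] (hB : Fresh B) (i₀ : p) (h : FullOZ B p) :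
    ∃ n : ℕ, ∀ S : Set B, IsSeparable S → ∃ (χ : Matrix p p ℂ →ₗ[ℂ] B) (ε : B) (t : Fin n → B),
      Pack i₀ χ ε t ∧ ∀ s ∈ S, Com χ ε t s := by
  obtain ⟨n, χ, ε, t, hp⟩ := exists_pack i₀ h
  refine ⟨n, fun S hS => ?_⟩
  obtain ⟨D, hD, _, hs, -⟩ := Cov.sep (s := {(1 : B)}) (fun I hI => hI rfl)
    ((isSeparable_lin χ).union ((Set.finite_range t).insert ε).isSeparable)
  obtain ⟨χ', h1, h2⟩ := hp.oz.restrict D fun a => hs (Or.inl ⟨a, rfl⟩)
  let ε' : D := ⟨ε, hs (Or.inr (Set.mem_insert _ _))⟩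
  let t' : Fin n → D := fun m => ⟨t m, hs (Or.inr (Set.mem_insert_of_mem _ ⟨m, rfl⟩))⟩
  obtain ⟨θ, hθ⟩ := hB D D.subtype S hS
  have k : ∀ {x y : D}, (x : B) = y → θ x = θ y := fun h => by rw [Subtype.ext h]
  refine ⟨_, θ ε', fun m => θ (t' m), ⟨h1.map θ, (hom_le θ _).trans ?_,
    IsSelfAdjoint.map (x := ε') (Subtype.ext hp.sa) θ, fun a => Commute.map (Subtype.ext ?_) θ, ?_,
    fun m => ?_, fun m => ?_, ?_⟩,
    fun s hs => ⟨fun a => hθ _ s hs, hθ _ s hs, fun m => hθ _ s hs, fun m => ?_⟩⟩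
  · change ‖(χ' 1 : B)‖ ≤ 1
    rw [h2]; exact hp.le
  · simpa [h2] using (hp.comm a).eq
  · simp only [← map_star, ← map_mul, ← map_sum]
    rw [← map_one θ]; exact k (by simpa using hp.sum)
  · change θ _ * θ _ = θ _
    rw [← map_mul]; exact k (by simpa [h2] using hp.fix m)
  · rw [← map_mul, ← map_zero θ]; exact k (by simpa using hp.kill m)
  · change θ _ * (1 - θ _) = 1 - θ _
    rw [← map_one θ, ← map_sub, ← map_mul]; exact k (by simpa [h2] using hp.one)
  · rw [← map_star]; exact hθ _ s hs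

/-- The columns `y a` are orthogonal with `(y a)* (y a) = E²`. -/
def Tr {B ι κ : Type*} [CStarAlgebra B] [Fintype ι] [DecidableEq κ] (E : B) (y : κ → ι → B) :
    Prop := ∀ a b, ∑ i, star (y a i) * y b i = if a = b then E * E else 0

/-- `E` acts as a unit on `1 - ψ 1`. -/
structure Dom {B : Type*} [CStarAlgebra B] (ψ : Matrix p p ℂ →ₗ[ℂ] B) (E : B) : Prop where
  oz : IsOZ ψ
  le : ‖ψ 1‖ ≤ 1
  sa : IsSelfAdjoint E
  one : E * (1 - ψ 1) = 1 - ψ 1

section

variable {B ι κ : Type*} [CStarAlgebra B] [Fintype ι] [DecidableEq κ] {E ε : B} {n : ℕ}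

theorem Tr.scale {y : κ → ι → B} (h : Tr E y) (hε : IsSelfAdjoint ε) (hc : Commute ε E) :
    Tr (E * ε) fun a i => y a i * ε := fun a b => by
  simp only [star_mul, hε.star_eq, mul_assoc]
  simp only [← Finset.mul_sum, ← mul_assoc, ← Finset.sum_mul]
  simp only [mul_assoc, ← Finset.mul_sum, h a b]
  split_ifs
  · rw [mul_assoc E E, ← mul_assoc ε E, hc.eq]; simp only [mul_assoc]
  · simp

theorem Tr.col {y : Fin n → ι → B} (h : Tr E y) {t : Fin n → B} (ht : ∑ m, star (t m) * t m = 1)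
    (hc : ∀ m, Commute (star (t m)) E) :
    ∑ i, star (∑ m, y m i * t m) * ∑ m, y m i * t m = E * E := by
  simp only [star_sum, Finset.sum_mul, star_mul]
  rw [Finset.sum_comm]
  have : ∀ m, ∑ i, star (t m) * star (y m i) * ∑ m', y m' i * t m' = E * E * (star (t m) * t m) :=
    fun m => by
      simp only [Finset.mul_sum]
      rw [Finset.sum_comm]
      simp only [mul_assoc, ← Finset.mul_sum]
      simp only [← mul_assoc, ← Finset.sum_mul, h m]
      simp [← ((hc m).mul_right (hc m)).eq, mul_assoc]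
  simp only [this, ← Finset.mul_sum, ht, mul_one]

theorem one_sub_sq {s E : B} (h : E * (1 - s) = 1 - s) : E * (1 - s * s) = 1 - s * s := by
  rw [show 1 - s * s = (1 - s) * (1 + s) by noncomm_ring, ← mul_assoc, h]

end

theorem tree_step {B : Type u} [CStarAlgebra B] {i₀ i₁ : p} (hi : i₀ ≠ i₁) {n : ℕ}
    (hp : ∀ S : Set B, IsSeparable S → ∃ (χ : Matrix p p ℂ →ₗ[ℂ] B) (ε : B) (t : Fin n → B),
      Pack i₀ χ ε t ∧ ∀ s ∈ S, Com χ ε t s) {ι : Type} [Fintype ι]
    (h : ∃ (ψ : Matrix p p ℂ →ₗ[ℂ] B) (E : B) (y : Fin n → ι ⊕ ι → B), Dom ψ E ∧ Tr E y) (k : ℕ) :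
    ∃ (ψ : Matrix p p ℂ →ₗ[ℂ] B) (E : B) (y : Fin n → ι ⊕ ι → B) (z : Fin k → ι → B),
      Dom ψ E ∧ Tr E y ∧ Tr E z := by
  induction k with
  | zero =>
    obtain ⟨ψ, E, y, h1, h2⟩ := h
    exact ⟨ψ, E, y, Fin.elim0, h1, h2, fun a => a.elim0⟩
  | succ k ih =>
    obtain ⟨ψ, E, y, z, hd, hy, hz⟩ := ih
    obtain ⟨χ, ε, t, hP, hC⟩ := hp _ ((isSeparable_lin ψ).union
      (((Set.finite_range (Function.uncurry y)).union
        (Set.finite_range fun x => star (Function.uncurry z x))).insert E).isSeparable)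
    have cψ := fun a => hC _ (Or.inl ⟨a, rfl⟩)
    have cE := hC E (Or.inr (Set.mem_insert _ _))
    have cy : ∀ m i, Com χ ε t (y m i) :=
      fun m i => hC _ (Or.inr (Set.mem_insert_of_mem _ (Or.inl ⟨(m, i), rfl⟩)))
    have cz : ∀ m i, Com χ ε t (star (z m i)) :=
      fun m i => hC _ (Or.inr (Set.mem_insert_of_mem _ (Or.inr ⟨(m, i), rfl⟩)))
    obtain ⟨ψ', o1, o2, o3, -⟩ := combine hd.oz hP.oz (fun a b => ((cψ a).c1 b).symm) hd.le hP.le
    let w : ι ⊕ ι → B := fun x => ∑ m, y m x * t m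
    have w1 : ∀ x, χ (single i₀ i₀ 1) * w x = w x := fun x => by
      simp only [w, Finset.mul_sum, ← mul_assoc, ((cy _ x).c1 _).eq]
      simp only [mul_assoc, hP.fix]
    have w2 : ∀ x, ε * w x = 0 := fun x => by
      simp only [w, Finset.mul_sum, ← mul_assoc, (cy _ x).c2.eq]
      simp [mul_assoc, hP.kill]
    have w3 : ∀ x, star (χ (single i₁ i₀ 1)) * w x = 0 := fun x => by
      rw [← w1, ← mul_assoc, ← hP.oz.star, hP.oz.mul, star_eq_conjTranspose, conjTranspose_single,
        single_mul_single_of_ne _ _ _ _ hi.symm]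
      simp
    have w4 : ∀ x, star (χ (single i₁ i₀ 1)) * (χ (single i₁ i₀ 1) * w x) = w x := fun x => by
      rw [← mul_assoc, ← hP.oz.star, hP.oz.mul, star_eq_conjTranspose, conjTranspose_single,
        single_mul_single_same, star_one, ← single_mul_single_same 1 i₀ i₀ i₀, ← hP.oz.mul,
        mul_assoc, w1, w1]
    let c : ι → B := fun i => w (.inl i) + χ (single i₁ i₀ 1) * w (.inr i)
    have c1 : ∑ i, star (c i) * c i = E * E := by
      rw [← hy.col hP.sum cE.c4, Fintype.sum_sum_type, ← Finset.sum_add_distrib]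
      refine Finset.sum_congr rfl fun i _ => ?_
      have := congrArg star (w3 (.inl i))
      rw [star_mul, star_star, star_zero] at this
      simp only [c, star_add, star_mul, mul_add, add_mul, mul_assoc, w3, w4]
      rw [← mul_assoc, this]
      simp [w]
    have c2 : ∀ i, ε * c i = 0 := fun i => by
      simp only [c]
      rw [mul_add, w2, ← mul_assoc, (hP.comm _).eq, mul_assoc, w2, mul_zero, add_zero]
    have c3 : ∀ a, ∑ i, star (z a i * ε) * (c i * ε) = 0 := fun a =>
      Finset.sum_eq_zero fun i _ => by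
        rw [star_mul, hP.sa.star_eq, (cz a i).c2.eq, mul_assoc, ← mul_assoc ε, c2]; simp
    refine ⟨ψ', E * ε, fun a i => y a i * ε,
      Fin.cons (fun i => c i * ε) fun a i => z a i * ε, ⟨o1, o2, ?_, ?_⟩,
      hy.scale hP.sa cE.c2, fun a b => ?_⟩
    · exact (hd.sa.commute_iff hP.sa).1 cE.c2.symm
    · rw [o3, mul_assoc, ← mul_assoc ε, ((Commute.one_right ε).sub_right
        ((cψ 1).c2.mul_right (cψ 1).c2)).eq, mul_assoc, one_sub_sq hP.one, ← mul_assoc,
        one_sub_sq hd.one]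
    · induction a using Fin.cases with
      | zero =>
        induction b using Fin.cases with
        | zero => simpa using Tr.scale (y := fun _ : Unit => c) (fun _ _ => c1) hP.sa cE.c2 () ()
        | succ b => simpa [star_sum, (Fin.succ_ne_zero b).symm] using congrArg star (c3 b)
      | succ a =>
        induction b using Fin.cases with
        | zero => simpa using c3 a
        | succ b => simpa using hz.scale hP.sa cE.c2 a b

theorem tree {B : Type u} [CStarAlgebra B] (hB : Fresh B) {i₀ i₁ : p} (hi : i₀ ≠ i₁)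
    (h : FullOZ B p) (κ : Type) [Fintype κ] [DecidableEq κ] :
    ∃ (ψ : Matrix p p ℂ →ₗ[ℂ] B) (E : B) (z : κ → B), Dom ψ E ∧
      (∀ a, ψ (single i₀ i₀ 1) * z a = z a ∧ ψ 1 * z a = z a) ∧
      ∀ a b, star (z a) * z b = if a = b then E * E else 0 := by
  obtain ⟨n, hp⟩ := fresh_pack hB i₀ h
  have key : ∀ (d : ℕ) (ι : Type) [Fintype ι], n + 1 ≤ Fintype.card ι + d → Nonempty ι →
      ∃ (ψ : Matrix p p ℂ →ₗ[ℂ] B) (E : B) (y : Fin n → ι → B), Dom ψ E ∧ Tr E y := by
    intro d
    induction d with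
    | zero =>
      intro ι _ hι _
      classical
      obtain ⟨e⟩ := Function.Embedding.nonempty_of_card_le (α := Fin n) (β := ι) (by simp; omega)
      refine ⟨0, 1, fun a i => if i = e a then 1 else 0,
        ⟨⟨by simp, by simp⟩, by simp, IsSelfAdjoint.one B, by simp⟩, fun a b => ?_⟩
      simp [apply_ite star, eq_comm]
    | succ d ih =>
      intro ι _ hι hn
      have := Fintype.card_pos (α := ι)
      obtain ⟨ψ, E, -, z, h1, -, h2⟩ := tree_step hi hp (ih (ι ⊕ ι) (by simp; omega) inferInstance) n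
      exact ⟨ψ, E, z, h1, h2⟩
  obtain ⟨ψ, E, -, y₀, hd, -, hy₀⟩ := tree_step hi hp
    (key (n + 1) (Unit ⊕ Unit) (by simp) inferInstance) (Fintype.card (κ × Fin n))
  let y : κ → Fin n → B := fun a m => y₀ (Fintype.equivFin _ (a, m)) ()
  have hy : ∀ a m b m', star (y a m) * y b m' = if a = b ∧ m = m' then E * E else 0 :=
    fun a m b m' => by simpa using hy₀ (Fintype.equivFin _ (a, m)) (Fintype.equivFin _ (b, m'))
  obtain ⟨χ, ε, t, hP, hC⟩ := hp _ ((isSeparable_lin ψ).union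
    ((Set.finite_range (Function.uncurry y)).insert E).isSeparable)
  have cψ := fun a => hC _ (Or.inl ⟨a, rfl⟩)
  have cE := hC E (Or.inr (Set.mem_insert _ _))
  have cy : ∀ a m, Com χ ε t (y a m) :=
    fun a m => hC _ (Or.inr (Set.mem_insert_of_mem _ ⟨(a, m), rfl⟩))
  obtain ⟨ψ', o1, o2, o3, o4⟩ := combine hP.oz hd.oz (fun a b => (cψ b).c1 a) hP.le hd.le
  have t1 : ∀ m, χ 1 * t m = t m := fun m => by
    rw [← hP.fix, ← mul_assoc, ← mul_one (1 : ℂ), ← single_mul_single_same 1 i₀ i₀ i₀, ← hP.oz.mul,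
      mul_assoc, hP.fix, hP.fix, single_mul_single_same, mul_one, hP.fix]
  refine ⟨ψ', E, fun a => ∑ m, y a m * t m, ⟨o1, o2, hd.sa, ?_⟩, fun a => ?_, fun a b => ?_⟩
  · rw [o3, ← mul_assoc, ((Commute.one_right E).sub_right
      ((cE.c1 1).symm.mul_right (cE.c1 1).symm)).eq, mul_assoc, one_sub_sq hd.one]
  · simp only [← ((cy a _).c3 _).eq, Finset.mul_sum, ← mul_assoc, o4 _ _ (t1 _), hP.fix, t1, and_self]
  · split_ifs with e
    · subst e
      simpa using Tr.col (y := fun m (_ : Unit) => y a m) (fun m m' => by simp [hy]) hP.sum cE.c4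
    · simp only [star_sum, Finset.sum_mul, Finset.mul_sum, star_mul, mul_assoc]
      simp [← mul_assoc (star (y a _)), hy, e]

end Vale.Agent.P101
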