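import Vale.Agent.P101.DD
import Vale.Agent.P101.Tree
import Vale.Agent.P101.Rot

/-! The universal property of the dimension-drop algebra, and the embedding theorem. -/

open scoped Matrix.Norms.L2Operator Kronecker

namespace Vale.Agent.P101

universe u

variable {p q : ℕ}

theorem IsOZ.toHom {R B : Type*} [Ring R] [StarRing R] [Algebra ℂ R] [CStarAlgebra B]
    {χ : R →ₗ[ℂ] B} (h : IsOZ χ) (h1 : χ 1 = 1) : ∃ π : R →⋆ₐ[ℂ] B, ∀ a, π a = χ a :=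
  ⟨{ AlgHom.ofLinearMap χ h1 (fun a b => by rw [h.mul, h1, one_mul]) with map_star' := h.star },
    fun _ => rfl⟩

theorem IsOZ.smul {R B : Type*} [Ring R] [StarRing R] [Algebra ℂ R] [CStarAlgebra B]
    {χ : R →ₗ[ℂ] B} (h : IsOZ χ) (c : ℝ) : IsOZ ((c : ℂ) • χ) :=
  ⟨fun a => by simp only [LinearMap.smul_apply, h.star, star_smul, Complex.star_def,
    Complex.conj_ofReal], fun a b => by simp only [LinearMap.smul_apply, smul_mul_smul_comm, h.mul a b]⟩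

theorem exists_gamma [NeZero p] [NeZero q] {Q : Type*} [CStarAlgebra Q]
    {α : Matrix (Fin p) (Fin p) ℂ →ₗ[ℂ] Q} {β : Matrix (Fin q) (Fin q) ℂ →ₗ[ℂ] Q} (hα : IsOZ α)
    (hβ : IsOZ β) (hc : ∀ a b, Commute (α a) (β b)) (h1 : α 1 = 1 - β 1) {s : unitInterval}
    (hs : β 1 = algebraMap ℂ Q (s : ℝ)) :
    ∃ γ : DD p q →⋆ₐ[ℂ] Q, (∀ a, γ (DD.lf a) = α a) ∧ ∀ b, γ (DD.rt b) = β b := by
  rcases eq_or_ne s 0 with rfl | h0
  · obtain ⟨ψ, -, h2, h3⟩ := DD.exists_psi0 (p := p) (q := q)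
    have e : β 1 = 0 := by simpa using hs
    obtain ⟨π, hπ⟩ := hα.toHom (by simp [h1, e])
    exact ⟨π.comp ψ, fun a => by simp [h2, hπ], fun b => by simp [h3, hβ.eq_zero e]⟩
  rcases eq_or_ne s 1 with rfl | h1'
  · obtain ⟨ψ, -, h2, h3⟩ := DD.exists_psi1 (p := p) (q := q)
    have e : β 1 = 1 := by simpa using hs
    obtain ⟨π, hπ⟩ := hβ.toHom e
    exact ⟨π.comp ψ, fun a => by simp [h3, hα.eq_zero (by simp [h1, e])], fun b => by simp [h2, hπ]⟩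
  have e0 : ((s : ℝ) : ℂ) ≠ 0 := by simpa
  have e1 : 1 - ((s : ℝ) : ℂ) ≠ 0 := by
    rw [sub_ne_zero, ne_comm]; exact_mod_cast fun h => h1' (Subtype.ext h)
  have a1 : ((((1 - s : ℝ)⁻¹ : ℝ) : ℂ) • α) 1 = 1 := by
    rw [LinearMap.smul_apply, h1, hs, Algebra.algebraMap_eq_smul_one]
    match_scalars; push_cast; field_simp
  have b1 : ((((s : ℝ)⁻¹ : ℝ) : ℂ) • β) 1 = 1 := by
    rw [LinearMap.smul_apply, hs, Algebra.algebraMap_eq_smul_one]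
    match_scalars; push_cast; field_simp
  obtain ⟨π, hπ⟩ := ((hα.smul (1 - s : ℝ)⁻¹).tens (hβ.smul (s : ℝ)⁻¹)
    fun a b => ((hc a b).smul_left _).smul_right _).toHom (by rw [tens_one, a1, b1, one_mul])
  refine ⟨π.comp (DD.ev s), fun a => ?_, fun b => ?_⟩
  · simp only [StarAlgHom.comp_apply, DD.ev_apply, DD.val_lf, sm_apply, map_smul, hπ, tens_kron, b1,
      mul_one, LinearMap.smul_apply (_ : ℂ) α, ContinuousMap.sub_apply, ContinuousMap.one_apply,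
      tX_apply]
    match_scalars; push_cast; field_simp
  · simp only [StarAlgHom.comp_apply, DD.ev_apply, DD.val_rt, sm_apply, map_smul, hπ, tens_kron, a1,
      one_mul, LinearMap.smul_apply (_ : ℂ) β, tX_apply]
    match_scalars; push_cast; field_simp

theorem drop_univ' [NeZero p] [NeZero q] {B : Type u} [CStarAlgebra B]
    {α : Matrix (Fin p) (Fin p) ℂ →ₗ[ℂ] B} {β : Matrix (Fin q) (Fin q) ℂ →ₗ[ℂ] B} (hα : IsOZ α)
    (hβ : IsOZ β) (hc : ∀ a b, Commute (α a) (β b)) (h1 : α 1 = 1 - β 1) (n1 : ‖α 1‖ ≤ 1)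
    (n2 : ‖β 1‖ ≤ 1) (hz : ∀ x, Commute (β 1) x) : Nonempty (DD p q →⋆ₐ[ℂ] B) := by
  let T := StarAlgebra.adjoin ℂ
    ((Set.range fun a => (DD.lf (q := q) a, α a)) ∪ Set.range fun b => (DD.rt b, β b))
  let f : T →⋆ₐ[ℂ] DD p q := (StarAlgHom.fst ℂ _ _).comp T.subtype
  refine (exists_of_graph f ((StarAlgHom.snd ℂ _ _).comp T.subtype)
    (DD.dense f.range.topologicalClosure (StarSubalgebra.isClosed_topologicalClosure _)
      (fun a => StarSubalgebra.le_topologicalClosure _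
        ⟨⟨_, StarAlgebra.subset_adjoin ℂ _ (Or.inl ⟨a, rfl⟩)⟩, rfl⟩)
      (fun a => StarSubalgebra.le_topologicalClosure _
        ⟨⟨_, StarAlgebra.subset_adjoin ℂ _ (Or.inr ⟨a, rfl⟩)⟩, rfl⟩)) fun t => ?_).nonempty
  change ‖t.1.2‖ ≤ ‖t.1.1‖
  rcases subsingleton_or_nontrivial B with _ | _
  · simp [Subsingleton.elim t.1.2 0]
  obtain ⟨H, _, _, _, π, s, hs, hn⟩ := fiber (β 1) t.1.2 hβ.sa1 hz n2 (h1 ▸ n1)
  obtain ⟨γ, g1, g2⟩ := exists_gamma (hα.map π) (hβ.map π) (fun a b => (hc a b).map π)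
    (by simp [h1]) hs
  have : T ≤ StarAlgHom.equalizer (γ.comp (StarAlgHom.fst ℂ _ B)) (π.comp (StarAlgHom.snd ℂ _ B)) :=
    StarAlgebra.adjoin_le (by
      rintro _ (⟨a, rfl⟩ | ⟨a, rfl⟩)
      exacts [g1 a, g2 a])
  have e : γ t.1.1 = π t.1.2 := this t.2
  exact hn.trans (e ▸ hom_le γ _)

theorem drop_univ [NeZero p] [NeZero q] {B : Type u} [CStarAlgebra B]
    {α : Matrix (Fin p) (Fin p) ℂ →ₗ[ℂ] B} {β : Matrix (Fin q) (Fin q) ℂ →ₗ[ℂ] B} (hα : IsOZ α)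
    (hβ : IsOZ β) (hc : ∀ a b, Commute (α a) (β b)) (h1 : α 1 = 1 - β 1) (n1 : ‖α 1‖ ≤ 1)
    (n2 : ‖β 1‖ ≤ 1) : Nonempty (DD p q →⋆ₐ[ℂ] B) := by
  let E := StarSubalgebra.centralizer ℂ {β 1}
  have hE : ∀ x, x ∈ E ↔ Commute (β 1) x := fun x => by
    simp [E, StarSubalgebra.mem_centralizer_iff, hβ.sa1.star_eq, Commute, SemiconjBy]
  have : IsClosed (E : Set B) := Set.isClosed_centralizer _
  obtain ⟨α', a1, a2⟩ := hα.restrict E fun a => (hE _).2 (hc a 1).symm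
  obtain ⟨β', b1, b2⟩ := hβ.restrict E fun a => (hE _).2 (hβ.comm a)
  obtain ⟨θ⟩ := drop_univ' a1 b1 (fun a b => Subtype.ext (by simpa [a2, b2] using (hc a b).eq))
    (Subtype.ext (by simpa [a2, b2] using h1)) (by rw [← a2] at n1; exact n1)
    (by rw [← b2] at n2; exact n2) (fun x => Subtype.ext (by simpa [b2] using ((hE _).1 x.2).eq))
  exact ⟨E.subtype.comp θ⟩

theorem exists_drop {B : Type u} [CStarAlgebra B] (hB : Fresh B) (h : IsEmpty (B →⋆ₐ[ℂ] ℂ))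
    (hp : 2 ≤ p) (hq : 2 ≤ q) (hpq : Nat.Coprime p q) : Nonempty (DD p q →⋆ₐ[ℂ] B) := by
  obtain ⟨p, rfl⟩ : ∃ k, p = k + 2 := ⟨p - 2, by omega⟩
  have : NeZero q := ⟨by omega⟩
  obtain ⟨r, -, hr⟩ := Nat.exists_mul_mod_eq_one_of_coprime hpq.symm (by omega)
  obtain ⟨ψ, E, z, hd, h1, h2⟩ := tree hB (i₀ := 0) (i₁ := 1) (by simp) (fullOZ_all hB h (p + 1))
    (Fin (q * r / (p + 2)))
  obtain ⟨α, β, o1, o2, o3, o4, o5, o6⟩ := rot hd.oz hd.le hd.sa hd.one h1 h2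
  obtain ⟨e⟩ : Nonempty (Fin q × Fin r ≃ Option (Fin (p + 2) × Fin (q * r / (p + 2)))) :=
    Fintype.card_eq.1 (by have := Nat.div_add_mod (q * r) (p + 2); simp; omega)
  let g := (Matrix.reindexAlgEquiv ℂ ℂ e).toLinearMap ∘ₗ (kl (Fin q) (Fin r)).toLinearMap
  have hg : ∀ a, g a = Matrix.reindexAlgEquiv ℂ ℂ e (kl _ _ a) := fun _ => rfl
  have g1 : (β ∘ₗ g) 1 = β 1 := by rw [LinearMap.comp_apply, hg, map_one, map_one]
  exact drop_univ o1 (o2.comp g (fun a => by rw [hg, hg, map_star]; rfl)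
    fun a b => by rw [hg, hg, hg, map_mul, map_mul]) (fun a b => o3 _ _) (g1 ▸ o4) o5 (g1 ▸ o6)

end Vale.Agent.P101
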