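import Vale.Agent.P101.Cov

/-! Perturbation to unitaries and one-sided intertwining. -/

open Filter Topology TopologicalSpace

namespace Vale.Agent.P101

theorem near_unitary {C : Type*} [CStarAlgebra C] {w : C} {δ : ℝ} (h0 : 0 ≤ δ) (hδ : δ < 1)
    (h1 : ‖star w * w - 1‖ ≤ δ) (h2 : ‖w * star w - 1‖ ≤ δ) : ∃ v ∈ unitary C, ‖v - w‖ ≤ δ := by
  set a := star w * w with ha
  have sa : IsSelfAdjoint a := IsSelfAdjoint.star_mul_self w
  have sp : ∀ t ∈ spectrum ℝ a, |t - 1| ≤ δ := fun t ht => by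
    have := norm_apply_le_norm_cfc (fun t : ℝ => t - 1) a ht
    rw [cfc_sub .., cfc_id' ℝ a, cfc_const_one ℝ a] at this
    exact this.trans h1
  have sp0 : ∀ t ∈ spectrum ℝ a, 0 < t := fun t ht => by
    have := abs_le.1 (sp t ht); linarith
  have cg : ContinuousOn (fun t : ℝ => (√t)⁻¹) (spectrum ℝ a) :=
    ContinuousOn.inv₀ (by fun_prop) fun t ht => (Real.sqrt_pos.2 (sp0 t ht)).ne'
  set r := cfc (fun t : ℝ => (√t)⁻¹) a with hr
  have rs : star r = r := IsSelfAdjoint.cfc
  have e1 : r * a * r = 1 := by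
    rw [hr]
    nth_rw 2 [← cfc_id' ℝ a]
    rw [← cfc_mul _ _ a cg (continuousOn_id' _), ← cfc_mul (fun t => (√t)⁻¹ * t) _ a (cg.mul continuousOn_id) cg,
      ← cfc_const_one ℝ a]
    refine cfc_congr fun t ht => ?_
    have := Real.mul_self_sqrt (sp0 t ht).le
    have := (Real.sqrt_pos.2 (sp0 t ht)).ne'
    field_simp
    linarith
  have uw : IsUnit w := by
    have u : ∀ x : C, ‖x - 1‖ ≤ δ → IsUnit x := fun x hx => by
      have : ‖1 - x‖ < 1 := by rw [norm_sub_rev]; linarith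
      exact ⟨Units.oneSub _ this, by simp⟩
    have u1 : IsUnit (star w * w) := u _ h1
    have u2 := u _ h2
    obtain ⟨b, hb⟩ := u1.exists_left_inv
    obtain ⟨c, hc⟩ := u2.exists_right_inv
    exact isUnit_iff_exists_and_exists.2 ⟨⟨_, by rwa [mul_assoc] at hc⟩, _, by rwa [← mul_assoc] at hb⟩
  have ur : IsUnit r := isUnit_iff_exists_and_exists.2 ⟨⟨_, by rwa [mul_assoc] at e1⟩, _, e1⟩
  refine ⟨w * r, (uw.mul ur).mem_unitary_of_star_mul_self ?_, ?_⟩
  · rw [star_mul, rs, ← e1, ha]; simp only [mul_assoc]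
  · refine abs_le_of_sq_le_sq' ?_ h0 |>.2
    have e2 : star (w * r - w) * (w * r - w) = (r - 1) * a * (r - 1) := by
      rw [star_sub, star_mul, rs, ha]; noncomm_ring
    have cg' : ContinuousOn (fun t : ℝ => (√t)⁻¹ - 1) (spectrum ℝ a) := cg.sub continuousOn_const
    rw [sq, ← CStarRing.norm_star_mul_self, e2, hr, ← cfc_const_one ℝ a,
      ← cfc_sub _ _ a cg continuousOn_const]
    nth_rw 2 [← cfc_id' ℝ a]
    rw [← cfc_mul _ _ a cg' (continuousOn_id' _), 
      ← cfc_mul (fun t => ((√t)⁻¹ - 1) * t) _ a (cg'.mul continuousOn_id) cg']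
    refine norm_cfc_le (sq_nonneg _) fun t ht => ?_
    have t1 := Real.mul_self_sqrt (sp0 t ht).le
    have t2 := Real.sqrt_pos.2 (sp0 t ht)
    have t3 := sp t ht
    generalize √t = s at *
    subst t1
    rw [show (s⁻¹ - 1) * (s * s) * (s⁻¹ - 1) = (s - 1) ^ 2 by field_simp; ring,
      Real.norm_of_nonneg (sq_nonneg _), ← sq_abs]
    refine pow_le_pow_left₀ (abs_nonneg _) (le_trans ?_ t3) 2
    rw [show s * s - 1 = (s - 1) * (s + 1) by ring, abs_mul]
    exact le_mul_of_one_le_right (abs_nonneg _) (by rw [abs_of_pos] <;> linarith)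

theorem intertwine {A C : Type*} [CStarAlgebra A] [CStarAlgebra C] [SeparableSpace A]
    [SeparableSpace C] (ι : A →⋆ₐ[ℂ] C) (hι : Function.Injective ι)
    (h : ∀ (F : Finset A) (G : Finset C) (ε : ℝ), 0 < ε → ∃ v ∈ unitary C,
      (∀ a ∈ F, ‖v * ι a - ι a * v‖ ≤ ε) ∧ ∀ x ∈ G, ∃ a, ‖star v * x * v - ι a‖ ≤ ε) :
    Nonempty (A ≃⋆ₐ[ℂ] C) := by
  classical
  choose v hv h1 h2 using fun F G (n : ℕ) => h F G (1 / 2 ^ n) (by positivity)
  choose! b hb using h2
  let G : ℕ → C → Finset C := fun n u => (Finset.range n).image fun i => star u * denseSeq C i * u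
  let s : ℕ → C × Finset A := fun n => Nat.rec (1, ∅) (fun n s =>
    (s.1 * v s.2 (G n s.1) n, insert (denseSeq A n) s.2 ∪ (G n s.1).image (b s.2 (G n s.1) n))) n
  have s1 : ∀ n, (s (n + 1)).1 = (s n).1 * v (s n).2 (G n (s n).1) n := fun _ => rfl
  have s2 : ∀ n, (s (n + 1)).2 = insert (denseSeq A n) (s n).2 ∪
      (G n (s n).1).image (b (s n).2 (G n (s n).1) n) := fun _ => rfl
  have s0 : (s 0).1 = 1 := rfl
  clear_value s
  have hu : ∀ n, (s n).1 ∈ unitary C := fun n => by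
    induction n with
    | zero => exact s0 ▸ one_mem _
    | succ n ih => exact s1 n ▸ mul_mem ih (hv _ _ _)
  have mono : Monotone fun n => (s n).2 := monotone_nat_of_le_succ fun n => by
    rw [s2]; exact (Finset.subset_insert _ _).trans Finset.subset_union_left
  have cn : ∀ u ∈ unitary C, ∀ x, ‖u * x * star u‖ = ‖x‖ := fun u hu x => by
    rw [CStarRing.norm_mul_mem_unitary _ (Unitary.star_mem hu), CStarRing.norm_mem_unitary_mul _ hu]
  let φ : ℕ → A → C := fun n x => (s n).1 * ι x * star (s n).1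
  have step : ∀ n, ∀ x ∈ (s n).2, dist (φ n x) (φ (n + 1) x) ≤ 1 / 2 ^ n := fun n x hx => by
    set w := v (s n).2 (G n (s n).1) n
    have : φ (n + 1) x - φ n x = (s n).1 * ((w * ι x - ι x * w) * star w) * star (s n).1 := by
      simp only [φ, s1, star_mul, sub_mul, mul_sub, mul_assoc]
      rw [← mul_assoc w (star w), (hv _ _ _).2, one_mul]
    rw [dist_comm, dist_eq_norm, this, cn _ (hu n), CStarRing.norm_mul_mem_unitary _ (Unitary.star_mem (hv _ _ _))]
    exact h1 _ _ _ x hx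
  have lim : ∀ n, ∀ x ∈ (s n).2, ∃ y, Tendsto (φ · x) atTop (𝓝 y) ∧ dist (φ n x) y ≤ 2 / 2 ^ n := by
    intro n x hx
    have e : ∀ k, dist (φ (k + n) x) (φ (k + 1 + n) x) ≤ 2 / 2 ^ n / 2 / 2 ^ k := fun k => by
      rw [Nat.add_right_comm]
      convert step (k + n) x (mono (Nat.le_add_left n k) hx) using 1
      rw [pow_add]; field_simp
    obtain ⟨y, hy⟩ := cauchySeq_tendsto_of_complete (cauchySeq_of_le_geometric_two e)
    exact ⟨y, (tendsto_add_atTop_iff_nat n).1 hy, by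
      simpa using dist_le_of_le_geometric_two_of_tendsto₀ e hy⟩
  let T : StarSubalgebra ℂ (A × C) :=
    { carrier := {z | Tendsto (φ · z.1) atTop (𝓝 z.2)}
      mul_mem' := fun {z w} hz hw => (Tendsto.mul hz hw).congr fun n => by
        simp only [φ, Prod.fst_mul, map_mul, mul_assoc]
        rw [← mul_assoc (star _) (s n).1, (hu n).1, one_mul]
      add_mem' := fun {z w} hz hw => (Tendsto.add hz hw).congr fun n => by
        simp only [φ, Prod.fst_add, map_add, mul_add, add_mul]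
      algebraMap_mem' := fun c => tendsto_const_nhds.congr fun n => by
        simp [φ, Algebra.algebraMap_eq_smul_one, (hu n).2]
      star_mem' := fun {z} hz => (Tendsto.star hz).congr fun n => by
        simp [φ, map_star, mul_assoc] }
  have hn : ∀ t : T, ‖t.1.2‖ = ‖t.1.1‖ := fun t => tendsto_nhds_unique (Tendsto.norm t.2)
    (tendsto_const_nhds.congr fun n => by
      simp only [φ, cn _ (hu n), NonUnitalStarAlgHom.norm_map ι hι])
  let p : T →⋆ₐ[ℂ] A := (StarAlgHom.fst ℂ _ _).comp T.subtype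
  have dp : DenseRange p := (denseRange_denseSeq A).mono (by
    rintro _ ⟨i, rfl⟩
    obtain ⟨y, hy, -⟩ := lim (i + 1) (denseSeq A i) (by simp [s2])
    exact ⟨⟨(_, y), hy⟩, rfl⟩)
  obtain ⟨θ, hθ⟩ := exists_of_graph p ((StarAlgHom.snd ℂ _ _).comp T.subtype) dp fun t => (hn t).le
  have iso : ∀ x, ‖θ x‖ = ‖x‖ := fun x => dp.induction_on (p := fun x => ‖θ x‖ = ‖x‖) x
    (isClosed_eq (by fun_prop) (by fun_prop)) fun t => by rw [hθ]; exact hn t
  have inj : Function.Injective θ := (injective_iff_map_eq_zero θ).2 fun x hx => by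
    rw [← norm_eq_zero, ← iso, hx, norm_zero]
  have cl := (NonUnitalStarAlgHom.isometry θ inj).isClosedEmbedding.isClosed_range
  refine ⟨StarAlgEquiv.ofBijective θ ⟨inj, fun c => (denseRange_denseSeq C).induction_on
    (p := fun c => c ∈ Set.range θ) c cl fun i => ?_⟩⟩
  rw [← cl.closure_eq, Metric.mem_closure_range_iff]
  intro ε hε
  obtain ⟨n, hn1, hn2⟩ := ((eventually_gt_atTop i).and ((tendsto_pow_atTop_nhds_zero_of_lt_one
    (r := (1 / 2 : ℝ)) (by norm_num) (by norm_num)).eventually_lt_const (half_pos hε))).exists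
  have hx : star (s n).1 * denseSeq C i * (s n).1 ∈ G n (s n).1 :=
    Finset.mem_image_of_mem _ (Finset.mem_range.2 hn1)
  set x := b (s n).2 (G n (s n).1) n (star (s n).1 * denseSeq C i * (s n).1)
  obtain ⟨y, hy, hy'⟩ := lim (n + 1) x (by
    rw [s2]; exact Finset.mem_union_right _ (Finset.mem_image_of_mem _ hx))
  refine ⟨x, ?_⟩
  have e1 : θ x = y := hθ ⟨(x, y), hy⟩
  have e2 : dist (denseSeq C i) (φ (n + 1) x) ≤ 1 / 2 ^ n := by
    refine le_of_eq_of_le ?_ (hb (s n).2 _ n _ hx)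
    rw [← cn _ (hu (n + 1)), dist_eq_norm]
    congr 1
    have := (hu (n + 1)).2
    rw [mul_sub, sub_mul, show star (v (s n).2 (G n (s n).1) n) * (star (s n).1 * denseSeq C i *
      (s n).1) * v (s n).2 (G n (s n).1) n = star (s (n + 1)).1 * denseSeq C i * (s (n + 1)).1 by
      simp only [s1, star_mul, mul_assoc], ← mul_assoc, ← mul_assoc, this, one_mul, mul_assoc (denseSeq C i),
      this, mul_one]
  rw [e1]
  refine (dist_triangle _ _ _).trans_lt ((add_le_add e2 hy').trans_lt ?_)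
  rw [one_div_pow] at hn2
  rw [show (2 : ℝ) / 2 ^ (n + 1) = 1 / 2 ^ n by rw [pow_succ]; field_simp]
  linarith

end Vale.Agent.P101
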