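import Vale.Agent.P101.DD

/-! Commuting representations of a dimension-drop algebra are bounded by the minimal norm. -/

open scoped Matrix.Norms.L2Operator InnerProductSpace TensorProduct

namespace Vale.Agent.P101

universe u

theorem le_minNorm {A B H K : Type u} [CStarAlgebra A] [CStarAlgebra B] [NormedAddCommGroup H]
    [InnerProductSpace ℂ H] [CompleteSpace H] [NormedAddCommGroup K] [InnerProductSpace ℂ K]
    [CompleteSpace K] (π : A →⋆ₐ[ℂ] (H →L[ℂ] H)) (σ : B →⋆ₐ[ℂ] (K →L[ℂ] K)) {n : ℕ}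
    (a : Fin n → A) (b : Fin n → B) :
    ‖∑ i, TensorProduct.mapL (π (a i)) (σ (b i))‖ ≤ minNorm a b := by
  refine le_csSup ⟨∑ i, ‖a i‖ * ‖b i‖, ?_⟩
    ⟨H, _, _, inferInstance, K, _, _, inferInstance, π, σ, ⟨π, fun _ => rfl⟩, ⟨σ, fun _ => rfl⟩, rfl⟩
  rintro _ ⟨H, _, _, _, K, _, _, _, π, σ, ⟨π', hπ⟩, ⟨σ', hσ⟩, rfl⟩
  refine (norm_sum_le _ _).trans (Finset.sum_le_sum fun i _ =>
    (TensorProduct.norm_mapL_le _ _).trans ?_)
  simp only [hπ, hσ]
  exact mul_le_mul (hom_le π' _) (hom_le σ' _) (norm_nonneg _) (norm_nonneg _)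

theorem minNorm_nonneg {A B : Type u} [CStarAlgebra A] [CStarAlgebra B] {n : ℕ}
    (a : Fin n → A) (b : Fin n → B) : 0 ≤ minNorm a b :=
  Real.sSup_nonneg (by rintro _ ⟨H, _, _, _, K, _, _, _, π, σ, -, -, rfl⟩; exact norm_nonneg _)

theorem iso_bound {H K ι κ : Type*} [NormedAddCommGroup H] [InnerProductSpace ℂ H] [CompleteSpace H]
    [NormedAddCommGroup K] [InnerProductSpace ℂ K] [Fintype ι] [DecidableEq ι] [Fintype κ]
    (v : ι → K) (hv : ∀ i l, ⟪v i, v l⟫_ℂ = if i = l then 1 else 0) (γ : ι → H →L[ℂ] H)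
    (hγ : ∑ i, star (γ i) * γ i = 1) (S : κ → K →L[ℂ] K) (R G : κ → H →L[ℂ] H)
    (c : κ → Matrix ι ι ℂ) (h1 : ∀ k i, S k (v i) = ∑ l, c k l i • v l)
    (h2 : ∀ k l, γ l * G k = ∑ i, c k l i • γ i) (h3 : ∀ k i, Commute (γ i) (R k)) :
    ‖∑ k, G k * R k‖ ≤ ‖∑ k, TensorProduct.mapL (S k) (R k)‖ := by
  let V : H → K ⊗[ℂ] H := fun ξ => ∑ i, v i ⊗ₜ γ i ξ
  have hV : ∀ ξ, ‖V ξ‖ = ‖ξ‖ := fun ξ => by
    have : ⟪V ξ, V ξ⟫_ℂ = ⟪ξ, ξ⟫_ℂ := by
      simp only [V, sum_inner, inner_sum, TensorProduct.inner_tmul, hv, ite_mul, one_mul, zero_mul,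
        Finset.sum_ite_eq', Finset.mem_univ, if_true]
      conv_rhs => rw [show ξ = (1 : H →L[ℂ] H) ξ from rfl, ← hγ]; arg 2; rw [hγ]
      simp [inner_sum, ContinuousLinearMap.star_eq_adjoint, ContinuousLinearMap.adjoint_inner_right]
    rw [← sq_eq_sq₀ (norm_nonneg _) (norm_nonneg _), ← inner_self_eq_norm_sq (𝕜 := ℂ), this,
      inner_self_eq_norm_sq]
  refine ContinuousLinearMap.opNorm_le_bound _ (ContinuousLinearMap.opNorm_nonneg _) fun ξ => ?_
  rw [← hV, ← hV ξ]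
  refine le_of_eq_of_le (congrArg _ ?_) (ContinuousLinearMap.le_opNorm _ (V ξ))
  simp only [V, ContinuousLinearMap.sum_apply, map_sum, TensorProduct.mapL_tmul, h1,
    TensorProduct.tmul_sum, TensorProduct.sum_tmul, ← mul_apply_eq_comp, ← mul_assoc, h2,
    Finset.sum_mul, smul_mul_assoc, ContinuousLinearMap.smul_apply, TensorProduct.tmul_smul,
    TensorProduct.smul_tmul', (h3 _ _).eq]
  conv_lhs => rw [Finset.sum_comm]; arg 2; ext; rw [Finset.sum_comm]
  exact Finset.sum_comm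

theorem entry_le {n : Type} [Fintype n] [DecidableEq n] (m : Matrix n n ℂ) (i : n) :
    ‖m i i‖ ≤ ‖m‖ := by
  set e := Matrix.single i i (1 : ℂ) with he
  have h1 : ‖e‖ ≤ 1 := IsStarProjection.norm_le _
    ⟨by simp [he, IsIdempotentElem], by simp [he, IsSelfAdjoint, Matrix.star_eq_conjTranspose]⟩
  have h0 : 0 < ‖e‖ := norm_pos_iff.2 fun h => by simpa [he] using congrFun (congrFun h i) i
  have h2 : m i i • e = e * m * e := by simp [he]
  have h3 := (norm_mul_le (e * m) e).trans (mul_le_mul_of_nonneg_right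
    ((norm_mul_le e m).trans (mul_le_of_le_one_left (norm_nonneg _) h1)) h0.le)
  rwa [← h2, norm_smul, mul_le_mul_iff_left₀ h0] at h3

variable {p q : ℕ} [NeZero p] [NeZero q] {Z Y E : Type u} [CStarAlgebra Z] [CStarAlgebra Y]
  [CStarAlgebra E]

theorem nuc' (j : DD p q →⋆ₐ[ℂ] Z) (hj : Function.Injective j) (α : DD p q →⋆ₐ[ℂ] E)
    (κ : Y →⋆ₐ[ℂ] E) (hc : ∀ f y, Commute (α f) (κ y)) (hz : ∀ x, Commute (α (DD.rt 1)) x) {n : ℕ}
    (f : Fin n → DD p q) (y : Fin n → Y) :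
    ‖∑ k, α (f k) * κ (y k)‖ ≤ minNorm (fun k => j (f k)) y := by
  rcases subsingleton_or_nontrivial E with _ | _
  · rw [Subsingleton.elim (∑ k, _) 0, norm_zero]; exact minNorm_nonneg _ _
  obtain ⟨H, _, _, _, ρ, s, hs, hn⟩ := fiber (α (DD.rt 1)) (∑ k, α (f k) * κ (y k))
    (DD.X_sa.map α) hz ((hom_le α _).trans DD.X_le.1)
    (by rw [← map_one α, ← map_sub]; exact (hom_le α _).trans DD.X_le.2)
  obtain ⟨m, _, _, ⟨i₀⟩, ψ, hψ, hk⟩ := DD.exists_fibre (p := p) (q := q) s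
  obtain ⟨g, hg, he⟩ := exists_ext j.toLinearMap (Matrix.entryLinearMap ℂ ℂ i₀ i₀ ∘ₗ ψ.toLinearMap)
    fun d => (entry_le (ψ d) i₀).trans ((hom_le ψ d).trans_eq
      (NonUnitalStarAlgHom.norm_map j hj d).symm)
  have he' : ∀ d, g (j d) = ψ d i₀ i₀ := he
  obtain ⟨K, _, _, _, π, Ω, hi, -⟩ := exists_gns g hg (by simpa using he' 1)
  choose e hE using fun i => hψ (Matrix.single i i₀ 1)
  have k1 : ∀ a b, ψ a = ψ b → π (j a) Ω = π (j b) Ω := fun a b h => by
    rw [← sub_eq_zero, ← ContinuousLinearMap.sub_apply, ← map_sub, ← map_sub,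
      ← inner_self_eq_zero (𝕜 := ℂ), hi, ← map_star, ← map_mul, he', map_mul, map_sub, h]
    simp
  have k2 : ∀ a b, ψ a = ψ b → ρ (α a) = ρ (α b) := fun a b h => by
    rw [← sub_eq_zero, ← map_sub, ← map_sub]
    exact DD.kill (ρ.comp α) hs (hk _ (by rw [map_sub, h, sub_self]))
  refine hn.trans (le_trans ?_ (le_minNorm π (ρ.comp κ) _ _))
  simp only [map_sum, map_mul]
  refine iso_bound (fun i => π (j (e i)) Ω) (fun i l => ?_) (fun i => ρ (α (star (e i)))) ?_ _ _ _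
    (fun k => ψ (f k)) (fun k i => ?_) (fun k l => ?_) fun k i => (hc _ _).map ρ
  · rw [hi, ← map_star, ← map_mul, he', map_mul, map_star, hE, hE]
    simp [Matrix.star_eq_conjTranspose, Matrix.mul_apply, Matrix.single_apply, eq_comm]
  · simp only [← map_star, ← map_mul, ← map_sum, star_star]
    rw [k2 _ 1, map_one, map_one]
    simp [map_star, hE, Matrix.star_eq_conjTranspose, Matrix.sum_single_one]
  · rw [← mul_apply_eq_comp, ← map_mul, ← map_mul, k1 _ (∑ l, ψ (f k) l i • e l)]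
    · simp
    · ext r t
      by_cases h : i₀ = t
      · subst h; simp [hE, Matrix.sum_apply, Matrix.single_apply]
      · simp [hE, Matrix.sum_apply, h, Ne.symm h]
  · rw [← map_mul, ← map_mul, k2 _ (∑ i, ψ (f k) l i • star (e i))]
    · simp
    · ext r t
      by_cases h : i₀ = r
      · subst h; simp [map_star, hE, Matrix.star_eq_conjTranspose, Matrix.sum_apply, Matrix.single_apply]
      · simp [map_star, hE, Matrix.star_eq_conjTranspose, Matrix.sum_apply, h, Ne.symm h]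

theorem nuc (j : DD p q →⋆ₐ[ℂ] Z) (hj : Function.Injective j) (α : DD p q →⋆ₐ[ℂ] E)
    (κ : Y →⋆ₐ[ℂ] E) (hc : ∀ f y, Commute (α f) (κ y)) {n : ℕ}
    (f : Fin n → DD p q) (y : Fin n → Y) :
    ‖∑ k, α (f k) * κ (y k)‖ ≤ minNorm (fun k => j (f k)) y := by
  let F := StarSubalgebra.centralizer ℂ {α (DD.rt 1)}
  have hF : ∀ x, x ∈ F ↔ Commute (α (DD.rt 1)) x := fun x => by
    simp [F, StarSubalgebra.mem_centralizer_iff, (DD.X_sa.map α).star_eq, Commute, SemiconjBy]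
  have : IsClosed (F : Set E) := Set.isClosed_centralizer _
  have := nuc' j hj (α.codRestrict F fun a => (hF _).2 ((DD.X_central a).map α))
    (κ.codRestrict F fun a => (hF _).2 (hc _ a)) (fun a b => Subtype.ext (hc a b))
    (fun x => Subtype.ext ((hF _).1 x.2)) f y
  refine le_of_eq_of_le ?_ this
  rw [← NonUnitalStarAlgHom.norm_map F.subtype Subtype.val_injective]
  simp

end Vale.Agent.P101
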