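import Vale.Agent.P101.Ultra
import Vale.Agent.P101.Nuc
import Vale.Agent.P101.Inter
import Vale.Agent.P101.Drop

/-! Absorption of the Jiang-Su algebra. -/

open Filter Topology TopologicalSpace BoundedContinuousFunction
open scoped BoundedContinuousFunction

namespace Vale.Agent.P101

universe u

theorem intertwine' {A C : Type*} [CStarAlgebra A] [CStarAlgebra C] [SeparableSpace A]
    [SeparableSpace C] (ι : A →⋆ₐ[ℂ] C) (hι : Function.Injective ι)
    (h : ∀ (F : Finset A) (G : Finset C) (ε : ℝ), 0 < ε → ∃ w : C, ‖star w * w - 1‖ < ε ∧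
      ‖w * star w - 1‖ < ε ∧ (∀ a ∈ F, ‖w * ι a - ι a * w‖ < ε) ∧
      ∀ x ∈ G, ∃ a, ‖star w * x * w - ι a‖ < ε) : Nonempty (A ≃⋆ₐ[ℂ] C) := by
  refine intertwine ι hι fun F G ε hε => ?_
  set M := ∑ a ∈ F, ‖ι a‖ + ∑ x ∈ G, ‖x‖ with hM
  have s1 : 0 ≤ ∑ a ∈ F, ‖ι a‖ := Finset.sum_nonneg fun _ _ => norm_nonneg _
  have s2 : 0 ≤ ∑ a ∈ G, ‖a‖ := Finset.sum_nonneg fun _ _ => norm_nonneg _
  obtain ⟨δ, δ0, δ1, δ2⟩ : ∃ δ : ℝ, 0 < δ ∧ δ < 1 ∧ δ * (1 + 3 * M) ≤ ε :=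
    ⟨min (1 / 2) (ε / (1 + 3 * M)), by positivity, (min_le_left _ _).trans_lt (by norm_num), by
      rw [← le_div_iff₀ (by positivity)]; exact min_le_right _ _⟩
  obtain ⟨w, h1, h2, h3, h4⟩ := h F G δ δ0
  obtain ⟨v, hv, hvw⟩ := near_unitary δ0.le δ1 h1.le h2.le
  refine ⟨v, hv, fun a ha => ?_, fun x hx => ?_⟩
  · have e : ‖ι a‖ ≤ M := (Finset.single_le_sum (f := fun a => ‖ι a‖)
      (fun _ _ => norm_nonneg _) ha).trans (le_add_of_nonneg_right s2)
    rw [show v * ι a - ι a * v = (w * ι a - ι a * w) + ((v - w) * ι a - ι a * (v - w)) by noncomm_ring]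
    have t1 := (norm_mul_le (v - w) (ι a)).trans (mul_le_mul hvw e (norm_nonneg _) δ0.le)
    have t2 := (norm_mul_le (ι a) (v - w)).trans (mul_le_mul e hvw (norm_nonneg _) (by positivity))
    have t3 := norm_sub_le ((v - w) * ι a) (ι a * (v - w))
    refine (norm_add_le _ _).trans ?_
    nlinarith [h3 a ha, mul_nonneg δ0.le (add_nonneg s1 s2)]
  · have e : ‖x‖ ≤ M := (Finset.single_le_sum (f := fun a => ‖a‖)
      (fun _ _ => norm_nonneg _) hx).trans (le_add_of_nonneg_left s1)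
    obtain ⟨a, ha⟩ := h4 x hx
    refine ⟨a, ?_⟩
    rw [show star v * x * v - ι a = (star w * x * w - ι a) + (star (v - w) * (x * v) +
      star (v - w) * x * (w - v) + star v * (x * (w - v)) * (-1)) by rw [star_sub]; noncomm_ring]
    have t1 : ‖star (v - w) * (x * v)‖ ≤ δ * M := (norm_mul_le _ _).trans (by
      rw [norm_star, CStarRing.norm_mul_mem_unitary _ hv]
      exact mul_le_mul hvw e (norm_nonneg _) δ0.le)
    have t2 : ‖star (v - w) * x * (w - v)‖ ≤ δ * M * 1 := (norm_mul_le _ _).trans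
      (mul_le_mul ((norm_mul_le _ _).trans (by
        rw [norm_star]; exact mul_le_mul hvw e (norm_nonneg _) δ0.le))
        (by rw [norm_sub_rev]; linarith) (norm_nonneg _) (by positivity))
    have t3 : ‖star v * (x * (w - v)) * (-1)‖ ≤ M * δ := by
      rw [mul_neg_one, norm_neg, CStarRing.norm_mem_unitary_mul _ (Unitary.star_mem hv)]
      exact (norm_mul_le _ _).trans (mul_le_mul e (by rwa [norm_sub_rev]) (norm_nonneg _)
        (by positivity))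
    refine (norm_add_le _ _).trans ?_
    nlinarith [norm_add₃_le (a := star (v - w) * (x * v)) (b := star (v - w) * x * (w - v))
      (c := star v * (x * (w - v)) * (-1))]

theorem exists_sum_of_adjoin {D₁ D₂ E : Type*} [CStarAlgebra D₁] [CStarAlgebra D₂] [CStarAlgebra E]
    (θ₁ : D₁ →⋆ₐ[ℂ] E) (θ₂ : D₂ →⋆ₐ[ℂ] E) (hc : ∀ a b, Commute (θ₁ a) (θ₂ b)) {x : E}
    (hx : x ∈ StarAlgebra.adjoin ℂ (Set.range θ₁ ∪ Set.range θ₂)) :
    ∃ (n : ℕ) (a : Fin n → D₁) (b : Fin n → D₂), x = ∑ i, θ₁ (a i) * θ₂ (b i) := by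
  have : x ∈ (Algebra.TensorProduct.lift θ₁.toAlgHom θ₂.toAlgHom hc).range := by
    refine (Algebra.adjoin_le ?_ : Algebra.adjoin ℂ _ ≤ _) hx
    rintro x ((⟨y, rfl⟩ | ⟨y, rfl⟩) | (⟨y, hy⟩ | ⟨y, hy⟩))
    · exact ⟨y ⊗ₜ 1, by simp⟩
    · exact ⟨1 ⊗ₜ y, by simp⟩
    · exact ⟨star y ⊗ₜ 1, by simp [map_star, hy]⟩
    · exact ⟨1 ⊗ₜ star y, by simp [map_star, hy]⟩
  obtain ⟨t, rfl⟩ := this
  obtain ⟨n, a, b, rfl⟩ := TensorProduct.exists_sum_tmul_eq t
  exact ⟨n, a, b, by simp⟩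

theorem good_of_flip {Z V : Type u} [CStarAlgebra Z] [CStarAlgebra V] (hZ : IsJiangSu Z)
    (κ : Z →⋆ₐ[ℂ] V) (R : V → Prop) (S : Set V) (hS : ∀ z, ∀ s ∈ S, Commute (κ z) s)
    (h : ∀ p q, 2 ≤ p → 2 ≤ q → Nat.Coprime p q → ∃ α : DD p q →⋆ₐ[ℂ] V,
      ∀ f, R (α f) ∧ (∀ z, Commute (α f) (κ z)) ∧ ∀ s ∈ S, Commute (α f) s)
    (G : Finset Z) {δ : ℝ} (hδ : 0 < δ) : ∃ W : V, (∀ s ∈ S, Commute W s) ∧
      ‖star W * W - 1‖ < δ ∧ ‖W * star W - 1‖ < δ ∧
      ∀ z ∈ G, ∃ y, R y ∧ ‖star W * κ z * W - y‖ < δ := by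
  obtain ⟨⟨T, hT, mono, dT⟩, C, _, ι₂, κ₂, ⟨c1, c2, c3⟩, hf⟩ := hZ
  obtain ⟨v, hv, h1⟩ := hf G (δ / 2) (half_pos hδ)
  let O := {w : C | ‖star w * w - 1‖ < δ ∧ ‖w * star w - 1‖ < δ ∧
    ∀ z ∈ G, ‖star w * κ₂ z * w - ι₂ z‖ < δ / 2}
  have hO : IsOpen O := by
    simp only [O, Set.ofPred_and, Set.ofPred_forall]
    exact (isOpen_lt (by fun_prop) continuous_const).inter
      ((isOpen_lt (by fun_prop) continuous_const).inter
      (G.finite_toSet.isOpen_biInter fun z _ => isOpen_lt (by fun_prop) continuous_const))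
  have vO : v ∈ O := ⟨by simpa [hv.1], by simpa [hv.2], fun z hz => by
    rw [← CStarRing.norm_mem_unitary_mul _ hv,
      ← CStarRing.norm_mul_mem_unitary _ (Unitary.star_mem hv)]
    convert h1 z hz using 1
    rw [← norm_neg]; congr 1
    simp only [mul_sub, sub_mul, neg_sub, ← mul_assoc, hv.2, one_mul]
    rw [mul_assoc _ v, hv.2, mul_one]⟩
  obtain ⟨_, ⟨k, a₀, b, rfl⟩, hw₀⟩ := c2.exists_mem_open hO ⟨v, vO⟩
  obtain ⟨a, ha, hw⟩ := (dense_pi Set.univ fun (_ : Fin k) _ => dT).exists_mem_open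
    (hO.preimage (f := fun a : Fin k → Z => ∑ i, ι₂ (a i) * κ₂ (b i)) (by fun_prop)) ⟨a₀, hw₀⟩
  choose z' hz1 hz2 using fun z => Metric.mem_closure_iff.1 (dT z) (δ / 2) (half_pos hδ)
  have ev : ∀ x ∈ ⋃ n, T n, ∀ᶠ N in atTop, x ∈ T N := fun x hx => by
    obtain ⟨n, hn⟩ := Set.mem_iUnion.1 hx
    exact (eventually_ge_atTop n).mono fun N h => mono h hn
  obtain ⟨N, n1, n2⟩ := ((eventually_all.2 fun i => ev _ (ha i trivial)).and
    ((eventually_all_finset G).2 fun z _ => ev _ (hz1 z))).exists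
  obtain ⟨p, q, hp, hq, hpq, j₀, hj, hr⟩ := hT N
  let j : DD p q →⋆ₐ[ℂ] Z := j₀
  have : NeZero p := ⟨by omega⟩
  have : NeZero q := ⟨by omega⟩
  obtain ⟨α, hα⟩ := h p q hp hq hpq
  choose f hf using fun i => show ∃ f, j f = a i from (hr ▸ n1 i : a i ∈ Set.range j)
  let E := StarAlgebra.adjoin ℂ (Set.range ((ι₂.comp j).prod α) ∪ Set.range (κ₂.prod κ))
  have hE : ∀ t ∈ E, ‖t.2‖ ≤ ‖t.1‖ := fun t ht => by
    obtain ⟨n, f, y, rfl⟩ := exists_sum_of_adjoin _ _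
      (fun a b => Prod.ext (c1 (j a) b) ((hα a).2.1 b).eq) ht
    simp only [Prod.snd_sum, Prod.fst_sum]
    exact (nuc j hj α κ (fun f => (hα f).2.1) f y).trans_eq (c3 _ _ _).symm
  have m1 : ∀ f, (ι₂ (j f), α f) ∈ E := fun f => StarAlgebra.subset_adjoin ℂ _ (Or.inl ⟨f, rfl⟩)
  have m2 : ∀ z, (κ₂ z, κ z) ∈ E := fun f => StarAlgebra.subset_adjoin ℂ _ (Or.inr ⟨f, rfl⟩)
  have m3 : (∑ i, ι₂ (a i) * κ₂ (b i), ∑ i, α (f i) * κ (b i)) ∈ E := by
    convert sum_mem (t := Finset.univ) fun i _ => mul_mem (m1 (f i)) (m2 (b i)) using 1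
    ext <;> simp [Prod.fst_sum, Prod.snd_sum, hf]
  refine ⟨∑ i, α (f i) * κ (b i), fun s hs => Commute.sum_left _ _ _ fun i _ =>
    ((hα _).2.2 s hs).mul_left (hS _ s hs),
    (hE _ (sub_mem (mul_mem (star_mem m3) m3) (one_mem _))).trans_lt hw.1,
    (hE _ (sub_mem (mul_mem m3 (star_mem m3)) (one_mem _))).trans_lt hw.2.1, fun z hz => ?_⟩
  obtain ⟨g, hg⟩ : z' z ∈ Set.range j := hr ▸ n2 z hz
  refine ⟨α g, (hα g).1, (hE _ (sub_mem (mul_mem (mul_mem (star_mem m3) (m2 z)) m3) (m1 g))).trans_lt ?_⟩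
  have e1 := hw.2.2 z hz
  have e2 : ‖ι₂ z - ι₂ (j g)‖ < δ / 2 := by
    rw [← map_sub, hg]; exact (hom_le ι₂ _).trans_lt (by rw [← dist_eq_norm]; exact hz2 z)
  exact (norm_sub_le_norm_sub_add_norm_sub _ (ι₂ z) _).trans_lt
    ((add_lt_add e1 e2).trans_eq (add_halves δ))

/-- Applying a homomorphism termwise. -/
noncomputable def post {A C : Type*} [CStarAlgebra A] [CStarAlgebra C] (ι : A →⋆ₐ[ℂ] C) :
    (ℕ →ᵇ A) →⋆ₐ[ℂ] (ℕ →ᵇ C) where
  toFun x := ofNormedAddCommGroupDiscrete (fun n => ι (x n)) ‖x‖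
    fun n => (hom_le ι _).trans (x.norm_coe_le_norm n)
  map_one' := by ext; simp
  map_mul' _ _ := by ext; simp
  map_zero' := by ext; simp
  map_add' _ _ := by ext; simp
  commutes' c := by ext; simp [Algebra.algebraMap_eq_smul_one]
  map_star' _ := by ext; simp [map_star]

theorem IsJiangSu.separable {Z : Type u} [CStarAlgebra Z] (hZ : IsJiangSu Z) : SeparableSpace Z := by
  obtain ⟨⟨T, hT, -, dT⟩, -⟩ := hZ
  refine dT.isSeparable_iff.1 (IsSeparable.iUnion fun n => ?_)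
  obtain ⟨p, q, -, -, -, j, -, hr⟩ := hT n
  exact hr ▸ isSeparable_hom (D := DD p q) j

theorem absorb {Z A C : Type u} [CStarAlgebra Z] [CStarAlgebra A] [CStarAlgebra C]
    [SeparableSpace A] (hZ : IsJiangSu Z) {ω : Ultrafilter ℕ} (hω : (ω : Filter ℕ) ≤ cofinite)
    (h : ¬ HasCharacter (CentralSeq A ω)) (ι : A →⋆ₐ[ℂ] C) (κ : Z →⋆ₐ[ℂ] C)
    (hι : Function.Injective ι) (hc : ∀ a b, ι a * κ b = κ b * ι a)
    (hd : Dense {x : C | ∃ (n : ℕ) (a : Fin n → A) (b : Fin n → Z), x = ∑ i, ι (a i) * κ (b i)}) :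
    Nonempty (A ≃⋆ₐ[ℂ] C) := by
  classical
  have := hZ.separable
  have : SeparableSpace C := hd.isSeparable_iff.1
    ((isSeparable_adjoin ((isSeparable_hom ι).union (isSeparable_hom κ))).mono (by
      rintro _ ⟨n, a, b, rfl⟩
      exact StarSubalgebra.le_topologicalClosure _ (sum_mem fun i _ => mul_mem
        (StarAlgebra.subset_adjoin ℂ _ (Or.inl ⟨_, rfl⟩))
        (StarAlgebra.subset_adjoin ℂ _ (Or.inr ⟨_, rfl⟩)))))
  obtain ⟨U, _, mk, hU, hU'⟩ := exists_ultra A ω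
  obtain ⟨V, _, mk', hV, -⟩ := exists_ultra C ω
  let c := mk'.comp (cst (A := C))
  let R : V → Prop := fun y => ∃ x, y = mk' (post ι x)
  obtain ⟨Φ, hΦ⟩ := exists_of_graph mk (mk'.comp (post ι)) hU.surj.denseRange fun x =>
    le_of_tendsto_of_tendsto' (hV.lim _) (hU.lim x) fun n => hom_le ι _
  choose W w1 w2 w3 w4 using fun i : Finset Z × ℕ =>
    good_of_flip hZ (c.comp κ) R (Set.range (c.comp ι))
      (by rintro z _ ⟨a, rfl⟩; exact Commute.map (hc a z).symm c) (fun p q hp hq hpq => by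
        obtain ⟨θ⟩ := exists_drop (hU.fresh hω) (hU' h) hp hq hpq
        refine ⟨(Φ.comp (cent mk).subtype).comp θ, fun f => ?_⟩
        obtain ⟨x, hx⟩ := hU.surj (θ f)
        have e : (Φ.comp (cent mk).subtype).comp θ f = mk' (post ι x) :=
          (congrArg Φ hx.symm).trans (hΦ x)
        refine ⟨⟨x, e⟩, fun z => ?_, ?_⟩
        · rw [e]
          exact Commute.map (x := post ι x) (y := const ℕ (κ z))
            (BoundedContinuousFunction.ext fun n => hc (x n) z) mk'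
        · rintro _ ⟨a, rfl⟩
          exact (hΦ (const ℕ a) : _ = c (ι a)) ▸ (mem_cent.1 (θ f).2 a).map Φ)
      i.1 (Nat.one_div_pos_of_nat (n := i.2))
  have ev : ∀ ε : ℝ, 0 < ε → ∀ᶠ i : Finset Z × ℕ in atTop, 1 / ((i.2 : ℝ) + 1) < ε := fun ε hε =>
    (tendsto_one_div_add_atTop_nhds_zero_nat.comp (tendsto_snd.mono_left
      prod_atTop_atTop_eq.ge)).eventually_lt_const hε
  let P : C → Prop := fun x => ∀ ε : ℝ, 0 < ε → ∀ᶠ i in atTop,
    ∃ y, ‖star (W i) * c x * W i - mk' (post ι y)‖ < ε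
  have P1 : ∀ a z, P (ι a * κ z) := fun a z ε hε => by
    filter_upwards [ev (ε / (‖a‖ + 1)) (by positivity), eventually_ge_atTop ({z}, 0)] with i h1 h2
    obtain ⟨_, ⟨y, rfl⟩, hy⟩ := w4 i z (h2.1 (Finset.mem_singleton_self z))
    refine ⟨const ℕ a * y, ?_⟩
    have e : star (W i) * c (ι a) = c (ι a) * star (W i) := by
      simpa [← map_star] using congrArg star (w1 i _ ⟨star a, rfl⟩).eq.symm
    rw [map_mul, map_mul, map_mul, ← mul_assoc, e, show mk' (post ι (const ℕ a)) = c (ι a) from rfl,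
      mul_assoc, mul_assoc, ← mul_sub, ← mul_assoc]
    refine (norm_mul_le _ _).trans_lt ?_
    have t1 := hom_le (c.comp ι) a
    have t2 := (lt_div_iff₀ (by positivity)).1 (hy.trans h1)
    simp only [StarAlgHom.comp_apply] at t1 t2
    nlinarith [norm_nonneg (star (W i) * c (κ z) * W i - mk' (post ι y))]
  have P2 : ∀ x y, P x → P y → P (x + y) := fun x y hx hy ε hε => by
    filter_upwards [hx _ (half_pos hε), hy _ (half_pos hε)] with i ⟨a, ha⟩ ⟨b, hb⟩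
    refine ⟨a + b, ?_⟩
    rw [map_add, map_add, map_add, mul_add, add_mul, add_sub_add_comm]
    exact (norm_add_le _ _).trans_lt (by linarith)
  have P3 : ∀ x, P x := fun x ε hε => by
    obtain ⟨_, ⟨n, a, b, rfl⟩, hx⟩ := Metric.mem_closure_iff.1 (hd x) (ε / 4) (by positivity)
    have : P (∑ i, ι (a i) * κ (b i)) := Finset.sum_induction _ P P2
      (fun ε hε => .of_forall fun i => ⟨0, by simpa⟩) fun i _ => P1 _ _
    filter_upwards [this _ (half_pos hε), ev 1 one_pos] with i ⟨y, hy⟩ h1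
    refine ⟨y, (norm_sub_le_norm_sub_add_norm_sub _
      (star (W i) * c (∑ i, ι (a i) * κ (b i)) * W i) _).trans_lt ?_⟩
    have t1 : ‖W i‖ * ‖W i‖ ≤ 2 := by
      rw [← CStarRing.norm_star_mul_self]
      have := norm_le_norm_add_norm_sub' (star (W i) * W i) 1
      have : ‖(1 : V)‖ ≤ 1 := by nontriviality V; exact norm_one.le
      linarith [w2 i]
    rw [← sub_mul, ← mul_sub, ← map_sub]
    have t2 := hom_le c (x - ∑ i, ι (a i) * κ (b i))
    rw [← dist_eq_norm x] at t2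
    have t3 := (norm_mul_le _ (W i)).trans (mul_le_mul_of_nonneg_right
      (norm_mul_le (star (W i)) (c (x - ∑ i, ι (a i) * κ (b i)))) (norm_nonneg _))
    rw [norm_star] at t3
    nlinarith [norm_nonneg (c (x - ∑ i, ι (a i) * κ (b i)))]
  refine intertwine' ι hι fun F G ε hε => ?_
  obtain ⟨i, h1, h2⟩ := ((ev ε hε).and ((eventually_all_finset G).2 fun x _ => P3 x ε hε)).exists
  obtain ⟨w, hw⟩ := hV.surj (W i)
  have e1 := hV.lt (x := star w * w - 1) (by simpa [map_star, hw] using (w2 i).trans h1)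
  have e2 := hV.lt (x := w * star w - 1) (by simpa [map_star, hw] using (w3 i).trans h1)
  have e3 := (eventually_all_finset F).2 fun a _ =>
    hV.lt (x := w * const ℕ (ι a) - const ℕ (ι a) * w) (r := ε) (by
      rw [map_sub, map_mul, map_mul, hw]
      exact (norm_eq_zero.2 (sub_eq_zero.2 (w1 i _ ⟨a, rfl⟩).eq)).trans_lt hε)
  have e4 : ∀ᶠ n in ω, ∀ x ∈ G, ∃ a, ‖star (w n) * x * w n - ι a‖ < ε :=
    (eventually_all_finset G).2 fun x hx => by
      obtain ⟨y, hy⟩ := h2 x hx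
      exact (hV.lt (x := star w * const ℕ x * w - post ι y)
        (by rw [map_sub, map_mul, map_mul, map_star, hw]; exact hy)).mono fun n hn => ⟨y n, hn⟩
  obtain ⟨n, hn⟩ := (e1.and (e2.and (e3.and e4))).exists
  exact ⟨w n, hn⟩

end Vale.Agent.P101
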