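import Vale.Agent.P101.Cov

/-! Fresh commuting copies, joins, square-zero elements. -/

open scoped InnerProductSpace ComplexOrder Topology
open TopologicalSpace

namespace Vale.Agent.P101

universe u

/-- Every separable subalgebra has a copy commuting with a given separable set. -/
def Fresh (B : Type u) [CStarAlgebra B] : Prop :=
  ∀ (D : Type u) [CStarAlgebra D] [SeparableSpace D] (_ : D →⋆ₐ[ℂ] B) (S : Set B),
    IsSeparable S → ∃ θ' : D →⋆ₐ[ℂ] B, ∀ d, ∀ s ∈ S, Commute (θ' d) s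

theorem Cov.finite {B : Type*} [Ring B] {s : Set B} (hs : Cov s) :
    ∃ t : Set B, t.Finite ∧ t ⊆ s ∧ Cov t := by
  have := hs (TwoSidedIdeal.mk' {x | ∃ t : Set B, t.Finite ∧ t ⊆ s ∧
      ∀ J : TwoSidedIdeal B, t ⊆ J → x ∈ J}
    ⟨∅, Set.finite_empty, by simp, fun J _ => J.zero_mem⟩
    (by rintro a b ⟨t, h1, h2, h3⟩ ⟨t', h1', h2', h3'⟩
        exact ⟨t ∪ t', h1.union h1', Set.union_subset h2 h2', fun J hJ => J.add_mem
          (h3 J (Set.subset_union_left.trans hJ)) (h3' J (Set.subset_union_right.trans hJ))⟩)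
    (by rintro a ⟨t, h1, h2, h3⟩; exact ⟨t, h1, h2, fun J hJ => J.neg_mem (h3 J hJ)⟩)
    (by rintro a b ⟨t, h1, h2, h3⟩; exact ⟨t, h1, h2, fun J hJ => J.mul_mem_left _ _ (h3 J hJ)⟩)
    (by rintro a b ⟨t, h1, h2, h3⟩; exact ⟨t, h1, h2, fun J hJ => J.mul_mem_right _ _ (h3 J hJ)⟩))
    (fun x hx => by
      simp only [SetLike.mem_coe, TwoSidedIdeal.mem_mk']
      exact ⟨{x}, Set.finite_singleton x, by simpa, fun J hJ => hJ rfl⟩)
  rwa [TwoSidedIdeal.mem_mk'] at this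

theorem Cov.sep {B : Type*} [CStarAlgebra B] {s S : Set B} (hs : Cov s) (hS : IsSeparable S) :
    ∃ D : StarSubalgebra ℂ B, IsClosed (D : Set B) ∧ SeparableSpace D ∧ S ⊆ D ∧
      Cov (Subtype.val ⁻¹' s : Set D) := by
  have := hs (TwoSidedIdeal.mk' {x | ∃ T : Set B, T.Finite ∧ ∀ D : StarSubalgebra ℂ B, T ⊆ D →
      ∃ hx : x ∈ D, ∀ J : TwoSidedIdeal D, Subtype.val ⁻¹' s ⊆ (J : Set D) → (⟨x, hx⟩ : D) ∈ J}
    ⟨∅, Set.finite_empty, fun D _ => ⟨zero_mem D, fun J _ => J.zero_mem⟩⟩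
    (by rintro a b ⟨t, h1, h2⟩ ⟨t', h1', h2'⟩
        refine ⟨t ∪ t', h1.union h1', fun D hD => ?_⟩
        obtain ⟨ha, h3⟩ := h2 D (Set.subset_union_left.trans hD)
        obtain ⟨hb, h3'⟩ := h2' D (Set.subset_union_right.trans hD)
        exact ⟨add_mem ha hb, fun J hJ => J.add_mem (h3 J hJ) (h3' J hJ)⟩)
    (by rintro a ⟨t, h1, h2⟩
        refine ⟨t, h1, fun D hD => ?_⟩
        obtain ⟨ha, h3⟩ := h2 D hD
        exact ⟨neg_mem ha, fun J hJ => J.neg_mem (h3 J hJ)⟩)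
    (by rintro a b ⟨t, h1, h2⟩
        refine ⟨insert a t, h1.insert a, fun D hD => ?_⟩
        obtain ⟨hb, h3⟩ := h2 D ((Set.subset_insert _ _).trans hD)
        have ha : a ∈ D := hD (Set.mem_insert _ _)
        exact ⟨mul_mem ha hb, fun J hJ => J.mul_mem_left ⟨a, ha⟩ _ (h3 J hJ)⟩)
    (by rintro b a ⟨t, h1, h2⟩
        refine ⟨insert a t, h1.insert a, fun D hD => ?_⟩
        obtain ⟨hb, h3⟩ := h2 D ((Set.subset_insert _ _).trans hD)
        have ha : a ∈ D := hD (Set.mem_insert _ _)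
        exact ⟨mul_mem hb ha, fun J hJ => J.mul_mem_right _ ⟨a, ha⟩ (h3 J hJ)⟩))
    (fun x hx => by
      simp only [SetLike.mem_coe, TwoSidedIdeal.mem_mk']
      exact ⟨{x}, Set.finite_singleton x, fun D hD => ⟨hD rfl, fun J hJ => hJ hx⟩⟩)
  rw [TwoSidedIdeal.mem_mk'] at this
  obtain ⟨T, hT, h⟩ := this
  have hsub : S ∪ T ⊆ (StarAlgebra.adjoin ℂ (S ∪ T)).topologicalClosure :=
    (StarAlgebra.subset_adjoin ℂ _).trans (StarSubalgebra.le_topologicalClosure _)
  refine ⟨(StarAlgebra.adjoin ℂ (S ∪ T)).topologicalClosure,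
    StarSubalgebra.isClosed_topologicalClosure _,
    (isSeparable_adjoin (hS.union hT.isSeparable)).separableSpace,
    Set.subset_union_left.trans hsub, ?_⟩
  obtain ⟨_, h3⟩ := h _ (Set.subset_union_right.trans hsub)
  exact h3

theorem isSeparable_hom {D B : Type*} [CStarAlgebra D] [SeparableSpace D] [CStarAlgebra B]
    (θ : D →⋆ₐ[ℂ] B) : IsSeparable (Set.range θ) := isSeparable_range (hom_cont θ)

theorem exists_join {D₁ D₂ B : Type u} [CStarAlgebra D₁] [SeparableSpace D₁] [CStarAlgebra D₂]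
    [SeparableSpace D₂] [CStarAlgebra B] (θ₁ : D₁ →⋆ₐ[ℂ] B) (θ₂ : D₂ →⋆ₐ[ℂ] B)
    (hc : ∀ a b, Commute (θ₁ a) (θ₂ b)) :
    ∃ (E : Type u) (_ : CStarAlgebra E) (_ : SeparableSpace E) (_ : E →⋆ₐ[ℂ] B)
      (i₁ : D₁ →⋆ₐ[ℂ] E) (i₂ : D₂ →⋆ₐ[ℂ] E), (∀ a b, Commute (i₁ a) (i₂ b)) ∧
      ∀ (Q : Type u) [CStarAlgebra Q] (π : E →⋆ₐ[ℂ] Q), IsPrimeRep π →
        ∀ a b, π (i₁ a) * π (i₂ b) = 0 → π (i₁ a) = 0 ∨ π (i₂ b) = 0 := by
  set s := Set.range θ₁ ∪ Set.range θ₂
  let E := (StarAlgebra.adjoin ℂ s).topologicalClosure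
  have hE : IsClosed (E : Set B) := StarSubalgebra.isClosed_topologicalClosure _
  have hsub : s ⊆ E := (StarAlgebra.subset_adjoin ℂ _).trans (StarSubalgebra.le_topologicalClosure _)
  let i₁ := θ₁.codRestrict E fun a => hsub (Or.inl ⟨a, rfl⟩)
  let i₂ := θ₂.codRestrict E fun a => hsub (Or.inr ⟨a, rfl⟩)
  have hi : ∀ a b, Commute (i₁ a) (i₂ b) := fun a b => Subtype.ext (hc a b)
  refine ⟨E, inferInstance,
    (isSeparable_adjoin ((isSeparable_hom θ₁).union (isSeparable_hom θ₂))).separableSpace,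
    E.subtype, i₁, i₂, hi, fun Q _ π hπ a b hab => hπ _ _ fun w => ?_⟩
  have hi' : ∀ a b, Commute (π (i₁ a)) (π (i₂ b)) := fun a b => (hi a b).map π
  let G : Set E := {w | ∀ a b, π (i₁ a) * π (i₂ b) = 0 → π (i₁ a) * π w * π (i₂ b) = 0}
  have hG : IsClosed G := by
    simp only [G, Set.ofPred_forall]
    exact isClosed_iInter fun a => isClosed_iInter fun b => isClosed_iInter fun _ =>
      isClosed_eq (by fun_prop) continuous_const
  let M : Subalgebra ℂ E :=
    { carrier := {c | ∀ w ∈ G, c * w ∈ G}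
      mul_mem' := fun {c d} hc hd w hw => by rw [mul_assoc]; exact hc _ (hd w hw)
      add_mem' := fun {c d} hc hd w hw a b hab => by
        rw [add_mul, map_add, mul_add, add_mul, hc w hw a b hab, hd w hw a b hab, add_zero]
      algebraMap_mem' := fun c w hw a b hab => by
        rw [← Algebra.smul_def, map_smul, mul_smul_comm, smul_mul_assoc, hw a b hab, smul_zero] }
  have hM : IsClosed (M : Set E) := by
    change IsClosed {c : E | ∀ w ∈ G, c * w ∈ G}
    simp only [Set.ofPred_forall]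
    exact isClosed_iInter fun w => isClosed_iInter fun _ => hG.preimage (by fun_prop)
  have m1 : ∀ x, i₁ x ∈ M := fun x w hw a b hab => by
    have := hw (a * x) b (by
      rw [map_mul, map_mul, mul_assoc, (hi' x b).eq, ← mul_assoc, hab, zero_mul])
    simpa [mul_assoc] using this
  have m2 : ∀ x, i₂ x ∈ M := fun x w hw a b hab => by
    rw [map_mul, ← mul_assoc, (hi' a x).eq, mul_assoc (π (i₂ x)), mul_assoc (π (i₂ x)),
      hw a b hab, mul_zero]
  have hall : (E : Set B) ⊆ M.map E.subtype.toAlgHom := by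
    refine closure_minimal ?_ (hE.isClosedEmbedding_subtypeVal.isClosedMap _ hM)
    change (Algebra.adjoin ℂ (s ∪ star s) : Set B) ⊆ _
    refine Algebra.adjoin_le ?_
    rintro x ((⟨y, rfl⟩ | ⟨y, rfl⟩) | (⟨y, hy⟩ | ⟨y, hy⟩))
    · exact ⟨_, m1 y, rfl⟩
    · exact ⟨_, m2 y, rfl⟩
    · exact ⟨_, m1 (star y), by change θ₁ (star y) = x; rw [map_star, hy, star_star]⟩
    · exact ⟨_, m2 (star y), by change θ₂ (star y) = x; rw [map_star, hy, star_star]⟩
  obtain ⟨w', hw', e⟩ := hall w.2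
  obtain rfl : w' = w := Subtype.ext e
  simpa using hw' 1 (fun a b hab => by simpa using hab) a b hab

theorem cov_sq_zero {B : Type u} [CStarAlgebra B] (h : IsEmpty (B →⋆ₐ[ℂ] ℂ)) :
    Cov {x : B | x * x = 0} := by
  refine cov_of_prime fun Q _ _ π hπ hk => ?_
  let _ := CStarAlgebra.spectralOrder Q
  have := CStarAlgebra.spectralOrderedRing Q
  have h1 : ∀ a : B, IsSelfAdjoint a → π a ≤ 0 ∨ 0 ≤ π a := fun a ha => by
    have := hπ a⁺ (-a)⁺ fun w => hk _ (by
      rw [Set.mem_ofPred_eq, CFC.posPart_neg, mul_assoc, mul_assoc, mul_assoc, ← mul_assoc a⁻,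
        CFC.negPart_mul_posPart]
      simp)
    rwa [map_posPart π ha, map_posPart π ha.neg, map_neg, CFC.posPart_neg,
      CFC.posPart_eq_zero_iff _ (ha.map π), CFC.negPart_eq_zero_iff _ (ha.map π)] at this
  have h2 : ∀ a : B, IsSelfAdjoint a → ∃ r : ℝ, π a = algebraMap ℝ Q r := fun a ha => by
    have hp := ha.map π
    obtain ⟨r, hr⟩ := ContinuousFunctionalCalculus.spectrum_nonempty (R := ℝ) (π a) hp
    refine ⟨r, CFC.eq_algebraMap_of_spectrum_subset_singleton _ r (fun t ht => ?_) hp⟩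
    have := h1 (a - algebraMap ℝ B ((r + t) / 2))
      (ha.sub (IsSelfAdjoint.algebraMap B (IsSelfAdjoint.all _)))
    rw [map_sub, show π (algebraMap ℝ B ((r + t) / 2)) = algebraMap ℝ Q ((r + t) / 2) from
      π.commutes (((r + t) / 2 : ℝ) : ℂ), sub_nonpos, sub_nonneg,
      le_algebraMap_iff_spectrum_le hp, algebraMap_le_iff_le_spectrum hp] at this
    rcases this with e | e
    · have := e r hr; have := e t ht; simp only [Set.mem_singleton_iff]; linarith
    · have := e r hr; have := e t ht; simp only [Set.mem_singleton_iff]; linarith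
  have h3 : Function.Surjective (StarAlgHom.ofId ℂ π.range) := by
    rintro ⟨_, b, rfl⟩
    obtain ⟨r, hr⟩ := h2 _ (realPart b).2
    obtain ⟨t, ht⟩ := h2 _ (imaginaryPart b).2
    refine ⟨r + Complex.I * t, Subtype.ext ?_⟩
    change algebraMap ℂ Q _ = π b
    conv_rhs => rw [← realPart_add_I_smul_imaginaryPart b, map_add, map_smul, hr, ht]
    rw [map_add, map_mul, Algebra.smul_def]; rfl
  let e := StarAlgEquiv.ofBijective (StarAlgHom.ofId ℂ π.range) ⟨RingHom.injective _, h3⟩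
  exact h.false ((e.symm : π.range →⋆ₐ[ℂ] ℂ).comp π.rangeRestrict)

end Vale.Agent.P101
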