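import Vale.Agent.P101.JTen

/-! The approximate half-flip for almost constant functions. -/

open scoped Matrix.Norms.L2Operator Kronecker unitInterval

namespace Vale.Agent.P101

universe u

section

variable {n : Type} [Fintype n] [DecidableEq n]

/-- The permutation matrix. -/
def pm (e : n → n) : Matrix n n ℂ := (1 : Matrix n n ℂ).submatrix e id

theorem pm_mul (e : n → n) (a : Matrix n n ℂ) : pm e * a = a.submatrix e id := by
  ext i j; simp [pm, Matrix.mul_apply, Matrix.one_apply]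

theorem mul_star_pm (e : n → n) (a : Matrix n n ℂ) : a * star (pm e) = a.submatrix id e := by
  ext i j
  simp only [pm, Matrix.mul_apply, Matrix.star_apply, Matrix.submatrix_apply, id, Matrix.one_apply]
  rw [Finset.sum_eq_single (e j) (fun b _ hb => by simp [hb.symm]) (by simp)]
  simp

theorem star_pm {e : n → n} (h : Function.Involutive e) : star (pm e) = pm e := by
  ext i j
  simp only [pm, Matrix.star_apply, Matrix.submatrix_apply, id, Matrix.one_apply, h.eq_iff]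
  by_cases e1 : i = e j
  · simp [e1, h j]
  · rw [if_neg fun e2 => e1 (by rw [e2, h i]), if_neg e1, star_zero]

theorem pm_unitary (e : n ≃ n) : pm e ∈ unitary (Matrix n n ℂ) :=
  Matrix.mem_unitaryGroup_iff.2 (by rw [mul_star_pm]; ext i j; simp [pm, Matrix.one_apply])

theorem pm_conj {e : n → n} (h : Function.Involutive e) (a : Matrix n n ℂ) :
    pm e * a * pm e = a.submatrix e e := by
  nth_rw 2 [← star_pm h]; rw [mul_star_pm, pm_mul]; rfl

theorem pm_sq {e : n → n} (h : Function.Involutive e) : pm e * pm e = 1 := by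
  have := (pm_unitary h.toPerm).1
  rwa [h.coe_toPerm, star_pm h] at this

theorem pm_comm {e : n → n} (h : Function.Involutive e) {a : Matrix n n ℂ}
    (ha : a.submatrix e e = a) : Commute (pm e) a := by
  rw [Commute, SemiconjBy]
  conv_rhs => rw [← ha, ← pm_conj h, mul_assoc, pm_sq h, mul_one]

end

variable {p q : ℕ}

theorem DD.ev_surj {s : I} (h0 : s ≠ 0) (h1 : s ≠ 1) (m : Mat p q) : ∃ f, DD.ev s f = m := by
  have e0 : ((s : ℝ) : ℂ) ≠ 0 := by simpa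
  have e1 : 1 - ((s : ℝ) : ℂ) ≠ 0 := by
    rw [sub_ne_zero, ne_comm]; exact_mod_cast fun h => h1 (Subtype.ext h)
  refine ⟨DD.mid ((((s : ℝ) : ℂ) * (1 - s))⁻¹ • m), ?_⟩
  simp only [ev_apply, val_mid, sm_apply, smul_smul, ContinuousMap.mul_apply, tX_apply,
    ContinuousMap.sub_apply, ContinuousMap.one_apply]
  push_cast
  rw [mul_inv_cancel₀ (mul_ne_zero e0 e1), one_smul]

theorem exists_sect {D V : Type*} [AddCommGroup D] [Module ℂ D] [AddCommGroup V] [Module ℂ V]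
    (e : D →ₗ[ℂ] V) : ∃ G : V →ₗ[ℂ] D, ∀ d, e (G (e d)) = e d := by
  obtain ⟨g, hg⟩ := e.rangeRestrict.exists_rightInverse_of_surjective e.range_rangeRestrict
  obtain ⟨L, hL⟩ := g.exists_extend
  exact ⟨L, fun d => (congrArg e (DFunLike.congr_fun hL (e.rangeRestrict d))).trans
    (congrArg Subtype.val (DFunLike.congr_fun hg (e.rangeRestrict d)))⟩

/-- Swap of the first legs. -/
def swP (x : (Fin p × Fin q) × (Fin p × Fin q)) : (Fin p × Fin q) × (Fin p × Fin q) :=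
  ((x.2.1, x.1.2), (x.1.1, x.2.2))

/-- Swap of the second legs. -/
def swQ (x : (Fin p × Fin q) × (Fin p × Fin q)) : (Fin p × Fin q) × (Fin p × Fin q) :=
  ((x.1.1, x.2.2), (x.2.1, x.1.2))

theorem swP_mem (S : StarSubalgebra ℂ (Mat2 p q)) (h1 : ∀ a, kl _ _ (a ⊗ₖ 1) ∈ S)
    (h2 : ∀ a, kr _ _ (a ⊗ₖ 1) ∈ S) : pm swP ∈ S := by
  convert sum_mem (t := Finset.univ) fun i _ => sum_mem (t := Finset.univ) fun k _ =>
    mul_mem (h1 (Matrix.single i k 1)) (h2 (Matrix.single k i 1))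
  ext ⟨⟨a, b⟩, c, d⟩ ⟨⟨a', b'⟩, c', d'⟩
  simp only [kl_mul_kr, Matrix.sum_apply, Matrix.kroneckerMap_apply]
  rw [Finset.sum_eq_single a (by simp +contextual [Matrix.single_apply]) (by simp),
    Finset.sum_eq_single c (by simp +contextual [Matrix.single_apply]) (by simp)]
  simp only [pm, swP, Matrix.single_apply, Matrix.one_apply, Matrix.submatrix_apply, id,
    Prod.mk.injEq]
  split_ifs <;> simp_all

theorem swQ_mem (S : StarSubalgebra ℂ (Mat2 p q)) (h1 : ∀ a, kl _ _ (1 ⊗ₖ a) ∈ S)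
    (h2 : ∀ a, kr _ _ (1 ⊗ₖ a) ∈ S) : pm swQ ∈ S := by
  convert sum_mem (t := Finset.univ) fun i _ => sum_mem (t := Finset.univ) fun k _ =>
    mul_mem (h1 (Matrix.single i k 1)) (h2 (Matrix.single k i 1))
  ext ⟨⟨a, b⟩, c, d⟩ ⟨⟨a', b'⟩, c', d'⟩
  simp only [kl_mul_kr, Matrix.sum_apply, Matrix.kroneckerMap_apply]
  rw [Finset.sum_eq_single b (by simp +contextual [Matrix.single_apply]) (by simp),
    Finset.sum_eq_single d (by simp +contextual [Matrix.single_apply]) (by simp)]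
  simp only [pm, swQ, Matrix.single_apply, Matrix.one_apply, Matrix.submatrix_apply, id,
    Prod.mk.injEq]
  split_ifs <;> simp_all

theorem conjQ_mem (S : StarSubalgebra ℂ (Mat2 p q)) (h1 : ∀ a, kl _ _ (a ⊗ₖ 1) ∈ S)
    (h2 : ∀ a, kr _ _ (1 ⊗ₖ a) ∈ S) (x) : pm swQ * kl _ _ x * pm swQ ∈ S := by
  induction x using kron_ind with
  | h0 => simpa using zero_mem S
  | h1 a b =>
    convert mul_mem (h1 a) (h2 b) using 1
    rw [pm_conj (e := swQ) fun _ => rfl, kl_mul_kr]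
    ext ⟨⟨a, b⟩, c, d⟩ ⟨⟨a', b'⟩, c', d'⟩
    simp only [kl, swQ, Matrix.submatrix_apply, StarAlgHom.coe_mk, AlgHom.coe_mk, RingHom.coe_mk,
      MonoidHom.coe_mk, OneHom.coe_mk, Matrix.kroneckerMap_apply, Matrix.one_apply, Prod.mk.injEq]
    split_ifs <;> simp_all
  | h2 x y hx hy => simpa [mul_add, add_mul] using add_mem hx hy

theorem conjP_mem (S : StarSubalgebra ℂ (Mat2 p q)) (h1 : ∀ a, kl _ _ (1 ⊗ₖ a) ∈ S)
    (h2 : ∀ a, kr _ _ (a ⊗ₖ 1) ∈ S) (x) : pm swP * kl _ _ x * pm swP ∈ S := by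
  induction x using kron_ind with
  | h0 => simpa using zero_mem S
  | h1 a b =>
    convert mul_mem (h1 b) (h2 a) using 1
    rw [pm_conj (e := swP) fun _ => rfl, kl_mul_kr]
    ext ⟨⟨a, b⟩, c, d⟩ ⟨⟨a', b'⟩, c', d'⟩
    simp only [kl, swP, Matrix.submatrix_apply, StarAlgHom.coe_mk, AlgHom.coe_mk, RingHom.coe_mk,
      MonoidHom.coe_mk, OneHom.coe_mk, Matrix.kroneckerMap_apply, Matrix.one_apply, Prod.mk.injEq]
    split_ifs <;> simp_all [mul_comm]
  | h2 x y hx hy => simpa [mul_add, add_mul] using add_mem hx hy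

theorem swP_inv : Function.Involutive (swP (p := p) (q := q)) := fun _ => rfl

theorem swQ_inv : Function.Involutive (swQ (p := p) (q := q)) := fun _ => rfl

theorem swQ_comm (a : Matrix (Fin p) (Fin p) ℂ) :
    Commute (pm swQ) (kl _ (Fin p × Fin q) (a ⊗ₖ (1 : Matrix (Fin q) (Fin q) ℂ))) := by
  refine pm_comm swQ_inv ?_
  ext ⟨⟨a, b⟩, c, d⟩ ⟨⟨a', b'⟩, c', d'⟩
  simp only [kl, swQ, Matrix.submatrix_apply, StarAlgHom.coe_mk, AlgHom.coe_mk, RingHom.coe_mk,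
    MonoidHom.coe_mk, OneHom.coe_mk, Matrix.kroneckerMap_apply, Matrix.one_apply, Prod.mk.injEq]
  by_cases h1 : b = b' <;> by_cases h2 : d = d' <;> simp [h1, h2]

theorem swP_comm (b : Matrix (Fin q) (Fin q) ℂ) :
    Commute (pm swP) (kl _ (Fin p × Fin q) ((1 : Matrix (Fin p) (Fin p) ℂ) ⊗ₖ b)) := by
  refine pm_comm swP_inv ?_
  ext ⟨⟨a, b⟩, c, d⟩ ⟨⟨a', b'⟩, c', d'⟩
  simp only [kl, swP, Matrix.submatrix_apply, StarAlgHom.coe_mk, AlgHom.coe_mk, RingHom.coe_mk,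
    MonoidHom.coe_mk, OneHom.coe_mk, Matrix.kroneckerMap_apply, Matrix.one_apply, Prod.mk.injEq]
  by_cases h1 : a = a' <;> by_cases h2 : c = c' <;> simp [h1, h2]

theorem sw_comm : Commute (pm (swP (p := p) (q := q))) (pm swQ) := by
  rw [Commute, SemiconjBy, pm_mul, pm_mul]
  ext i j
  simp only [pm, Matrix.submatrix_apply, id]
  rfl

theorem sw_flip (x : Mat p q) :
    pm swP * pm swQ * kl _ (Fin p × Fin q) x = kr (Fin p × Fin q) _ x * (pm swP * pm swQ) := by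
  have e : pm swP * pm swQ = pm (Prod.swap : _ → (Fin p × Fin q) × (Fin p × Fin q)) := by
    rw [pm_mul]; rfl
  have : kr _ _ x = pm Prod.swap * kl _ _ x * pm Prod.swap := by
    rw [pm_conj Prod.swap_swap]; ext; exact mul_comm _ _
  rw [e, this, mul_assoc _ _ (pm _), pm_sq Prod.swap_swap, mul_one]

theorem gen_all (S : StarSubalgebra ℂ (Mat2 p q)) (a : ∀ x, kl _ _ x ∈ S) (b : ∀ x, kr _ _ x ∈ S)
    (x) : x ∈ S := by
  induction x using kron_ind with
  | h0 => exact zero_mem S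
  | h1 x y => exact kl_mul_kr x y ▸ mul_mem (a x) (b y)
  | h2 x y hx hy => exact add_mem hx hy

theorem fibre_sum {s t : I} {x : Mat2 p q}
    (m1 : x ∈ StarAlgebra.adjoin ℂ (Set.range ((kl _ _).comp (DD.ev s)) ∪ Set.range (kr _ _)))
    (m2 : x ∈ StarAlgebra.adjoin ℂ (Set.range (kl _ _) ∪ Set.range ((kr _ _).comp (DD.ev t)))) :
    ∃ (n : ℕ) (f g : Fin n → DD p q),
      ∑ i, kl _ _ (DD.val (f i) s) * kr _ _ (DD.val (g i) t) = x := by
  obtain ⟨G, hG⟩ := exists_sect (DD.ev (p := p) (q := q) s).toLinearMap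
  let Λ := tens ((kl _ (Fin p × Fin q)).toLinearMap ∘ₗ (DD.ev s).toLinearMap ∘ₗ G)
    (kr (Fin p × Fin q) _).toLinearMap
  have hΛ : ∀ x y, Λ (kl _ _ x * kr _ _ y) = kl _ _ (DD.val (G x) s) * kr _ _ y := fun x y => by
    rw [kl_mul_kr, tens_kron]; rfl
  obtain ⟨n, a, b, e1⟩ := exists_sum_of_adjoin _ _ (fun _ _ => kl_comm_kr _ _) m1
  obtain ⟨m, c, d, e2⟩ := exists_sum_of_adjoin _ _ (fun _ _ => kl_comm_kr _ _) m2
  refine ⟨m, fun i => G (c i), d, ?_⟩
  have e3 : Λ x = x := by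
    rw [e1, map_sum]
    exact Finset.sum_congr rfl fun i _ => (hΛ _ _).trans
      (congrArg (kl _ _ · * _) (hG (a i)))
  rw [← e3, e2, map_sum]
  exact Finset.sum_congr rfl fun i _ => (hΛ _ _).symm

theorem exists_sq' (w : C(I, Mat p q)) (hw : ∀ s, w s ∈ unitary (Mat p q)) (w0 : w 0 = 1) :
    ∃ v ∈ (StarAlgebra.adjoin ℂ (Set.range (onSq (p := p) (q := q) (kl _ _) .fst) ∪
        Set.range (onSq (kr _ _) .snd))).topologicalClosure, v ∈ unitary C(I × I, Mat2 p q) ∧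
      ∀ (a : Matrix (Fin p) (Fin p) ℂ) (f : DD p q) (η : ℝ),
        (∀ s, ‖DD.val f s - w s * a ⊗ₖ 1 * star (w s)‖ ≤ η) →
        ‖v * onSq (kl _ _) .fst f * star v - onSq (kr _ _) .snd f‖ ≤ 4 * η := by
  obtain ⟨v, hv, h1, h2, h3, h4, h5⟩ := exists_sq (N := Mat2 p q) (κ := pm swP) (ρ := pm swQ)
    (kl (Fin p × Fin q) (Fin p × Fin q)) (kr (Fin p × Fin q) (Fin p × Fin q)) (star_pm swP_inv)
    (pm_sq swP_inv) (star_pm swQ_inv) (pm_sq swQ_inv)
    sw_comm sw_flip w hw w0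
  refine ⟨v, mem_closure_of_fibres v _ (fun f => StarAlgebra.subset_adjoin ℂ _ (Or.inl ⟨f, rfl⟩))
    (fun f => StarAlgebra.subset_adjoin ℂ _ (Or.inr ⟨f, rfl⟩)) fun ⟨s, t⟩ => ?_,
    ⟨ContinuousMap.ext fun z => (hv z).1, ContinuousMap.ext fun z => (hv z).2⟩, fun a f η h => ?_⟩
  · have m1 : v (s, t) ∈ StarAlgebra.adjoin ℂ
        (Set.range ((kl _ _).comp (DD.ev s)) ∪ Set.range (kr _ _)) := by
      set S := StarAlgebra.adjoin ℂ
        (Set.range ((kl _ (Fin p × Fin q)).comp (DD.ev s)) ∪ Set.range (kr (Fin p × Fin q) _))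
      have l : ∀ f, kl _ _ (DD.val f s) ∈ S := fun f =>
        StarAlgebra.subset_adjoin ℂ _ (Or.inl ⟨f, rfl⟩)
      have r : ∀ x, kr _ _ x ∈ S := fun f => StarAlgebra.subset_adjoin ℂ _ (Or.inr ⟨f, rfl⟩)
      rcases eq_or_ne s 0 with rfl | s0
      · have l' : ∀ a, kl _ _ (a ⊗ₖ 1) ∈ S := fun a => by simpa using l (DD.lf a)
        exact h1 S (swP_mem S l' fun _ => r _) r (conjQ_mem S l' fun _ => r _) t
      rcases eq_or_ne s 1 with rfl | s1
      · have l' : ∀ a, kl _ _ (1 ⊗ₖ a) ∈ S := fun a => by simpa using l (DD.rt a)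
        exact h2 S (swQ_mem S l' fun _ => r _) r (conjP_mem S l' fun _ => r _) t
      exact gen_all S (fun x => by obtain ⟨f, rfl⟩ := DD.ev_surj s0 s1 x; exact l f) r _
    have m2 : v (s, t) ∈ StarAlgebra.adjoin ℂ
        (Set.range (kl _ _) ∪ Set.range ((kr _ _).comp (DD.ev t))) := by
      set S := StarAlgebra.adjoin ℂ
        (Set.range (kl _ (Fin p × Fin q)) ∪ Set.range ((kr (Fin p × Fin q) _).comp (DD.ev t)))
      have l : ∀ x, kl _ _ x ∈ S := fun f => StarAlgebra.subset_adjoin ℂ _ (Or.inl ⟨f, rfl⟩)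
      have r : ∀ f, kr _ _ (DD.val f t) ∈ S := fun f =>
        StarAlgebra.subset_adjoin ℂ _ (Or.inr ⟨f, rfl⟩)
      rcases eq_or_ne t 0 with rfl | s0
      · have r' : ∀ a, kr _ _ (a ⊗ₖ 1) ∈ S := fun a => by simpa using r (DD.lf a)
        exact h3 S (swP_mem S (fun _ => l _) r') l s
      rcases eq_or_ne t 1 with rfl | s1
      · have r' : ∀ a, kr _ _ (1 ⊗ₖ a) ∈ S := fun a => by simpa using r (DD.rt a)
        exact h4 S (swQ_mem S (fun _ => l _) r') l (conjQ_mem S (fun _ => l _) r') s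
      exact gen_all S l (fun x => by obtain ⟨f, rfl⟩ := DD.ev_surj s0 s1 x; exact r f) _
    obtain ⟨n, f, g, e⟩ := fibre_sum m1 m2
    refine ⟨∑ i, onSq (kl _ _) .fst (f i) * onSq (kr _ _) .snd (g i), sum_mem fun i _ =>
      mul_mem (StarAlgebra.subset_adjoin ℂ _ (Or.inl ⟨_, rfl⟩))
        (StarAlgebra.subset_adjoin ℂ _ (Or.inr ⟨_, rfl⟩)), ?_⟩
    rw [← e, ContinuousMap.coe_sum, Finset.sum_apply]
    rfl
  · have η0 := (norm_nonneg _).trans (h 0)
    obtain ⟨b, hb⟩ := f.2.2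
    exact (ContinuousMap.norm_le _ (by positivity)).2 (h5 (a ⊗ₖ 1) (DD.val f) η (swQ_comm a)
      ((show DD.val f 1 = _ from hb) ▸ swP_comm b) h)

theorem flip_core {A D C : Type*} [CStarAlgebra A] [CStarAlgebra D] [CStarAlgebra C]
    (θ₁ θ₂ : A →⋆ₐ[ℂ] D) (cθ : ∀ a b, Commute (θ₁ a) (θ₂ b))
    (α β : A →⋆ₐ[ℂ] C) (hc : ∀ f g, Commute (α f) (β g))
    (hle : ∀ (n : ℕ) (f g : Fin n → A), ‖∑ i, α (f i) * β (g i)‖ ≤ ‖∑ i, θ₁ (f i) * θ₂ (g i)‖)
    {v : D} (hv : v ∈ (StarAlgebra.adjoin ℂ (Set.range θ₁ ∪ Set.range θ₂)).topologicalClosure)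
    (uv : v ∈ unitary D) (F : Finset A) {η : ℝ} (hη : 0 < η)
    (h1 : ∀ f ∈ F, ‖v * θ₁ f * star v - θ₂ f‖ ≤ 4 * η) :
    ∃ V ∈ unitary C, ∀ f ∈ F, ‖V * α f * star V - β f‖ ≤ 6 * η := by
  set K := ∑ f ∈ F, ‖f‖
  have K0 : 0 ≤ K := Finset.sum_nonneg fun _ _ => norm_nonneg _
  set δ := min (1 / 2) (η / (3 * K + 1))
  have δ0 : 0 < δ := by positivity
  have δ1 : δ ≤ 1 / 2 := min_le_left _ _
  have δ2 : δ * (3 * K + 1) ≤ η := (le_div_iff₀ (by positivity)).1 (min_le_right _ _)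
  let O := {x : D | ‖star x * x - 1‖ < δ ∧ ‖x * star x - 1‖ < δ ∧
    ∀ f ∈ F, ‖x * θ₁ f * star x - θ₂ f‖ < 5 * η}
  have hO : IsOpen O := by
    simp only [O, Set.ofPred_and, Set.ofPred_forall]
    exact (isOpen_lt (by fun_prop) continuous_const).inter
      ((isOpen_lt (by fun_prop) continuous_const).inter
      (F.finite_toSet.isOpen_biInter fun z _ => isOpen_lt (by fun_prop) continuous_const))
  have vO : v ∈ O := ⟨by simpa [uv.1], by simpa [uv.2], fun f hf => (h1 f hf).trans_lt (by linarith)⟩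
  obtain ⟨x, hx, hxS⟩ := mem_closure_iff.1 hv O hO vO
  obtain ⟨n, a, b, rfl⟩ := exists_sum_of_adjoin _ _ cθ hxS
  let E := StarAlgebra.adjoin ℂ (Set.range (θ₁.prod α) ∪ Set.range (θ₂.prod β))
  have hE : ∀ t ∈ E, ‖t.2‖ ≤ ‖t.1‖ := fun t ht => by
    obtain ⟨n, f, y, rfl⟩ := exists_sum_of_adjoin _ _
      (fun a b => Prod.ext (cθ a b).eq (hc a b).eq) ht
    simp only [Prod.snd_sum, Prod.fst_sum]
    exact hle _ f y
  have m1 : ∀ f, (θ₁ f, α f) ∈ E := fun f => StarAlgebra.subset_adjoin ℂ _ (Or.inl ⟨f, rfl⟩)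
  have m2 : ∀ f, (θ₂ f, β f) ∈ E := fun f => StarAlgebra.subset_adjoin ℂ _ (Or.inr ⟨f, rfl⟩)
  have m3 : (∑ i, θ₁ (a i) * θ₂ (b i), ∑ i, α (a i) * β (b i)) ∈ E := by
    convert sum_mem (t := Finset.univ) fun i _ => mul_mem (m1 (a i)) (m2 (b i)) using 1
    ext1 <;> simp [Prod.fst_sum, Prod.snd_sum]
  set X := ∑ i, α (a i) * β (b i)
  obtain ⟨V, hV, hd⟩ := near_unitary (w := X) δ0.le (by linarith)
    ((hE _ (sub_mem (mul_mem (star_mem m3) m3) (one_mem _))).trans hx.1.le)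
    ((hE _ (sub_mem (mul_mem m3 (star_mem m3)) (one_mem _))).trans hx.2.1.le)
  refine ⟨V, hV, fun f hf => ?_⟩
  have k1 : ‖X * α f * star X - β f‖ < 5 * η :=
    (hE _ (sub_mem (mul_mem (mul_mem m3 (m1 f)) (star_mem m3)) (m2 f))).trans_lt (hx.2.2 f hf)
  have k2 : ‖α f‖ ≤ K := (hom_le α f).trans 
    (Finset.single_le_sum (f := fun f => ‖f‖) (fun _ _ => norm_nonneg _) hf)
  have k3 : ‖(V - X) * α f * star V‖ ≤ δ * K := by
    rw [CStarRing.norm_mul_mem_unitary _ (Unitary.star_mem hV)]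
    exact (norm_mul_le _ _).trans (mul_le_mul hd k2 (norm_nonneg _) δ0.le)
  have k4 : ‖V * (α f * star (V - X))‖ ≤ K * δ := by
    rw [CStarRing.norm_mem_unitary_mul _ hV]
    exact (norm_mul_le _ _).trans (mul_le_mul k2 (by rwa [norm_star]) (norm_nonneg _) K0)
  have k5 : ‖(V - X) * α f * star (V - X)‖ ≤ δ * K * δ := (norm_mul_le _ _).trans (mul_le_mul
    ((norm_mul_le _ _).trans (mul_le_mul hd k2 (norm_nonneg _) δ0.le)) (by rwa [norm_star])
    (norm_nonneg _) (by positivity))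
  have e : V * α f * star V - β f = (X * α f * star X - β f) + (V - X) * α f * star V +
      (V * (α f * star (V - X)) - (V - X) * α f * star (V - X)) := by
    simp only [star_sub]; noncomm_ring
  rw [e]
  refine norm_add₃_le.trans ?_
  have := norm_sub_le (V * (α f * star (V - X))) ((V - X) * α f * star (V - X))
  nlinarith [mul_nonneg δ0.le K0]

theorem exists_flip (w : C(I, Mat p q)) (hw : ∀ s, w s ∈ unitary (Mat p q)) (w0 : w 0 = 1)
    {C : Type u} [CStarAlgebra C] (α β : DD p q →⋆ₐ[ℂ] C) (hc : ∀ f g, Commute (α f) (β g))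
    (F : Finset (DD p q)) {η : ℝ} (hη : 0 < η) (h : ∀ f ∈ F, ∃ a : Matrix (Fin p) (Fin p) ℂ,
      ∀ s, ‖DD.val f s - w s * a ⊗ₖ 1 * star (w s)‖ ≤ η) :
    ∃ V ∈ unitary C, ∀ f ∈ F, ‖V * α f * star V - β f‖ ≤ 6 * η := by
  obtain ⟨v, hv, uv, h1⟩ := exists_sq' w hw w0
  exact flip_core _ _ (fun a b => ContinuousMap.ext fun z => (kl_comm_kr _ _).eq) α β hc
    (fun _ => sq_le α β hc) hv uv F hη fun f hf => (h f hf).elim fun a ha => h1 a f η ha

end Vale.Agent.P101
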