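import Vale.Agent.P101.Cov

/-! The unitary on the square implementing the half-flip. -/

open Complex

namespace Vale.Agent.P101

variable {M N : Type*} [CStarAlgebra M] [CStarAlgebra N]

/-- The path `exp (i π r (1 - σ) / 2)` from `1` to the symmetry `σ`. -/
noncomputable def pw (σ : N) (r : ℝ) : N :=
  ((1 + exp (Real.pi * r * I)) / 2) • (1 : N) + ((1 - exp (Real.pi * r * I)) / 2) • σ

@[simp] theorem pw_zero (σ : N) : pw σ 0 = 1 := by simp [pw]

@[simp] theorem pw_one (σ : N) : pw σ 1 = σ := by simp [pw]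

@[fun_prop] theorem pw_cont {X : Type*} [TopologicalSpace X] (σ : N) {f : X → ℝ}
    (hf : Continuous f) : Continuous fun x => pw σ (f x) := by unfold pw; fun_prop

theorem pw_mem {S : StarSubalgebra ℂ N} {σ : N} (h : σ ∈ S) (r : ℝ) : pw σ r ∈ S :=
  add_mem (SMulMemClass.smul_mem _ (one_mem S)) (SMulMemClass.smul_mem _ h)

theorem pw_comm {σ x : N} (h : Commute σ x) (r : ℝ) : Commute (pw σ r) x :=
  ((Commute.one_left x).smul_left _).add_left (h.smul_left _)

theorem pw_unitary {σ : N} (h1 : star σ = σ) (h2 : σ * σ = 1) (r : ℝ) : pw σ r ∈ unitary N := by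
  set z := exp (Real.pi * r * I) with hz
  have e : (starRingEnd ℂ) z * z = 1 := by
    rw [hz, ← exp_conj, ← exp_add]; simp
  have s : star (pw σ r) = ((1 + (starRingEnd ℂ) z) / 2) • (1 : N) +
      ((1 - (starRingEnd ℂ) z) / 2) • σ := by
    simp [pw, h1, ← hz, map_ofNat]
  constructor
  · rw [s, pw, ← hz]
    simp only [add_mul, mul_add, smul_mul_smul_comm, one_mul, mul_one, h2]
    match_scalars
    · linear_combination (1 / 2 : ℂ) * e
    · linear_combination (-1 / 2 : ℂ) * e
  · rw [s, pw, ← hz]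
    simp only [add_mul, mul_add, smul_mul_smul_comm, one_mul, mul_one, h2]
    match_scalars
    · linear_combination (1 / 2 : ℂ) * e
    · linear_combination (-1 / 2 : ℂ) * e

theorem norm_ad {v : N} (hv : v ∈ unitary N) (x y : N) :
    ‖v * x * star v - v * y * star v‖ = ‖x - y‖ := by
  rw [← sub_mul, ← mul_sub, CStarRing.norm_mul_mem_unitary _ (Unitary.star_mem hv),
    CStarRing.norm_mem_unitary_mul _ hv]

theorem ad_comm {v x : N} (hv : v ∈ unitary N) (h : Commute v x) : v * x * star v = x := by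
  rw [h.eq, mul_assoc, hv.2, mul_one]

theorem map_unitary (L : M →⋆ₐ[ℂ] N) {v : M} (hv : v ∈ unitary M) : L v ∈ unitary N :=
  ⟨by rw [← map_star, ← map_mul, hv.1, map_one], by rw [← map_star, ← map_mul, hv.2, map_one]⟩

open unitInterval in
theorem exists_sq (L R : M →⋆ₐ[ℂ] N) {κ ρ : N} (s1 : star κ = κ) (s2 : κ * κ = 1)
    (r1 : star ρ = ρ) (r2 : ρ * ρ = 1) (hc : Commute κ ρ)
    (hf : ∀ x, κ * ρ * L x = R x * (κ * ρ)) (w : C(I, M)) (hw : ∀ s, w s ∈ unitary M)
    (w0 : w 0 = 1) : ∃ v : C(I × I, N), (∀ z, v z ∈ unitary N) ∧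
      (∀ S : StarSubalgebra ℂ N, κ ∈ S → (∀ x, R x ∈ S) → (∀ x, ρ * L x * ρ ∈ S) →
        ∀ t, v (0, t) ∈ S) ∧
      (∀ S : StarSubalgebra ℂ N, ρ ∈ S → (∀ x, R x ∈ S) → (∀ x, κ * L x * κ ∈ S) →
        ∀ t, v (1, t) ∈ S) ∧
      (∀ S : StarSubalgebra ℂ N, κ ∈ S → (∀ x, L x ∈ S) → ∀ s, v (s, 0) ∈ S) ∧
      (∀ S : StarSubalgebra ℂ N, ρ ∈ S → (∀ x, L x ∈ S) → (∀ x, ρ * L x * ρ ∈ S) →
        ∀ s, v (s, 1) ∈ S) ∧
      ∀ (a : M) (f : I → M) (η : ℝ), Commute ρ (L a) → Commute κ (L (f 1)) →
        (∀ s, ‖f s - w s * a * star (w s)‖ ≤ η) →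
        ∀ z, ‖v z * L (f z.1) * star (v z) - R (f z.2)‖ ≤ 4 * η := by
  have uκ : κ ∈ unitary N := ⟨by rwa [s1], by rwa [s1]⟩
  set u := L (w 1) with hu
  have uu : u ∈ unitary N := map_unitary L (hw 1)
  let A : ℝ → N := fun r => star u * pw κ r * u
  have uA : ∀ r, A r ∈ unitary N := fun r =>
    mul_mem (mul_mem (Unitary.star_mem uu) (pw_unitary s1 s2 r)) uu
  have uB := pw_unitary r1 r2
  let τ : I × I → ℝ := fun z => min 1 (z.2 * (2 - z.1))
  let α : I × I → ℝ := fun z => max 0 (min 1 (2 * (z.1 + z.2) - 1))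
  let H : I × I → N := fun z => pw ρ (τ z) * A (α z) * star (pw ρ (τ z)) * pw ρ (z.1 * z.2)
  have uH : ∀ z, H z ∈ unitary N := fun z =>
    mul_mem (mul_mem (mul_mem (uB _) (uA _)) (Unitary.star_mem (uB _))) (uB _)
  have cL := hom_cont L
  have cR := hom_cont R
  refine ⟨⟨fun z => R (w z.2) * κ * H z * star (L (w z.1)), by simp only [H, A, τ, α]; fun_prop⟩,
    fun z => mul_mem (mul_mem (mul_mem (map_unitary R (hw _)) uκ) (uH z))
      (Unitary.star_mem (map_unitary L (hw _))), fun S h1 h2 h3 t => ?_, fun S h1 h2 h3 t => ?_,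
    fun S h1 h2 s => ?_, fun S h1 h2 h3 s => ?_, fun a f η c1 c2 h z => ?_⟩
  · refine mul_mem (mul_mem (mul_mem (h2 _) h1) ?_) (by simp [w0])
    rcases le_total (t : ℝ) (1 / 2) with ht | ht
    · have : α (0, t) = 0 := max_eq_left (min_le_of_right_le (by simp; linarith))
      simp [H, A, this, uu.1, (uB _).2]
    · have : τ (0, t) = 1 := min_eq_left (by simp; linarith)
      have e : H (0, t) = ρ * L (star (w 1)) * ρ * pw κ (α (0, t)) * (ρ * u * ρ) := by
        simp only [H, A, this, pw_one, r1, map_star, ← hu, Set.Icc.coe_zero, zero_mul, pw_zero, mul_one]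
        rw [mul_assoc (ρ * star u) ρ (pw _ _), ← (pw_comm hc _).eq]
        simp only [mul_assoc]
        rw [← mul_assoc ρ ρ, r2, one_mul]
      rw [e]
      exact mul_mem (mul_mem (h3 _) (pw_mem h1 _)) (h3 _)
  · have e1 : α (1, t) = 1 := by
      simp only [α, Set.Icc.coe_one]
      rw [min_eq_left (by linarith [t.2.1]), max_eq_right zero_le_one]
    have e2 : τ (1, t) = t := by
      simp only [τ, Set.Icc.coe_one]
      rw [show (2 : ℝ) - 1 = 1 by norm_num, mul_one, min_eq_right t.2.2]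
    have e : R (w t) * κ * H (1, t) * star u = R (w t) * pw ρ t * (κ * L (star (w 1)) * κ) := by
      simp only [H, A, e1, e2, pw_one, Set.Icc.coe_one, one_mul, map_star, ← hu, mul_assoc]
      rw [← mul_assoc (star (pw ρ t)), (uB _).1, one_mul, uu.2, mul_one, ← mul_assoc κ (pw _ _),
        ← (pw_comm hc.symm _).eq, mul_assoc]
    change R (w t) * κ * H (1, t) * star u ∈ S
    rw [e]
    exact mul_mem (mul_mem (h2 _) (pw_mem h1 _)) (h3 _)
  · have e2 : τ (s, 0) = 0 := by simp [τ]
    refine mul_mem (mul_mem (by simpa [w0]) ?_) (star_mem (h2 _))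
    simp only [H, A, e2, pw_zero, star_one, Set.Icc.coe_zero, mul_zero, one_mul, mul_one]
    exact mul_mem (mul_mem (star_mem (h2 _)) (pw_mem h1 _)) (h2 _)
  · have e1 : α (s, 1) = 1 := by
      simp only [α, Set.Icc.coe_one]
      rw [min_eq_left (by linarith [s.2.1]), max_eq_right zero_le_one]
    have e2 : τ (s, 1) = 1 := min_eq_left (by simp; linarith [s.2.2])
    have e : R (w 1) * κ * H (s, 1) = ρ * u * ρ * pw ρ s := by
      have := hf (star (w 1))
      simp only [H, A, e1, e2, pw_one, Set.Icc.coe_one, mul_one, r1, map_star, ← hu, ← mul_assoc] at this ⊢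
      rw [mul_assoc (R _) κ, mul_assoc (R _), this]
      simp only [← mul_assoc]
      rw [(map_unitary R (hw 1)).2, one_mul, hc.eq, mul_assoc ρ κ κ, s2, mul_one]
    change R (w 1) * κ * H (s, 1) * _ ∈ S
    rw [e]
    exact mul_mem (mul_mem (h3 _) (pw_mem h1 _)) (star_mem (h2 _))
  · have n1 : ∀ (T : M →⋆ₐ[ℂ] N) s, ‖T (f s) - T (w s) * T a * star (T (w s))‖ ≤ η := fun T s => by
      rw [← map_star, ← map_mul, ← map_mul, ← map_sub]; exact (hom_le T _).trans (h s)
    have n2 : ∀ s, ‖star (L (w s)) * L (f s) * star (star (L (w s))) - L a‖ ≤ η := fun s => by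
      have hs := map_unitary L (hw s)
      rw [← norm_ad hs, star_star]
      convert n1 L s using 3
      simp only [← mul_assoc, hs.2, one_mul]
      rw [mul_assoc, hs.2, mul_one]
    have n3 : ∀ r, ‖A r * L a * star (A r) - L a‖ ≤ 2 * η := fun r => by
      have := n2 1
      have e : A r * (star u * L (f 1) * star (star u)) * star (A r) =
          star u * L (f 1) * star (star u) := ad_comm (uA r) (by
        simp only [A, Commute, SemiconjBy, star_star, mul_assoc]
        rw [← mul_assoc u, uu.2, one_mul, ← mul_assoc u, uu.2, one_mul, ← mul_assoc (pw _ _),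
          (pw_comm c2 r).eq, mul_assoc])
      refine (norm_sub_le_norm_sub_add_norm_sub _ (star u * L (f 1) * star (star u)) _).trans ?_
      nth_rw 1 [← e]
      rw [norm_ad (uA r), norm_sub_rev]
      linarith
    have n4 : ‖H z * L a * star (H z) - L a‖ ≤ 2 * η := by
      have e := fun r => ad_comm (uB r) (pw_comm c1 r)
      have e' : star (pw ρ (τ z)) * L a * star (star (pw ρ (τ z))) = L a :=
        ad_comm (Unitary.star_mem (uB _)) (by
          have := (pw_comm c1 (τ z)).eq
          rw [Commute, SemiconjBy, ← e (τ z)]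
          simp only [← mul_assoc, (uB _).1, one_mul]
          rw [e])
      have : H z * L a * star (H z) =
          pw ρ (τ z) * (A (α z) * L a * star (A (α z))) * star (pw ρ (τ z)) := by
        conv_rhs => rw [← e', ← e (z.1 * z.2)]
        simp only [H, star_mul, mul_assoc]
      rw [this]
      nth_rw 2 [← e (τ z)]
      rw [norm_ad (uB _)]
      exact n3 _
    have e3 : κ * L a * star κ = R a := by
      have := hf a
      rw [mul_assoc, c1.eq, ← mul_assoc, ← mul_assoc] at this
      have := congrArg (· * ρ * κ) this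
      simpa only [mul_assoc, ← mul_assoc ρ ρ, r2, one_mul, s2, mul_one, s1] using this
    have uR := mul_mem (map_unitary R (hw z.2)) uκ
    have k1 := (norm_ad (mul_mem uR (uH z)) _ _).trans_le (n2 z.1)
    have k2 := (norm_ad uR _ _).trans_le n4
    have k3 := n1 R z.2
    rw [← e3, norm_sub_rev] at k3
    refine le_trans (le_of_eq ?_) ((norm_add₃_le.trans (add_le_add_three k1 k2 k3)).trans_eq
      (by ring))
    congr 1
    simp only [ContinuousMap.coe_mk, star_mul, mul_assoc]
    abel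

end Vale.Agent.P101
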