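import Vale.Agent.P101.JFlip

/-! The connecting maps between prime dimension-drop algebras. -/

open scoped Matrix.Norms.L2Operator Kronecker unitInterval

namespace Vale.Agent.P101

universe u

theorem exists_upath {n : Type} [Fintype n] [DecidableEq n] (e : Equiv.Perm n) :
    ∃ w : C(I, Matrix n n ℂ), (∀ s, w s ∈ unitary (Matrix n n ℂ)) ∧ w 0 = 1 ∧ w 1 = pm e := by
  induction e using Equiv.Perm.swap_induction_on with
  | one => exact ⟨1, fun _ => one_mem _, rfl, rfl⟩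
  | swap_mul f x y _ ih =>
    obtain ⟨w, h1, h2, h3⟩ := ih
    have i : Function.Involutive (Equiv.swap x y) := Equiv.swap_apply_self x y
    refine ⟨⟨fun s => w s * pw (pm (Equiv.swap x y)) s, by fun_prop⟩, fun s =>
      mul_mem (h1 s) (pw_unitary (star_pm i) (pm_sq i) _), by simp [h2], ?_⟩
    simp only [ContinuousMap.coe_mk, h3, Set.Icc.coe_one, pw_one, pm_mul]
    rfl

theorem exists_path {x y : I} {δ : ℝ} (hδ : 0 ≤ δ) (h : |(x : ℝ) - y| ≤ 3 * δ) :
    ∃ ξ : C(I, I), ξ 0 = x ∧ ξ 1 = y ∧ (∀ s, dist (ξ s) x ≤ 6 * δ) ∧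
      ∀ t : I, x ≤ t → (t : ℝ) ≤ x + δ → ∃ s, ξ s = t := by
  let g : I → ℝ := fun s => x + s * (y - x) + 10 * δ * (s * (1 - s))
  have cg : Continuous g := by fun_prop
  obtain ⟨h1, h2⟩ := abs_le.1 h
  refine ⟨⟨fun s => Set.projIcc 0 1 zero_le_one (g s), continuous_projIcc.comp cg⟩, by simp [g],
    by simp [g], fun s => ?_, fun t t1 t2 => ?_⟩
  · have := (LipschitzWith.projIcc (zero_le_one' ℝ)).dist_le_mul (g s) x
    rw [Set.projIcc_val, NNReal.coe_one, one_mul] at this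
    refine this.trans (abs_le.2 ⟨?_, ?_⟩) <;> simp only [g]
    · nlinarith [s.2.1, s.2.2, mul_nonneg hδ (mul_nonneg s.2.1 (sub_nonneg.2 s.2.2))]
    · nlinarith [s.2.1, s.2.2, mul_nonneg hδ (sq_nonneg (2 * (s : ℝ) - 1))]
  · obtain ⟨s, hs⟩ := intermediate_value_univ 0 ⟨1 / 2, by norm_num, by norm_num⟩ cg
      (show (t : ℝ) ∈ _ from ⟨by simpa [g] using t1, by simp only [g]; linarith⟩)
    exact ⟨s, by simp [hs]⟩

/-- The sample points. -/
noncomputable def pt {g r : ℕ} (κ : Option (Fin g × Fin r)) : I :=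
  κ.elim 0 fun l => ⟨((l.1 : ℝ) + 1) / g, by positivity,
    div_le_one_of_le₀ (by exact_mod_cast l.1.2) (by positivity)⟩

theorem exists_enum {g r L N : ℕ} (hg : 0 < g) (hr : 0 < r) (hN : (g * r + 1) * L = N) :
    ∃ c : Fin N ≃ Option (Fin g × Fin r) × Fin L, ∀ n, |(pt (c n).1 : ℝ) - n / N| ≤ 1 / g := by
  subst hN
  let a : Fin (g * r + 1) ≃ Option (Fin g × Fin r) :=
    (finSuccEquiv _).trans finProdFinEquiv.symm.optionCongr
  refine ⟨finProdFinEquiv.symm.trans (a.prodCongr (.refl _)), fun n => ?_⟩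
  obtain ⟨⟨k, l⟩, rfl⟩ := finProdFinEquiv.surjective n
  have l0 : (0 : ℝ) ≤ l := by positivity
  have l1 : (l : ℝ) + 1 ≤ L := by exact_mod_cast l.2
  have g1 : (1 : ℝ) ≤ g := by exact_mod_cast hg
  have r1 : (1 : ℝ) ≤ r := by exact_mod_cast hr
  have L0 : (0 : ℝ) < L := by linarith
  have b1 : ((finProdFinEquiv (k, l) : ℕ) : ℝ) / ((g * r + 1) * L : ℕ) ≤ (k + 1) / (g * r + 1) := by
    simp only [finProdFinEquiv_apply_val]
    push_cast
    rw [div_le_div_iff₀ (by positivity) (by positivity)]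
    nlinarith [mul_nonneg (sub_nonneg.2 l1) (show (0 : ℝ) ≤ g * r + 1 by positivity)]
  have b2 : (k : ℝ) / (g * r + 1) ≤
      ((finProdFinEquiv (k, l) : ℕ) : ℝ) / ((g * r + 1) * L : ℕ) := by
    simp only [finProdFinEquiv_apply_val]
    push_cast
    rw [div_le_div_iff₀ (by positivity) (by positivity)]
    nlinarith [mul_nonneg l0 (show (0 : ℝ) ≤ g * r + 1 by positivity)]
  generalize ((finProdFinEquiv (k, l) : ℕ) : ℝ) / ((g * r + 1) * L : ℕ) = z at b1 b2
  have b3 : (1 : ℝ) / (g * r + 1) ≤ 1 / g := one_div_le_one_div_of_le (by positivity) (by nlinarith)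
  simp only [Equiv.trans_apply, Equiv.symm_apply_apply, Equiv.prodCongr_apply, Prod.map_fst, a]
  induction k using Fin.cases with
  | zero =>
    simp only [Fin.val_zero, Nat.cast_zero, zero_add, zero_div] at b1 b2
    simp only [finSuccEquiv_zero, Equiv.optionCongr_apply, Option.map_none, pt, Option.elim_none,
      Set.Icc.coe_zero, zero_sub, abs_neg, abs_of_nonneg b2]
    linarith
  | succ k =>
    obtain ⟨⟨i, j⟩, rfl⟩ := finProdFinEquiv.surjective k
    simp only [Fin.val_succ, finProdFinEquiv_apply_val] at b1 b2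
    push_cast at b1 b2
    simp only [finSuccEquiv_succ, Equiv.optionCongr_apply, Option.map_some, pt, Option.elim_some,
      Equiv.symm_apply_apply]
    have j0 : (0 : ℝ) ≤ j := by positivity
    have j1 : (j : ℝ) + 1 ≤ r := by exact_mod_cast j.2
    have i0 : (0 : ℝ) ≤ i := by positivity
    have i1 : (i : ℝ) + 1 ≤ g := by exact_mod_cast i.2
    have c1 : (i : ℝ) / g ≤ (j + r * i + 1) / (g * r + 1) := by
      rw [div_le_div_iff₀ (by positivity) (by positivity)]; nlinarith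
    have c2 : ((j : ℝ) + r * i + 1 + 1) / (g * r + 1) ≤ (i + 1) / g + 1 / (g * r + 1) := by
      rw [add_div _ 1, add_le_add_iff_right, div_le_div_iff₀ (by positivity) (by positivity)]
      nlinarith
    rw [add_div _ 1 (g : ℝ)] at c2 ⊢
    exact abs_le.2 ⟨by linarith, by linarith⟩

variable {p q p' q' : ℕ} {K : Type} [Fintype K] [DecidableEq K]

/-- Block diagonal matrices, reindexed. -/
noncomputable def blk (e : Fin p' × Fin q' ≃ (Fin p × Fin q) × K) :
    (K → Mat p q) →⋆ₐ[ℂ] Mat p' q' where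
  toFun x := (Matrix.blockDiagonal x).submatrix e e
  map_one' := by simp
  map_mul' a b := by
    rw [Matrix.submatrix_mul_equiv, ← Matrix.blockDiagonal_mul]; rfl
  map_zero' := by simp
  map_add' a b := by rw [Matrix.blockDiagonal_add]; rfl
  commutes' c := by
    simp [Algebra.algebraMap_eq_smul_one, Matrix.blockDiagonal_smul, Matrix.submatrix_smul]
  map_star' a := by
    rw [Matrix.star_eq_conjTranspose, Matrix.conjTranspose_submatrix,
      Matrix.blockDiagonal_conjTranspose]; rfl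

theorem blk_apply (e : Fin p' × Fin q' ≃ (Fin p × Fin q) × K) (x u v) :
    blk e x u v = if (e u).2 = (e v).2 then x (e u).2 (e u).1 (e v).1 else 0 := rfl

theorem blk_inj (e : Fin p' × Fin q' ≃ (Fin p × Fin q) × K) : Function.Injective (blk e) :=
  fun x y h => by
    ext k i j
    simpa [blk_apply] using congrFun₂ h (e.symm (i, k)) (e.symm (j, k))

theorem blk_conj (e e' : Fin p' × Fin q' ≃ (Fin p × Fin q) × K) (x) :
    pm (e'.trans e.symm) * blk e x * star (pm (e'.trans e.symm)) = blk e' x := by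
  rw [mul_star_pm, pm_mul]; ext u v; simp [blk_apply]

theorem exists_left {G L : Type} [DecidableEq G] [DecidableEq L] (c : K ≃ Option (G × Fin q) × L)
    (ε : Fin p' ≃ Fin p × Option (G × Fin q)) (ε' : Fin q' ≃ Fin q × L) :
    ∃ e : Fin p' × Fin q' ≃ (Fin p × Fin q) × K, ∀ (a : Matrix (Fin p) (Fin p) ℂ)
      (m : G → Mat p q), ∃ A : Matrix (Fin p') (Fin p') ℂ,
      blk e (fun k => (c k).1.elim (a ⊗ₖ 1) fun l => m l.1) = A ⊗ₖ 1 := by
  let f : (Fin p × Option (G × Fin q)) × (Fin q × L) ≃ (Fin p × Fin q) × (Option (G × Fin q) × L) :=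
    { toFun := fun x => x.1.2.elim ((x.1.1, x.2.1), (none, x.2.2))
        fun l => ((x.1.1, l.2), (some (l.1, x.2.1), x.2.2))
      invFun := fun x => x.2.1.elim ((x.1.1, none), (x.1.2, x.2.2))
        fun l => ((x.1.1, some (l.1, x.1.2)), (l.2, x.2.2))
      left_inv := by rintro ⟨⟨i, _ | l⟩, j⟩ <;> rfl
      right_inv := by rintro ⟨i, _ | l, j⟩ <;> rfl }
  refine ⟨((ε.prodCongr ε').trans f).trans ((Equiv.refl _).prodCongr c.symm), fun a m =>
    ⟨Matrix.of fun u v => match (ε u).2, (ε v).2 with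
      | none, none => a (ε u).1 (ε v).1
      | some l, some l' => if l.1 = l'.1 then m l.1 ((ε u).1, l.2) ((ε v).1, l'.2) else 0
      | _, _ => 0, ?_⟩⟩
  ext ⟨u, j⟩ ⟨v, j'⟩
  simp only [blk_apply, Equiv.trans_apply, Equiv.prodCongr_apply, Prod.map_fst, Prod.map_snd,
    Equiv.apply_symm_apply, EmbeddingLike.apply_eq_iff_eq, Matrix.kroneckerMap_apply,
    Matrix.of_apply, Matrix.one_apply, Prod.map_apply, Equiv.refl_apply]
  simp only [← ε'.apply_eq_iff_eq (x := j)]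
  rcases ε u with ⟨i, _ | l⟩ <;> rcases ε v with ⟨i', _ | l'⟩ <;> rcases ε' j with ⟨j, t⟩ <;>
    rcases ε' j' with ⟨j', t'⟩ <;> simp [f, Matrix.one_apply] <;> split_ifs <;> simp_all

theorem exists_right {G L : Type} [DecidableEq G] [DecidableEq L] (c : K ≃ Option (G × Fin p) × L)
    (ε : Fin q' ≃ Fin q × Option (G × Fin p)) (ε' : Fin p' ≃ Fin p × L) :
    ∃ e : Fin p' × Fin q' ≃ (Fin p × Fin q) × K, ∀ (a : Matrix (Fin q) (Fin q) ℂ)
      (m : G → Mat p q), ∃ A : Matrix (Fin q') (Fin q') ℂ,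
      blk e (fun k => (c k).1.elim (1 ⊗ₖ a) fun l => m l.1) = 1 ⊗ₖ A := by
  let f : (Fin p × L) × (Fin q × Option (G × Fin p)) ≃ (Fin p × Fin q) × (Option (G × Fin p) × L) :=
    { toFun := fun x => x.2.2.elim ((x.1.1, x.2.1), (none, x.1.2))
        fun l => ((l.2, x.2.1), (some (l.1, x.1.1), x.1.2))
      invFun := fun x => x.2.1.elim ((x.1.1, x.2.2), (x.1.2, none))
        fun l => ((l.2, x.2.2), (x.1.2, some (l.1, x.1.1)))
      left_inv := by rintro ⟨i, j, _ | l⟩ <;> rfl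
      right_inv := by rintro ⟨i, _ | l, j⟩ <;> rfl }
  refine ⟨((ε'.prodCongr ε).trans f).trans ((Equiv.refl _).prodCongr c.symm), fun a m =>
    ⟨Matrix.of fun u v => match (ε u).2, (ε v).2 with
      | none, none => a (ε u).1 (ε v).1
      | some l, some l' => if l.1 = l'.1 then m l.1 (l.2, (ε u).1) (l'.2, (ε v).1) else 0
      | _, _ => 0, ?_⟩⟩
  ext ⟨j, u⟩ ⟨j', v⟩
  simp only [blk_apply, Equiv.trans_apply, Equiv.prodCongr_apply, Prod.map_fst, Prod.map_snd,
    Equiv.apply_symm_apply, EmbeddingLike.apply_eq_iff_eq, Matrix.kroneckerMap_apply,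
    Matrix.of_apply, Matrix.one_apply, Prod.map_apply, Equiv.refl_apply]
  simp only [← ε'.apply_eq_iff_eq (x := j)]
  rcases ε u with ⟨i, _ | l⟩ <;> rcases ε v with ⟨i', _ | l'⟩ <;> rcases ε' j with ⟨j, t⟩ <;>
    rcases ε' j' with ⟨j', t'⟩ <;> simp [f, Matrix.one_apply] <;> split_ifs <;> simp_all

theorem exists_conn (e : Fin p' × Fin q' ≃ (Fin p × Fin q) × K) (ξ : K → C(I, I))
    (w : C(I, Mat p' q')) (hw : ∀ s, w s ∈ unitary (Mat p' q'))
    (h0 : ∀ f : DD p q, ∃ a : Matrix (Fin p') (Fin p') ℂ,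
      w 0 * blk e (fun k => DD.val f (ξ k 0)) * star (w 0) = a ⊗ₖ 1)
    (h1 : ∀ f : DD p q, ∃ a : Matrix (Fin q') (Fin q') ℂ,
      w 1 * blk e (fun k => DD.val f (ξ k 1)) * star (w 1) = 1 ⊗ₖ a) :
    ∃ φ : DD p q →⋆ₐ[ℂ] DD p' q',
      ∀ f s, DD.val (φ f) s = w s * blk e (fun k => DD.val f (ξ k s)) * star (w s) := by
  have cb := hom_cont (blk e)
  let θ : I → DD p q →⋆ₐ[ℂ] Mat p' q' := fun s =>
    ((Unitary.conjStarAlgAut ℂ _ ⟨w s, hw s⟩ : _ →⋆ₐ[ℂ] _).comp (blk e)).comp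
      { AlgHom.pi fun k => (DD.ev (ξ k s)).toAlgHom with
        map_star' := fun a => funext fun k => map_star (DD.ev (ξ k s)) a }
  let g : DD p q → DD p' q' := fun f =>
    ⟨⟨fun s => w s * blk e (fun k => DD.val f (ξ k s)) * star (w s), by fun_prop⟩, h0 f, h1 f⟩
  exact ⟨⟨⟨⟨⟨⟨g, DD.ext' fun s => map_one (θ s)⟩, fun a b => DD.ext' fun s => map_mul (θ s) a b⟩,
    DD.ext' fun s => map_zero (θ s), fun a b => DD.ext' fun s => map_add (θ s) a b⟩,
    fun c => DD.ext' fun s => (θ s).commutes c⟩, fun a => DD.ext' fun s => map_star (θ s) a⟩,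
    fun _ _ => rfl⟩

theorem exists_unif (F : Finset (DD p q)) {η : ℝ} (hη : 0 < η) :
    ∃ g : ℕ, 0 < g ∧ ∀ f ∈ F, ∀ s t, dist s t ≤ 6 * (1 / g) → ‖DD.val f s - DD.val f t‖ ≤ η := by
  have h : ∀ᶠ δ in nhdsWithin (0 : ℝ) (Set.Ioi 0), ∀ f ∈ F, ∀ s t, dist s t ≤ δ →
      ‖DD.val f s - DD.val f t‖ ≤ η := (F.eventually_all).2 fun f _ => by
    obtain ⟨δ, δ0, h⟩ := Metric.uniformContinuous_iff_le.1
      (CompactSpace.uniformContinuous_of_continuous (DD.val f).continuous) η hη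
    filter_upwards [Ioc_mem_nhdsGT δ0] with d hd s t hst
    exact dist_eq_norm (DD.val f s) _ ▸ h (hst.trans hd.2)
  obtain ⟨δ, hδ, δ0⟩ := (h.and self_mem_nhdsWithin).exists
  obtain ⟨n, hn⟩ := exists_nat_one_div_lt (show 0 < δ / 6 from div_pos δ0 (by norm_num))
  exact ⟨n + 1, n.succ_pos, fun f hf s t hst => hδ f hf s t (by push_cast at hst; linarith)⟩

theorem pt_dense {g r : ℕ} (hg : 0 < g) (hr : 0 < r) (t : I) :
    ∃ κ : Option (Fin g × Fin r), pt κ ≤ t ∧ (t : ℝ) ≤ pt κ + 1 / g := by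
  have g0 : (0 : ℝ) < g := by exact_mod_cast hg
  have h1 := Nat.floor_le (mul_nonneg t.2.1 g0.le)
  have h2 := (Nat.lt_floor_add_one ((t : ℝ) * g)).le
  have h3 : ⌊(t : ℝ) * g⌋₊ ≤ g := Nat.floor_le_of_le (mul_le_of_le_one_left g0.le t.2.2)
  generalize ⌊(t : ℝ) * g⌋₊ = n at *
  rcases n with _ | n
  · exact ⟨none, t.2.1, by simpa [pt, ← one_div, le_div_iff₀ g0] using h2⟩
  · push_cast at h1 h2
    exact ⟨some (⟨n, h3⟩, ⟨0, hr⟩), (div_le_iff₀ g0).2 h1,
      by simpa only [pt, Option.elim_some, ← add_div, le_div_iff₀ g0] using h2⟩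

theorem exists_step (hp : 2 ≤ p) (hq : 2 ≤ q) (hpq : p.Coprime q) (F : Finset (DD p q)) {η : ℝ}
    (hη : 0 < η) : ∃ p' q' : ℕ, 2 ≤ p' ∧ 2 ≤ q' ∧ p'.Coprime q' ∧ ∃ φ : DD p q →⋆ₐ[ℂ] DD p' q',
      Function.Injective φ ∧ ∀ (C : Type u) [CStarAlgebra C] (α β : DD p' q' →⋆ₐ[ℂ] C),
        (∀ f g, Commute (α f) (β g)) →
        ∃ V ∈ unitary C, ∀ f ∈ F, ‖V * α (φ f) * star V - β (φ f)‖ ≤ 6 * η := by
  classical
  obtain ⟨g, g0, hg⟩ := exists_unif F hη
  set k := g * q + 1 with hk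
  set l := k * p + 1 with hl
  have k0 : 0 < k := Nat.succ_pos _
  have l0 : 0 < l := Nat.succ_pos _
  obtain ⟨c, hc⟩ := exists_enum (r := q) (L := l) (N := k * l) g0 (by omega) rfl
  obtain ⟨c', hc'⟩ := exists_enum (r := p) (L := k) (N := k * l) k0 (by omega) (mul_comm _ _)
  obtain ⟨e, he⟩ := exists_left (p := p) (p' := p * k) (q' := q * l) c
    (Fintype.equivOfCardEq (by simp [hk])) finProdFinEquiv.symm
  obtain ⟨e', he'⟩ := exists_right (q := q) (p' := p * k) (q' := q * l) (Fin.revPerm.trans c')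
    (Fintype.equivOfCardEq (by simp [hl])) finProdFinEquiv.symm
  have δ0 : (0 : ℝ) ≤ 1 / g := by positivity
  have hm : ∀ n, |(pt (c n).1 : ℝ) - unitInterval.symm (pt (c' n.rev).1)| ≤ 3 * (1 / g) := fun n => by
    have gk : g ≤ k := by nlinarith
    have a1 : (1 : ℝ) / k ≤ 1 / g := one_div_le_one_div_of_le (by positivity) (by exact_mod_cast gk)
    have a2 : (1 : ℝ) / (k * l : ℕ) ≤ 1 / g := one_div_le_one_div_of_le (by positivity)
      (by exact_mod_cast gk.trans (Nat.le_mul_of_pos_right _ l0))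
    have a3 : ((n.rev : ℕ) : ℝ) / (k * l : ℕ) = 1 - n / (k * l : ℕ) - 1 / (k * l : ℕ) := by
      rw [Fin.val_rev, Nat.cast_sub n.2]; field_simp; push_cast; ring
    have a4 : (0 : ℝ) ≤ 1 / (k * l : ℕ) := by positivity
    obtain ⟨b1, b2⟩ := abs_le.1 (hc n)
    obtain ⟨b3, b4⟩ := abs_le.1 (hc' n.rev)
    rw [unitInterval.coe_symm_eq, abs_le]
    constructor <;> linarith
  choose ξ ξ0 ξ1 ξd ξs using fun n => exists_path δ0 (hm n)
  obtain ⟨w, hw, w0, w1⟩ := exists_upath (e'.trans e.symm)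
  have h0 : ∀ f : DD p q, ∃ a : Matrix (Fin (p * k)) (Fin (p * k)) ℂ,
      blk e (fun n => DD.val f (pt (c n).1)) = a ⊗ₖ 1 := fun f => by
    obtain ⟨a, ha⟩ := f.2.1
    convert he a fun i => DD.val f (pt (some (i, (⟨0, by omega⟩ : Fin q)))) using 5 with A n
    rcases (c n).1 with _ | i
    exacts [ha, rfl]
  obtain ⟨φ, hφ⟩ := exists_conn e ξ w hw (fun f => by simpa [w0, ξ0] using h0 f) fun f => by
    obtain ⟨a, ha⟩ := f.2.2
    rw [w1, blk_conj]
    convert he' a fun i => DD.val f (unitInterval.symm (pt (some (i, (⟨0, by omega⟩ : Fin p)))))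
      using 5 with A n
    rw [ξ1, Equiv.trans_apply, Fin.revPerm_apply]
    rcases (c' n.rev).1 with _ | i
    exacts [(congrArg _ unitInterval.symm_zero).trans ha, rfl]
  refine ⟨p * k, q * l, by nlinarith, by nlinarith, ?_, φ, (injective_iff_map_eq_zero φ).2
    fun f hf => DD.ext' fun t => ?_, fun C _ α β hαβ => ?_⟩
  · refine Nat.Coprime.mul_right (Nat.Coprime.mul_left hpq ?_) (Nat.Coprime.mul_left ?_ ?_)
    · simp [hk]
    · simp [hl]
    · rw [hl]; simp
  · obtain ⟨κ, h1, h2⟩ := pt_dense g0 (show 0 < q by omega) t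
    obtain ⟨s, hs⟩ := ξs (c.symm (κ, ⟨0, l0⟩)) t (by simpa) (by simpa using h2)
    have h3 := hφ f s
    rw [hf, ← sub_zero (_ * _ * _)] at h3
    have h4 := norm_ad (hw s) (blk e fun n => DD.val f (ξ n s)) 0
    rw [mul_zero, zero_mul, ← h3, sub_zero] at h4
    have := congrFun (blk_inj e ((norm_eq_zero.1 (h4.symm.trans (by simp))).trans
      (map_zero _).symm)) (c.symm (κ, ⟨0, l0⟩))
    rw [hs] at this
    simpa using this
  · obtain ⟨V, hV, h⟩ := exists_flip w hw w0 α β hαβ (F.image φ) hη (by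
      simp only [Finset.mem_image, forall_exists_index, and_imp, forall_apply_eq_imp_iff₂]
      intro f hf
      obtain ⟨a, ha⟩ := h0 f
      refine ⟨a, fun s => ?_⟩
      rw [hφ, norm_ad (hw s), ← ha, ← map_sub]
      exact (hom_le _ _).trans ((pi_norm_le_iff_of_nonneg hη.le).2 fun n => hg f hf _ _ (ξd n s)))
    exact ⟨V, hV, fun f hf => h _ (Finset.mem_image_of_mem _ hf)⟩

end Vale.Agent.P101
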