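import Vale.Agent.P101.Final
import Vale.Agent.P101.JSq

/-! Functions on the square and the tensor square of a dimension-drop algebra. -/

open scoped Matrix.Norms.L2Operator Kronecker unitInterval

namespace Vale.Agent.P101

universe u

variable {p q : ℕ}

/-- The matrix algebra of the tensor square. -/
abbrev Mat2 (p q : ℕ) : Type :=
  Matrix ((Fin p × Fin q) × (Fin p × Fin q)) ((Fin p × Fin q) × (Fin p × Fin q)) ℂ

/-- `f ↦ ((s, t) ↦ T (f (g (s, t))))`. -/
noncomputable def onSq (T : Mat p q →⋆ₐ[ℂ] Mat2 p q) (g : C(I × I, I)) :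
    DD p q →⋆ₐ[ℂ] C(I × I, Mat2 p q) where
  toFun f := ⟨fun z => T (DD.val f (g z)), (hom_cont T).comp (by fun_prop)⟩
  map_one' := by ext1; simp
  map_mul' a b := by ext1; simp
  map_zero' := by ext1; simp
  map_add' a b := by ext1; simp
  commutes' c := by ext1; simp [Algebra.algebraMap_eq_smul_one]
  map_star' a := by ext1; simp [map_star]

@[simp] theorem onSq_apply (T : Mat p q →⋆ₐ[ℂ] Mat2 p q) (g : C(I × I, I)) (f z) :
    onSq T g f z = T (DD.val f (g z)) := rfl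

theorem kl_mul_kr {m n : Type} [Fintype m] [DecidableEq m] [Fintype n] [DecidableEq n] (a b) :
    kl m n a * kr m n b = a ⊗ₖ b := by simp [kl, kr, ← Matrix.mul_kronecker_mul]

theorem kl_comm_kr {m n : Type} [Fintype m] [DecidableEq m] [Fintype n] [DecidableEq n] (a b) :
    Commute (kl m n a) (kr m n b) := by
  simp [Commute, SemiconjBy, kl, kr, ← Matrix.mul_kronecker_mul]

theorem exists_lin {D V W : Type*} [AddCommGroup D] [Module ℂ D] [AddCommGroup V] [Module ℂ V]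
    [AddCommGroup W] [Module ℂ W] (e : D →ₗ[ℂ] V) (φ : D →ₗ[ℂ] W) (h : ∀ d, e d = 0 → φ d = 0) :
    ∃ L : V →ₗ[ℂ] W, ∀ d, L (e d) = φ d := by
  obtain ⟨g, hg⟩ := e.rangeRestrict.exists_rightInverse_of_surjective e.range_rangeRestrict
  obtain ⟨L, hL⟩ := (φ ∘ₗ g).exists_extend
  refine ⟨L, fun d => (DFunLike.congr_fun hL (e.rangeRestrict d)).trans ?_⟩
  rw [LinearMap.comp_apply, ← sub_eq_zero, ← map_sub]
  refine h _ ?_
  rw [map_sub, sub_eq_zero]
  exact congrArg Subtype.val (DFunLike.congr_fun hg (e.rangeRestrict d))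

theorem fib_le {B : Type*} [CStarAlgebra B] (α β : DD p q →⋆ₐ[ℂ] B)
    (hc : ∀ f g, Commute (α f) (β g)) {s t : I} (hs : α (DD.rt 1) = algebraMap ℂ B (s : ℝ))
    (ht : β (DD.rt 1) = algebraMap ℂ B (t : ℝ)) {n : ℕ} (f g : Fin n → DD p q) :
    ‖∑ i, α (f i) * β (g i)‖ ≤ ‖∑ i, kl _ _ (DD.val (f i) s) * kr _ _ (DD.val (g i) t)‖ := by
  obtain ⟨L₁, h₁⟩ := exists_lin (DD.ev s).toLinearMap α.toLinearMap fun d => DD.kill α hs
  obtain ⟨L₂, h₂⟩ := exists_lin (DD.ev t).toLinearMap β.toLinearMap fun d => DD.kill β ht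
  let θ₁ := ((kl _ (Fin p × Fin q)).comp (DD.ev s)).prod α
  let θ₂ := ((kr (Fin p × Fin q) _).comp (DD.ev t)).prod β
  let G := (StarAlgebra.adjoin ℂ (Set.range θ₁ ∪ Set.range θ₂)).topologicalClosure
  have : IsClosed (G : Set (Mat2 p q × B)) := StarSubalgebra.isClosed_topologicalClosure _
  have hG : ∀ x ∈ G, x.2 = tens L₁ L₂ x.1 := fun x hx =>
    closure_minimal (t := {x : Mat2 p q × B | x.2 = tens L₁ L₂ x.1}) (fun x hx => by
      obtain ⟨n, f, g, rfl⟩ := exists_sum_of_adjoin θ₁ θ₂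
        (fun a b => Prod.ext (kl_comm_kr _ _).eq (hc a b).eq) hx
      simp only [Set.mem_ofPred_eq, Prod.snd_sum, Prod.fst_sum, map_sum]
      refine Finset.sum_congr rfl fun i _ => ?_
      change α _ * β _ = tens L₁ L₂ (kl _ _ _ * kr _ _ _)
      rw [kl_mul_kr, tens_kron]
      exact congrArg₂ _ (h₁ _).symm (h₂ _).symm)
      (isClosed_eq continuous_snd
        ((tens L₁ L₂).continuous_of_finiteDimensional.comp continuous_fst)) hx
  let F : G →⋆ₐ[ℂ] Mat2 p q := (StarAlgHom.fst ℂ _ B).comp G.subtype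
  have hi : Function.Injective F := (injective_iff_map_eq_zero F).2 fun x hx => by
    have h1 : x.1.1 = 0 := hx
    exact Subtype.ext (Prod.ext h1 (by rw [hG x x.2, h1, map_zero]; rfl))
  have hm : ∑ i, θ₁ (f i) * θ₂ (g i) ∈ G := StarSubalgebra.le_topologicalClosure _
    (sum_mem fun i _ => mul_mem (StarAlgebra.subset_adjoin ℂ _ (Or.inl ⟨_, rfl⟩))
      (StarAlgebra.subset_adjoin ℂ _ (Or.inr ⟨_, rfl⟩)))
  have := (norm_snd_le (∑ i, θ₁ (f i) * θ₂ (g i))).trans_eq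
    (NonUnitalStarAlgHom.norm_map F hi ⟨_, hm⟩).symm
  simpa [F, Prod.snd_sum, Prod.fst_sum, θ₁, θ₂] using this

theorem mem_centr {E : Type*} [CStarAlgebra E] {S : Set E} (hS : ∀ s ∈ S, IsSelfAdjoint s) {x : E} :
    x ∈ StarSubalgebra.centralizer ℂ S ↔ ∀ s ∈ S, Commute s x := by
  rw [StarSubalgebra.mem_centralizer_iff]
  exact forall₂_congr fun s hs => by simp [(hS s hs).star_eq, Commute, SemiconjBy]

theorem fiber' {E : Type u} [CStarAlgebra E] [Nontrivial E] (α β : DD p q →⋆ₐ[ℂ] E)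
    (hc : ∀ f g, Commute (α f) (β g)) {n : ℕ} (f g : Fin n → DD p q) :
    ∃ (B : Type u) (_ : CStarAlgebra B) (α' β' : DD p q →⋆ₐ[ℂ] B) (s : I),
      (∀ f g, Commute (α' f) (β' g)) ∧ α' (DD.rt 1) = algebraMap ℂ B (s : ℝ) ∧
      (∀ c, β (DD.rt 1) = algebraMap ℂ E c → β' (DD.rt 1) = algebraMap ℂ B c) ∧
      ‖∑ i, α (f i) * β (g i)‖ ≤ ‖∑ i, α' (f i) * β' (g i)‖ := by
  let F := StarSubalgebra.centralizer ℂ {α (DD.rt 1)}
  have hF : ∀ x, x ∈ F ↔ Commute (α (DD.rt 1)) x := fun x =>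
    (mem_centr (by simpa using DD.X_sa.map α)).trans (by simp)
  have : IsClosed (F : Set E) := Set.isClosed_centralizer _
  let α₁ := α.codRestrict F fun a => (hF _).2 ((DD.X_central a).map α)
  let β₁ := β.codRestrict F fun a => (hF _).2 (hc _ a)
  obtain ⟨H, _, _, _, ρ, s, hs, hn⟩ := fiber (α₁ (DD.rt 1)) (∑ k, α₁ (f k) * β₁ (g k))
    (DD.X_sa.map α₁) (fun x => Subtype.ext ((hF _).1 x.2)) ((hom_le α₁ _).trans DD.X_le.1)
    (by rw [← map_one α₁, ← map_sub]; exact (hom_le α₁ _).trans DD.X_le.2)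
  refine ⟨_, inferInstance, ρ.comp α₁, ρ.comp β₁, s,
    fun a b => Commute.map (show Commute (α₁ a) (β₁ b) from Subtype.ext (hc a b)) ρ, hs,
    fun c h => ?_, le_of_eq_of_le ?_ (hn.trans_eq (by simp))⟩
  · exact (congrArg ρ (show β₁ _ = algebraMap ℂ F c from Subtype.ext h)).trans (ρ.commutes c)
  · rw [← NonUnitalStarAlgHom.norm_map F.subtype Subtype.val_injective]
    simp [α₁, β₁]

theorem sq_le {E : Type u} [CStarAlgebra E] (α β : DD p q →⋆ₐ[ℂ] E)
    (hc : ∀ f g, Commute (α f) (β g)) {n : ℕ} (f g : Fin n → DD p q) :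
    ‖∑ i, α (f i) * β (g i)‖ ≤
      ‖∑ i, onSq (kl _ _) .fst (f i) * onSq (kr _ _) .snd (g i)‖ := by
  rcases subsingleton_or_nontrivial E with _ | _
  · rw [Subsingleton.elim (∑ k, _) 0, norm_zero]; exact norm_nonneg _
  obtain ⟨B, _, α₁, β₁, s, c₁, hs, -, n₁⟩ := fiber' α β hc f g
  refine n₁.trans ?_
  rcases subsingleton_or_nontrivial B with _ | _
  · rw [Subsingleton.elim (∑ k, _) 0, norm_zero]; exact norm_nonneg _
  obtain ⟨B', _, β₂, α₂, t, c₂, ht, hs', n₂⟩ := fiber' β₁ α₁ (fun a b => (c₁ b a).symm) g f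
  simp only [(c₂ _ _).eq, ← (c₁ _ _).eq] at n₂
  refine n₂.trans ((fib_le α₂ β₂ (fun a b => (c₂ b a).symm) (hs' _ hs) ht f g).trans ?_)
  refine le_of_eq_of_le ?_ (ContinuousMap.norm_coe_le_norm _ (s, t))
  simp [ContinuousMap.coe_sum]

theorem mem_closure_of_fibres (v : C(I × I, Mat2 p q))
    (S : StarSubalgebra ℂ C(I × I, Mat2 p q)) (h1 : ∀ f, onSq (kl _ _) .fst f ∈ S)
    (h2 : ∀ f, onSq (kr _ _) .snd f ∈ S) (h : ∀ z, ∃ a ∈ S, a z = v z) :
    v ∈ S.topologicalClosure := by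
  let sc : C(I × I, ℝ) →ₐ[ℝ] C(I × I, Mat2 p q) :=
    AlgHom.compLeftContinuous ℝ (Algebra.ofId ℝ (Mat2 p q)) (continuous_algebraMap _ _)
  have csc : Continuous sc := ContinuousMap.continuous_postcomp ⟨_, continuous_algebraMap ℝ _⟩
  have hsc : ∀ u z, sc u z = (u z : ℂ) • (1 : Mat2 p q) := fun u z =>
    Algebra.algebraMap_eq_smul_one (u z)
  have hle := S.le_topologicalClosure
  have hcl := S.isClosed_topologicalClosure
  let T := (S.topologicalClosure.toSubalgebra.restrictScalars ℝ).comap sc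
  have hT : ∀ u, sc u ∈ S.topologicalClosure := fun u => by
    have h3 : T.SeparatesPoints := fun x y hxy => by
      by_cases e : x.1 = y.1
      · refine ⟨_, ⟨tX.comp .snd, hle ?_, rfl⟩, fun h => hxy (Prod.ext e (Subtype.ext h))⟩
        convert h2 (DD.rt 1)
        ext1 z
        simp [hsc, kl, kr, Matrix.smul_kronecker, Matrix.kronecker_smul]
      · refine ⟨_, ⟨tX.comp .fst, hle ?_, rfl⟩, fun h => e (Subtype.ext h)⟩
        convert h1 (DD.rt 1)
        ext1 z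
        simp [hsc, kl, kr, Matrix.smul_kronecker, Matrix.kronecker_smul]
    have h4 : u ∈ T.topologicalClosure :=
      ContinuousMap.continuousMap_mem_subalgebra_closure_of_separatesPoints T h3 u
    exact closure_minimal (fun _ h => h) (hcl.preimage csc) h4
  refine closure_minimal (fun _ h => h) hcl (Metric.mem_closure_iff.2 fun ε hε => ?_)
  choose a ha hv using h
  let u : I × I → C(I × I, ℝ) := fun z => ⟨fun y => max 0 (ε / 2 - ‖a z y - v y‖), by fun_prop⟩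
  have u0 : ∀ z y, 0 ≤ u z y := fun z y => le_max_left _ _
  obtain ⟨P, hP⟩ := isCompact_univ.elim_finite_subcover (fun z => {y | 0 < u z y})
    (fun z => isOpen_lt continuous_const (u z).continuous)
    fun z _ => Set.mem_iUnion.2 ⟨z, by simpa [u, hv]⟩
  have s0 : ∀ y, 0 < ∑ z ∈ P, u z y := fun y => by
    obtain ⟨z, hz, hy⟩ := Set.mem_iUnion₂.1 (hP (Set.mem_univ y))
    exact Finset.sum_pos' (fun z _ => u0 z y) ⟨z, hz, hy⟩
  let r : C(I × I, ℝ) := ⟨fun y => (∑ z ∈ P, u z y)⁻¹, Continuous.inv₀ (by fun_prop) fun y => (s0 y).ne'⟩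
  refine ⟨∑ z ∈ P, sc (r * u z) * a z, sum_mem fun z _ => mul_mem (hT _) (hle (ha z)), ?_⟩
  rw [dist_comm, dist_eq_norm]
  refine ((ContinuousMap.norm_le _ (half_pos hε).le).2 fun y => ?_).trans_lt (half_lt_self hε)
  have e1 : ∑ z ∈ P, r y * u z y = 1 := by
    rw [← Finset.mul_sum]; exact inv_mul_cancel₀ (s0 y).ne'
  have e2 : (∑ z ∈ P, sc (r * u z) * a z - v) y = ∑ z ∈ P, (r y * u z y) • (a z y - v y) := by
    simp only [smul_sub, Finset.sum_sub_distrib, ← Finset.sum_smul, e1, one_smul]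
    simp [hsc, ContinuousMap.coe_sum, mul_smul, smul_comm (r y)]
  rw [e2, ← one_mul (ε / 2), ← e1, Finset.sum_mul]
  refine norm_sum_le_of_le _ fun z _ => ?_
  have r0 : 0 ≤ r y := (inv_pos.2 (s0 y)).le
  rw [norm_smul, Real.norm_of_nonneg (mul_nonneg r0 (u0 z y)), mul_assoc, mul_assoc]
  refine mul_le_mul_of_nonneg_left ?_ r0
  rcases le_total (ε / 2 - ‖a z y - v y‖) 0 with e | e
  · simp [u, max_eq_left e]
  · exact mul_le_mul_of_nonneg_left (by linarith) (u0 z y)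

end Vale.Agent.P101
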