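import Vale.Agent.P101.Cov

/-! The sign lemma for a prime commuting pair. -/

namespace Vale.Agent.P101

variable {Q : Type*} [CStarAlgebra Q] [PartialOrder Q] [StarOrderedRing Q]

/-- A prime commuting pair of subalgebras. -/
structure Pair (P R : StarSubalgebra ℂ Q) : Prop where
  posP : ∀ x ∈ P, IsSelfAdjoint x → x⁺ ∈ P
  posR : ∀ x ∈ R, IsSelfAdjoint x → x⁺ ∈ R
  comm : ∀ a ∈ P, ∀ b ∈ R, Commute a b
  prime : ∀ a ∈ P, ∀ b ∈ R, a * b = 0 → a = 0 ∨ b = 0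

/-- Both `‖x‖` and `-‖x‖` are spectral values. -/
structure Sym (x : Q) : Prop where
  sa : IsSelfAdjoint x
  pos : ∀ t : ℝ, 0 ≤ t → t < ‖x‖ → ¬ x ≤ t • (1 : Q)
  neg : ∀ t : ℝ, 0 ≤ t → t < ‖x‖ → ¬ -x ≤ t • (1 : Q)

omit [StarOrderedRing Q] in
theorem Sym.neg' {x : Q} (h : Sym x) : Sym (-x) :=
  ⟨h.sa.neg, by simpa using h.neg, by simpa using h.pos⟩

omit [PartialOrder Q] [StarOrderedRing Q] in
theorem Pair.symm {P R : StarSubalgebra ℂ Q} (h : Pair P R) : Pair R P :=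
  ⟨h.posR, h.posP, fun a ha b hb => (h.comm b hb a ha).symm, fun a ha b hb e =>
    (h.prime b hb a ha (by rw [(h.comm b hb a ha).eq, e])).symm⟩

omit [PartialOrder Q] [StarOrderedRing Q] in
theorem rsm {P : StarSubalgebra ℂ Q} (t : ℝ) {x : Q} (hx : x ∈ P) : t • x ∈ P := by
  rw [← Complex.coe_smul]; exact SMulMemClass.smul_mem _ hx

theorem le_norm_smul {x : Q} (hx : IsSelfAdjoint x) : x ≤ ‖x‖ • (1 : Q) := by
  rw [← Algebra.algebraMap_eq_smul_one]; exact hx.le_algebraMap_norm_self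

theorem Pair.cancel {P R : StarSubalgebra ℂ Q} (h : Pair P R) {T m : Q} (hT : T ∈ P)
    (hs : IsSelfAdjoint T) (hm : m ∈ R) (h0 : 0 ≤ m) (hne : m ≠ 0) (h1 : 0 ≤ T * m) : 0 ≤ T := by
  have hn : T⁻ ∈ P := by rw [← CFC.posPart_neg]; exact h.posP _ (neg_mem hT) hs.neg
  have n0 := CFC.negPart_nonneg T
  have ns : IsSelfAdjoint T⁻ := .of_nonneg n0
  have hn3 : T⁻ * T⁻ * T⁻ ∈ P := mul_mem (mul_mem hn hn) hn
  have e : T⁻ * (T * m) * T⁻ = -(T⁻ * T⁻ * T⁻ * m) := by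
    nth_rw 2 [← CFC.posPart_sub_negPart T hs]
    rw [mul_assoc, mul_assoc, ← (h.comm _ hn _ hm).eq, sub_mul, mul_sub, ← mul_assoc,
      CFC.negPart_mul_posPart]
    simp [mul_assoc]
  have e1 := ns.conjugate_nonneg h1
  rw [e, neg_nonneg] at e1
  have e2 := Commute.mul_nonneg (ns.conjugate_nonneg n0) h0 (h.comm _ hn3 _ hm)
  rw [← CFC.negPart_eq_zero_iff T hs]
  exact sa_cube_zero ns ((h.prime _ hn3 _ hm (le_antisymm e1 e2)).resolve_right hne)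

theorem peak {P : StarSubalgebra ℂ Q} (hP : ∀ x ∈ P, IsSelfAdjoint x → x⁺ ∈ P) {x : Q} (hx : x ∈ P)
    (hs : IsSelfAdjoint x) {t : ℝ} (h : ¬ x ≤ t • (1 : Q)) :
    ∃ p ∈ P, IsSelfAdjoint p ∧ p * p ≠ 0 ∧ t • (p * p) ≤ p * x * p := by
  have hy : IsSelfAdjoint (x - t • (1 : Q)) :=
    hs.sub ((IsSelfAdjoint.all t).smul (IsSelfAdjoint.one Q))
  set y := x - t • (1 : Q) with hy'
  have p0 := CFC.posPart_nonneg y
  have ps : IsSelfAdjoint y⁺ := .of_nonneg p0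
  refine ⟨y⁺, hP _ (sub_mem hx (rsm t (one_mem P))) hy, ps, fun e => h ?_, ?_⟩
  · rw [← sub_nonpos, ← CFC.posPart_eq_zero_iff _ hy]; exact sa_sq_zero ps e
  · have e : y⁺ * y * y⁺ = y⁺ * y⁺ * y⁺ := by
      nth_rw 2 [← CFC.posPart_sub_negPart y hy]
      rw [mul_sub, CFC.posPart_mul_negPart, sub_zero]
    have := ps.conjugate_nonneg p0
    rw [← e] at this
    nth_rw 2 [hy'] at this
    simpa [mul_sub, sub_mul] using this

theorem Pair.l3 {P R : StarSubalgebra ℂ Q} (h : Pair P R) {c m ρ : Q} (hc : c ∈ P) (hm : m ∈ P)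
    (hρ : ρ ∈ R) (cs : IsSelfAdjoint c) (m0 : 0 ≤ m) {S η : ℝ} (hS : 0 ≤ S) (hη : 0 < η)
    (h1 : 0 ≤ c + S • m) (sρ : Sym ρ) (h2 : 0 ≤ c * ρ + η • m) :
    0 ≤ ‖ρ‖ • c + (η * (1 + S)) • m := by
  rcases le_or_gt ‖ρ‖ η with e | e
  · have := add_nonneg (smul_nonneg (norm_nonneg ρ) h1)
      (smul_nonneg (show 0 ≤ η * (1 + S) - ‖ρ‖ * S by nlinarith) m0)
    convert this using 1; module
  obtain ⟨r, hr, rs, rne, hle⟩ := peak h.posR hρ sρ.sa (sρ.pos (‖ρ‖ - η) (by linarith) (by linarith))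
  have hr2 : r * r ∈ R := mul_mem hr hr
  have hrr : r * ρ * r ∈ R := mul_mem (mul_mem hr hρ) hr
  have ms : IsSelfAdjoint m := .of_nonneg m0
  refine h.cancel (add_mem (rsm _ hc) (rsm _ hm))
    (((IsSelfAdjoint.all _).smul cs).add ((IsSelfAdjoint.all _).smul ms)) hr2 rs.mul_self_nonneg
    rne ?_
  have a1 : 0 ≤ ‖ρ‖ • (r * r) - r * ρ * r := by
    simpa using rs.conjugate_le_conjugate (le_norm_smul sρ.sa)
  have a2 := Commute.mul_nonneg h1 a1
    (h.comm _ (add_mem hc (rsm _ hm)) _ (sub_mem (rsm _ hr2) hrr))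
  have a3 := Commute.mul_nonneg (smul_nonneg hS m0) (sub_nonneg.2 hle)
    (h.comm _ (rsm _ hm) _ (sub_mem hrr (rsm _ hr2)))
  have a4 := rs.conjugate_nonneg h2
  have a5 : r * (c * ρ + η • m) * r = c * (r * ρ * r) + η • (m * (r * r)) := by
    rw [mul_add, add_mul, ← mul_assoc, ← (h.comm c hc r hr).eq, mul_smul_comm, smul_mul_assoc,
      ← (h.comm m hm r hr).eq]
    simp only [mul_assoc]
  rw [a5] at a4
  convert add_nonneg (add_nonneg a2 a3) a4 using 1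
  simp only [add_mul, mul_sub, smul_mul_assoc, mul_smul_comm]
  module

theorem Pair.l4 {P R : StarSubalgebra ℂ Q} (h : Pair P R) {α σ β ρ : Q} (hα : α ∈ P) (hσ : σ ∈ P)
    (hβ : β ∈ R) (hρ : ρ ∈ R) (sα : Sym α) (sσ : IsSelfAdjoint σ) (sβ : Sym β) (sρ : Sym ρ)
    (h0 : 0 ≤ α + β + σ * ρ) (hle : ‖β‖ ≤ ‖α‖) : α = 0 := by
  by_contra hne
  have a0 : 0 < ‖α‖ := norm_pos_iff.2 hne
  have hS := norm_nonneg σ
  obtain ⟨η, hη, hη'⟩ : ∃ η : ℝ, 0 < η ∧ η * (2 + ‖σ‖) < ‖α‖ :=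
    ⟨‖α‖ / (3 + ‖σ‖), by positivity, by
      rw [div_mul_eq_mul_div, div_lt_iff₀ (by positivity)]; nlinarith⟩
  obtain ⟨p, hp, ps, pne, hpk⟩ := peak h.posP (neg_mem hα) sα.sa.neg
    (sα.neg (‖α‖ - η) (by nlinarith) (by linarith))
  set m := p * p with hm'
  set c := p * σ * p with hc'
  have hm : m ∈ P := mul_mem hp hp
  have hc : c ∈ P := mul_mem (mul_mem hp hσ) hp
  have m0 : 0 ≤ m := ps.mul_self_nonneg
  have cs : IsSelfAdjoint c := by simp [IsSelfAdjoint, hc', ps.star_eq, sσ.star_eq, mul_assoc]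
  have b1 : 0 ≤ -c + ‖σ‖ • m := by
    have := ps.conjugate_le_conjugate (le_norm_smul sσ)
    rw [neg_add_eq_sub, sub_nonneg]; simpa using this
  have b2 : 0 ≤ c + ‖σ‖ • m := by
    have := ps.conjugate_le_conjugate (le_norm_smul sσ.neg)
    rw [← neg_le_iff_add_nonneg']; simpa using this
  have b3 : 0 ≤ c * ρ + β * m - (‖α‖ - η) • m := by
    have := add_nonneg (ps.conjugate_nonneg h0) (sub_nonneg.2 hpk)
    convert this using 1
    rw [mul_add, mul_add, add_mul, add_mul, (h.comm p hp β hβ).eq, ← mul_assoc p σ,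
      mul_assoc _ ρ, ← (h.comm p hp ρ hρ).eq, hc', hm']
    noncomm_ring
  have b4 : 0 ≤ c * ρ + η • m := by
    have := Commute.mul_nonneg (sub_nonneg.2 (le_norm_smul sβ.sa)) m0
      (h.comm _ hm _ (sub_mem (rsm _ (one_mem R)) hβ)).symm
    convert add_nonneg (add_nonneg b3 this) (smul_nonneg (sub_nonneg.2 hle) m0) using 1
    simp only [sub_mul, smul_mul_assoc, one_mul]; module
  have c1 := h.l3 hc hm hρ cs m0 hS hη b2 sρ b4
  have c2 := h.l3 (neg_mem hc) hm (neg_mem hρ) cs.neg m0 hS hη b1 sρ.neg' (by simpa using b4)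
  rw [norm_neg] at c2
  have c3 : 0 ≤ (η * (1 + ‖σ‖)) • m - c * ρ := by
    rcases eq_or_ne ρ 0 with rfl | hr
    · simpa using smul_nonneg (by positivity) m0
    have r0 : 0 < ‖ρ‖ := norm_pos_iff.2 hr
    have d1 := Commute.mul_nonneg c1 (sub_nonneg.2 (le_norm_smul sρ.sa))
      (h.comm _ (add_mem (rsm _ hc) (rsm _ hm)) _ (sub_mem (rsm _ (one_mem R)) hρ))
    have d2 := Commute.mul_nonneg c2 (sub_nonneg.2 (le_norm_smul sρ.sa.neg))
      (h.comm _ (add_mem (rsm _ (neg_mem hc)) (rsm _ hm)) _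
        (sub_mem (rsm _ (one_mem R)) (neg_mem hρ)))
    have := smul_nonneg (show 0 ≤ (2 * ‖ρ‖)⁻¹ by positivity) (add_nonneg d1 d2)
    convert this using 1
    simp only [add_mul, mul_sub, smul_mul_assoc, mul_smul_comm, mul_one, norm_neg, mul_neg, neg_mul,
      smul_neg]
    match_scalars <;> field_simp <;> ring
  set δ := ‖α‖ - η * (2 + ‖σ‖) with hδ
  have c4 : 0 ≤ (β - δ • 1) * m := by
    convert add_nonneg b3 c3 using 1
    simp only [sub_mul, smul_mul_assoc, one_mul, hδ]; module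
  have c5 := h.symm.cancel (sub_mem hβ (rsm _ (one_mem R)))
    (sβ.sa.sub ((IsSelfAdjoint.all _).smul (IsSelfAdjoint.one Q))) hm m0 pne c4
  have δ0 : 0 < δ := by linarith
  have c6 : 0 ≤ β := (smul_nonneg δ0.le zero_le_one).trans (sub_nonneg.1 c5)
  rcases eq_or_ne β 0 with rfl | hb
  · refine pne (le_antisymm ?_ m0)
    have := smul_nonneg (inv_pos.2 δ0).le c4
    simpa [smul_smul, inv_mul_cancel₀ δ0.ne'] using this
  · exact sβ.neg 0 le_rfl (norm_pos_iff.2 hb) (by simpa using c6)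

theorem Pair.key {P R : StarSubalgebra ℂ Q} (h : Pair P R) {α σ β ρ : Q} (hα : α ∈ P) (hσ : σ ∈ P)
    (hβ : β ∈ R) (hρ : ρ ∈ R) (sα : Sym α) (sσ : Sym σ) (sβ : Sym β) (sρ : Sym ρ)
    (h0 : 0 ≤ α + β + σ * ρ) : α = 0 ∧ β = 0 ∧ (σ = 0 ∨ ρ = 0) := by
  have e : α = 0 ∧ β = 0 := by
    rcases le_total ‖β‖ ‖α‖ with e | e
    · have := h.l4 hα hσ hβ hρ sα sσ.sa sβ sρ h0 e
      exact ⟨this, by simpa [this] using e⟩
    · have := h.symm.l4 hβ hρ hα hσ sβ sρ.sa sα sσ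
        (by rwa [add_comm β, ← (h.comm σ hσ ρ hρ).eq]) e
      exact ⟨by simpa [this] using e, this⟩
  refine ⟨e.1, e.2, ?_⟩
  by_contra! hne
  rw [e.1, e.2, add_zero, zero_add] at h0
  have hp := h.posP σ hσ sσ.sa
  have p0 := CFC.posPart_nonneg σ
  have ps : IsSelfAdjoint σ⁺ := .of_nonneg p0
  have e1 : σ⁺ * (σ * ρ) * σ⁺ = ρ * (σ⁺ * σ⁺ * σ⁺) := by
    nth_rw 2 [← CFC.posPart_sub_negPart σ sσ.sa]
    rw [← mul_assoc, mul_sub, CFC.posPart_mul_negPart, sub_zero,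
      (h.comm _ (mul_mem hp hp) ρ hρ).eq, mul_assoc]
  have e2 := h.symm.cancel hρ sρ.sa (mul_mem (mul_mem hp hp) hp) (ps.conjugate_nonneg p0)
    (fun e => sσ.pos 0 le_rfl (norm_pos_iff.2 hne.1) (by
      rw [zero_smul, ← CFC.posPart_eq_zero_iff _ sσ.sa]; exact sa_cube_zero ps e))
    (e1 ▸ ps.conjugate_nonneg h0)
  exact sρ.neg 0 le_rfl (norm_pos_iff.2 hne.2) (by simpa using e2)

theorem sym_of {x v : Q} (hx : IsSelfAdjoint x) (hv : IsSelfAdjoint v) (h1 : v * x = -(x * v))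
    (h2 : v * v = x * x) : Sym x := by
  have key : ∀ x : Q, IsSelfAdjoint x → v * x = -(x * v) → v * v = x * x →
      ∀ t : ℝ, 0 ≤ t → t < ‖x‖ → ¬ x ≤ t • (1 : Q) := fun x hx h1 h2 t t0 ht hle => by
    have e := hv.conjugate_nonneg (sub_nonneg.2 hle)
    have e' : v * (t • (1 : Q) - x) * v = cfc (fun l : ℝ => t * (l * l) + l * (l * l)) x := by
      rw [cfc_add .., cfc_const_mul .., cfc_mul .., cfc_mul .., cfc_mul .., cfc_id' ℝ x, mul_sub,
        sub_mul, h1, neg_mul, mul_assoc x, h2, mul_smul_comm, smul_mul_assoc, mul_one, h2,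
        sub_neg_eq_add]
    rw [e', cfc_nonneg_iff ..] at e
    rw [← Algebra.algebraMap_eq_smul_one, le_algebraMap_iff_spectrum_le hx] at hle
    refine ht.not_ge ?_
    rw [← cfc_id' ℝ x]
    refine norm_cfc_le t0 fun l hl => abs_le.2 ⟨?_, hle l hl⟩
    by_contra! hlt
    have := e l hl
    nlinarith [mul_pos (show 0 < -t - l by linarith) (mul_pos_of_neg_of_neg
      (show l < 0 by linarith) (show l < 0 by linarith))]
  exact ⟨hx, key x hx h1 h2, by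
    simpa using key (-x) hx.neg (by simp [h1]) (by simp [h2])⟩

end Vale.Agent.P101
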