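import Vale.Agent.P101.Comb
import Vale.Agent.P101.Key
import Vale.Agent.P101.Fresh

/-! Full order zero maps from matrix algebras. -/

open TopologicalSpace

namespace Vale.Agent.P101

universe u

/-- Two by two matrices. -/
abbrev M2 := Matrix (Fin 2) (Fin 2) ℂ

/-- `N` order zero maps whose units generate the unit ideal. -/
def CovOZ (B : Type u) [CStarAlgebra B] (N : ℕ) : Prop :=
  ∃ φ : Fin N → M2 →ₗ[ℂ] B, (∀ j, IsOZ (φ j)) ∧ Cov (Set.range fun j => φ j 1)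

theorem covOZ_exists {B : Type u} [CStarAlgebra B] (h : IsEmpty (B →⋆ₐ[ℂ] ℂ)) :
    ∃ N, CovOZ B N := by
  obtain ⟨t, ht, hts, hc⟩ := (cov_sq_zero h).finite
  obtain ⟨N, f, -, rfl⟩ := ht.fin_param
  choose φ h1 h2 using fun j => exists_oz_of_sq (hts ⟨j, rfl⟩)
  refine ⟨N, φ, h1, cov_of_prime fun Q _ _ π _ hk => hc.ne π ?_⟩
  rintro _ ⟨j, rfl⟩
  let _ := CStarAlgebra.spectralOrder Q
  have := CStarAlgebra.spectralOrderedRing Q
  have e := hk _ ⟨j, rfl⟩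
  simp only [h2, map_add, map_mul, map_star] at e
  rw [← CStarRing.star_mul_self_eq_zero_iff]
  exact ((add_eq_zero_iff_of_nonneg (mul_star_self_nonneg _) (star_mul_self_nonneg _)).1 e).2

/-- The diagonal symmetry. -/
def dM : M2 := !![1, 0; 0, -1]

theorem dM_ne : dM ≠ 0 := fun h => by simpa [dM] using congrFun (congrFun h 0) 0

theorem dM_sa : IsSelfAdjoint dM := by
  ext i j; fin_cases i <;> fin_cases j <;> simp [dM]

theorem IsOZ.sym {Q : Type*} [CStarAlgebra Q] [PartialOrder Q] [StarOrderedRing Q]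
    {φ : M2 →ₗ[ℂ] Q} (h : IsOZ φ) : Sym (φ dM) := by
  refine sym_of (v := φ !![0, 1; 1, 0]) (h.sa dM_sa) (h.sa ?_) ?_ ?_
  · ext i j; fin_cases i <;> fin_cases j <;> simp
  · rw [h.mul, h.mul dM, ← mul_neg, ← map_neg]; congr 2
    ext i j; fin_cases i <;> fin_cases j <;> simp [dM]
  · rw [h.mul, h.mul dM]; congr 2
    ext i j; fin_cases i <;> fin_cases j <;> simp [dM]

theorem pair_range {D Q : Type*} [CStarAlgebra D] [CStarAlgebra Q] (π₁ π₂ : D →⋆ₐ[ℂ] Q)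
    (hc : ∀ a b, Commute (π₁ a) (π₂ b))
    (hp : ∀ a b, π₁ a * π₂ b = 0 → π₁ a = 0 ∨ π₂ b = 0) : Pair π₁.range π₂.range := by
  have key : ∀ π : D →⋆ₐ[ℂ] Q, ∀ x ∈ π.range, IsSelfAdjoint x → x⁺ ∈ π.range := by
    rintro π _ ⟨a, rfl⟩ ha
    refine ⟨(realPart a : D)⁺, ?_⟩
    change π _ = (π a)⁺
    have ha' : star (π a) = π a := ha
    rw [map_posPart π (realPart a).2, realPart_apply_coe, ← Complex.coe_smul, map_smul, map_add,
      map_star, ha', ← two_smul ℂ, smul_smul]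
    simp
  refine ⟨key π₁, key π₂, ?_, ?_⟩
  · rintro _ ⟨a, rfl⟩ _ ⟨b, rfl⟩; exact hc a b
  · rintro _ ⟨a, rfl⟩ _ ⟨b, rfl⟩; exact hp a b

theorem covOZ_step {B : Type u} [CStarAlgebra B] (hB : Fresh B) {N : ℕ} (h : CovOZ B (N + 2)) :
    CovOZ B (N + 1) := by
  obtain ⟨φ₀, h0, hcov⟩ := h
  obtain ⟨D, hD, _, hS, hcD⟩ := hcov.sep (IsSeparable.iUnion fun j => isSeparable_lin (φ₀ j))
  choose φ hφ he using fun j => (h0 j).restrict D fun a => hS (Set.mem_iUnion.2 ⟨j, a, rfl⟩)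
  have hc : Cov (Set.range fun j => φ j 1) :=
    hcD.mono (by rintro d ⟨j, hj⟩; exact ⟨j, Subtype.ext ((he j 1).trans hj)⟩)
  have hne : ∀ (Q : Type u) [CStarAlgebra Q] [Nontrivial Q] (π : D →⋆ₐ[ℂ] Q), π (φ 0 1) = 0 →
      π (φ 1 1) = 0 → (∀ j : Fin N, π (φ j.succ.succ 1) = 0) → False := fun Q _ _ π a b c =>
    hc.ne π (by
      rintro _ ⟨j, rfl⟩
      induction j using Fin.cases with
      | zero => exact a
      | succ j =>
        induction j using Fin.cases with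
        | zero => exact b
        | succ j => exact c j)
  obtain ⟨θ₂, hθ₂⟩ := hB D D.subtype _ (isSeparable_hom D.subtype)
  obtain ⟨E, _, _, θ, i₁, i₂, hi, hpr⟩ := exists_join D.subtype θ₂ fun a b => (hθ₂ b _ ⟨a, rfl⟩).symm
  choose c hc1 hc2 using fun j : Fin N => combine' ((hφ j.succ.succ).map i₁)
    ((hφ j.succ.succ).map i₂) (fun a b => hi _ _)
  set s := i₁ (φ 0 dM) + i₂ (φ 1 dM) + i₁ (φ 1 dM) * i₂ (φ 0 dM) with hs
  have ss : IsSelfAdjoint s :=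
    ((((hφ 0).sa dM_sa).map i₁).add (((hφ 1).sa dM_sa).map i₂)).add
      (((((hφ 1).sa dM_sa).map i₁).commute_iff (((hφ 0).sa dM_sa).map i₂)).1 (hi _ _))
  have hcE : ∀ s' : E, s' = s ∨ s' = -s → Cov (insert s'⁺ (Set.range fun j => c j 1)) := by
    intro s' hs'
    refine cov_of_prime fun Q _ _ π hπ hk => ?_
    let _ := CStarAlgebra.spectralOrder Q
    have := CStarAlgebra.spectralOrderedRing Q
    have ss' : IsSelfAdjoint s' := by rcases hs' with rfl | rfl; exacts [ss, ss.neg]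
    have e := hk _ (Set.mem_insert _ _)
    rw [map_posPart π ss', CFC.posPart_eq_zero_iff _ (ss'.map π)] at e
    have hp := pair_range (π.comp i₁) (π.comp i₂) (fun a b => (hi a b).map π)
      (hpr Q π hπ)
    have o1 := fun j => (hφ j).map (π.comp i₁)
    have o2 := fun j => (hφ j).map (π.comp i₂)
    have k : π (i₁ (φ 0 dM)) = 0 ∧ π (i₂ (φ 1 dM)) = 0 ∧
        (π (i₁ (φ 1 dM)) = 0 ∨ π (i₂ (φ 0 dM)) = 0) := by
      rcases hs' with rfl | rfl
      · have := hp.key (neg_mem ⟨_, rfl⟩) (neg_mem ⟨_, rfl⟩) (neg_mem ⟨_, rfl⟩) ⟨_, rfl⟩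
          (o1 0).sym.neg' (o1 1).sym.neg' (o2 1).sym.neg' (o2 0).sym (by
            rw [← neg_nonneg, hs] at e
            convert e using 1
            simp only [map_add, map_mul, neg_mul, neg_add]; rfl)
        simpa using this
      · exact hp.key ⟨_, rfl⟩ ⟨_, rfl⟩ ⟨_, rfl⟩ ⟨_, rfl⟩ (o1 0).sym (o1 1).sym (o2 1).sym (o2 0).sym
          (by rw [map_neg, neg_nonpos, hs, map_add, map_add, map_mul] at e; exact e)
    have k' := fun j => hc2 j Q π (hk _ (Set.mem_insert_of_mem _ ⟨j, rfl⟩))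
    rcases k.2.2 with e | e
    · exact hne Q (π.comp i₁) ((o1 0).one_eq_zero dM_ne k.1) ((o1 1).one_eq_zero dM_ne e)
        fun j => (k' j).1
    · exact hne Q (π.comp i₂) ((o2 0).one_eq_zero dM_ne e) ((o2 1).one_eq_zero dM_ne k.2.1)
        fun j => (k' j).2
  obtain ⟨θ₃, hθ₃⟩ := hB D D.subtype _ (isSeparable_hom θ)
  have h3 : ∀ a b, Commute (θ a) (θ₃ b) := fun a b => (hθ₃ b _ ⟨a, rfl⟩).symm
  choose c' hc1' hc2' using fun j : Fin N => combine' ((hc1 j).map θ)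
    ((hφ j.succ.succ).map θ₃) (fun a b => h3 _ _)
  have z1 : θ s⁺ * θ (-s)⁺ = 0 := by
    rw [← map_mul, CFC.posPart_neg, CFC.posPart_mul_negPart, map_zero]
  have z2 : θ (-s)⁺ * θ s⁺ = 0 := by
    rw [← map_mul, CFC.posPart_neg, CFC.negPart_mul_posPart, map_zero]
  have sp : ∀ x : E, IsSelfAdjoint (θ x⁺) := fun x => IsSelfAdjoint.map (IsSelfAdjoint.cfcₙ (R := ℝ)) θ
  have zz : ∀ {a b : E}, θ a * θ b = 0 → ∀ x y, θ a * θ₃ x * (θ b * θ₃ y) = 0 := fun {a b} h x y => by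
    rw [mul_assoc, ← mul_assoc (θ₃ x), ← (h3 b x).eq, mul_assoc, ← mul_assoc, h, zero_mul]
  have hψ := (((hφ 0).map θ₃).scale (sp s) fun a => h3 _ _).add
    (((hφ 1).map θ₃).scale (sp (-s)) fun a => h3 _ _) (fun a b => zz z1 _ _) (fun a b => zz z2 _ _)
  refine ⟨Fin.cons _ c', Fin.cases hψ hc1', cov_of_prime fun Q _ _ π _ hk => ?_⟩
  have e : π (θ s⁺ * θ₃ (φ 0 1) + θ (-s)⁺ * θ₃ (φ 1 1)) = 0 := hk _ ⟨0, rfl⟩
  have k' := fun j => hc2' j Q π (hk _ ⟨j.succ, rfl⟩)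
  have kill : ∀ (s' : E) (j : Fin (N + 2)), s' = s ∨ s' = -s →
      π (θ s'⁺ * θ₃ (φ j 1) * (θ s'⁺ * θ₃ (φ j 1))) = 0 → π (θ₃ (φ j 1)) = 0 := by
    intro s' j hs' h
    refine (hcE s' hs').kill (π.comp θ) (fun d => (h3 d _).map π) ?_
    rintro _ (rfl | ⟨i, rfl⟩)
    · rw [map_mul] at h
      simpa using sa_sq_zero ((((sp s').commute_iff ((hφ j).sa1.map θ₃)).1 (h3 _ _)).map π) h
    · have : π (θ (c i 1)) = 0 := (k' i).1
      simp [this]
  refine hne Q (π.comp θ₃) (kill s 0 (Or.inl rfl) ?_) (kill (-s) 1 (Or.inr rfl) ?_) fun j => (k' j).2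
  · have := congrArg (π (θ s⁺ * θ₃ (φ 0 1)) * ·) e
    simpa only [← map_mul, mul_add, zz z1, add_zero, mul_zero] using this
  · have := congrArg (π (θ (-s)⁺ * θ₃ (φ 1 1)) * ·) e
    simpa only [← map_mul, mul_add, zz z2, zero_add, mul_zero] using this

/-- There is a full order zero map from `M_n`. -/
def FullOZ (B : Type u) [CStarAlgebra B] (n : Type) [Fintype n] [DecidableEq n] : Prop :=
  ∃ φ : Matrix n n ℂ →ₗ[ℂ] B, IsOZ φ ∧ Cov {φ 1}

theorem fullOZ_two {B : Type u} [CStarAlgebra B] (hB : Fresh B) (h : IsEmpty (B →⋆ₐ[ℂ] ℂ)) :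
    FullOZ B (Fin 2) := by
  obtain ⟨N, hN⟩ := covOZ_exists h
  have key : ∀ N, CovOZ B (N + 1) → CovOZ B 1 := fun N => by
    induction N with
    | zero => exact id
    | succ N ih => exact fun h => ih (covOZ_step hB h)
  have : CovOZ B 1 := by
    rcases N with _ | N
    · obtain ⟨φ, -, h⟩ := hN
      exact ⟨0, fun _ => ⟨by simp, by simp⟩, h.mono (by simp)⟩
    · exact key N hN
  obtain ⟨φ, h1, h2⟩ := this
  exact ⟨φ 0, h1 0, h2.mono (by rintro _ ⟨j, rfl⟩; rw [Subsingleton.elim j 0]; rfl)⟩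

theorem FullOZ.prod {B : Type u} [CStarAlgebra B] (hB : Fresh B) {m n : Type} [Fintype m]
    [DecidableEq m] [Fintype n] [DecidableEq n] (h1 : FullOZ B m) (h2 : FullOZ B n) :
    FullOZ B (m × n) := by
  obtain ⟨φ, hφ, c1⟩ := h1
  obtain ⟨ψ₀, hψ₀, c2⟩ := h2
  obtain ⟨D, hD, _, hS, hcD⟩ := c2.sep (isSeparable_lin ψ₀)
  obtain ⟨ψ, hψ, he⟩ := hψ₀.restrict D fun a => hS ⟨a, rfl⟩
  have hc : Cov {ψ 1} := hcD.mono fun d hd => Subtype.ext (hd.trans (he 1).symm)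
  obtain ⟨E, hE, _, hT, hcE⟩ := c1.sep (isSeparable_lin φ)
  obtain ⟨θ, hθ⟩ := hB D D.subtype _ (isSeparable_hom E.subtype)
  refine ⟨_, hφ.tens (hψ.map θ) fun a b => (hθ _ _ ⟨⟨_, hT ⟨a, rfl⟩⟩, rfl⟩).symm,
    cov_of_prime fun Q _ _ π _ hk => hc.ne (π.comp θ) ?_⟩
  rintro _ rfl
  refine hcE.kill (π.comp E.subtype) (fun d => (hθ _ _ ⟨d, rfl⟩).symm.map π) fun x hx => ?_
  have := hk _ rfl
  rw [tens_one, map_mul, ← show (x : B) = φ 1 from hx] at this
  exact this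

theorem FullOZ.corner {B : Type u} [CStarAlgebra B] {m n : Type} [Fintype m] [Nonempty m]
    [DecidableEq m] [Fintype n] [DecidableEq n] (e : m ↪ n) (h : FullOZ B n) : FullOZ B m := by
  obtain ⟨φ, hφ, c⟩ := h
  let E : Matrix n m ℂ := (1 : Matrix n n ℂ).submatrix id e
  have hE : E.conjTranspose * E = 1 := by
    ext i j; simp [E, Matrix.mul_apply, Matrix.one_apply, eq_comm]
  let g : Matrix m m ℂ →ₗ[ℂ] Matrix n n ℂ :=
    { toFun := fun a => E * a * E.conjTranspose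
      map_add' := fun a b => by rw [Matrix.mul_add, Matrix.add_mul]
      map_smul' := fun c a => by simp }
  have hg : ∀ a, g a = E * a * E.conjTranspose := fun _ => rfl
  obtain ⟨i⟩ := ‹Nonempty m›
  have : Nonempty n := ⟨e i⟩
  refine ⟨_, hφ.comp g (fun a => ?_) (fun a b => ?_), cov_of_prime fun Q _ _ π _ hk => c.ne π ?_⟩
  · simp [hg, Matrix.star_eq_conjTranspose, Matrix.mul_assoc]
  · simp only [hg, Matrix.mul_assoc]
    rw [← Matrix.mul_assoc E.conjTranspose, hE, Matrix.one_mul]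
  · rintro _ rfl
    refine (hφ.map π).one_eq_zero (a := g 1) (fun h => ?_) (hk _ rfl)
    have : E.conjTranspose * g 1 * E = 1 := by
      simp only [hg, Matrix.mul_one, ← Matrix.mul_assoc, hE, Matrix.one_mul]
    simp [h] at this

theorem fullOZ_all {B : Type u} [CStarAlgebra B] (hB : Fresh B) (h : IsEmpty (B →⋆ₐ[ℂ] ℂ))
    (k : ℕ) : FullOZ B (Fin (k + 1)) := by
  induction k with
  | zero => exact (fullOZ_two hB h).corner (Fin.castLEEmb (by norm_num))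
  | succ k ih =>
    obtain ⟨e⟩ := Function.Embedding.nonempty_of_card_le (α := Fin (k + 2))
      (β := Fin (k + 1) × Fin 2) (by simp; omega)
    exact (ih.prod hB (fullOZ_two hB h)).corner e

end Vale.Agent.P101
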