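import Mathlib

/-! States, the GNS construction, fibres over a central element. -/

open scoped InnerProductSpace ComplexOrder

namespace Vale.Agent.P101

universe u

theorem state_nonneg {B : Type*} [CStarAlgebra B] [PartialOrder B] [StarOrderedRing B]
    (g : B →L[ℂ] ℂ) (hgb : ∀ x, ‖g x‖ ≤ ‖x‖) (h7 : g 1 = 1) (x : B) (hx : 0 ≤ x) : 0 ≤ g x := by
  have : Nontrivial B := ⟨⟨1, 0, fun h => by simp [h] at h7⟩⟩
  have hsa : IsSelfAdjoint x := .of_nonneg hx
  have him : (g x).im = 0 := by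
    have key : ∀ t : ℝ, 2 * t * (g x).im ≤ ‖x‖ ^ 2 := by
      intro t
      have e1 : star (x + (t * Complex.I : ℂ) • (1 : B)) * (x + (t * Complex.I : ℂ) • 1)
          = x * x + ((t ^ 2 : ℝ) : ℂ) • 1 := by
        rw [star_add, hsa.star_eq, star_smul, star_one]
        simp only [add_mul, mul_add, smul_mul_assoc, mul_smul_comm, one_mul, mul_one, smul_add,
          smul_smul, star_mul', Complex.star_def, Complex.conj_ofReal, Complex.conj_I]
        have : (t * Complex.I * (t * -Complex.I) : ℂ) = ((t ^ 2 : ℝ) : ℂ) := by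
          push_cast
          linear_combination (-(t : ℂ) ^ 2) * Complex.I_mul_I
        rw [this]
        module
      have e2 : ‖x + (t * Complex.I : ℂ) • (1 : B)‖ ^ 2 ≤ ‖x‖ ^ 2 + t ^ 2 := by
        rw [sq, ← CStarRing.norm_star_mul_self, e1]
        refine (norm_add_le _ _).trans (add_le_add ((norm_mul_le _ _).trans_eq (sq _).symm) ?_)
        rw [norm_smul, norm_one, mul_one, Complex.norm_real, Real.norm_eq_abs,
          abs_of_nonneg (sq_nonneg t)]
      have e3 : (g (x + (t * Complex.I : ℂ) • (1 : B))).im = (g x).im + t := by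
        rw [map_add, map_smul, h7]; simp
      have e4 := (Complex.abs_im_le_norm _).trans (hgb (x + (t * Complex.I : ℂ) • (1 : B)))
      have e5 := pow_le_pow_left₀ (abs_nonneg _) e4 2
      rw [sq_abs, e3] at e5
      nlinarith [sq_nonneg (g x).im]
    by_contra hne
    have := key ((‖x‖ ^ 2 + 1) / (2 * (g x).im))
    rw [show 2 * ((‖x‖ ^ 2 + 1) / (2 * (g x).im)) * (g x).im = ‖x‖ ^ 2 + 1 by field_simp] at this
    linarith
  have hre : 0 ≤ (g x).re := by
    have e1 : ‖algebraMap ℝ B ‖x‖ - x‖ ≤ ‖x‖ := by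
      rw [CStarAlgebra.norm_le_iff_le_algebraMap _ (norm_nonneg _)
        (sub_nonneg.2 hsa.le_algebraMap_norm_self)]
      exact sub_le_self _ hx
    have e2 : (g (algebraMap ℝ B ‖x‖ - x)).re = ‖x‖ - (g x).re := by
      rw [map_sub, Algebra.algebraMap_eq_smul_one, ← Complex.coe_smul, map_smul, h7]
      simp
    have := (Complex.re_le_norm _).trans ((hgb _).trans e1)
    linarith
  exact Complex.nonneg_iff.2 ⟨hre, him.symm⟩

theorem exists_gns {B : Type u} [CStarAlgebra B] (g : B →L[ℂ] ℂ) (hgb : ∀ x, ‖g x‖ ≤ ‖x‖)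
    (h7 : g 1 = 1) :
    ∃ (H : Type u) (_ : NormedAddCommGroup H) (_ : InnerProductSpace ℂ H) (_ : CompleteSpace H)
      (π : B →⋆ₐ[ℂ] (H →L[ℂ] H)) (Ω : H), (∀ x y, ⟪π x Ω, π y Ω⟫_ℂ = g (star x * y)) ∧
      ∀ b, (∀ y, π b (π y Ω) = 0) → π b = 0 := by
  let _ := CStarAlgebra.spectralOrder B
  have := CStarAlgebra.spectralOrderedRing B
  let f : B →ₚ[ℂ] ℂ := PositiveLinearMap.mk₀ g.toLinearMap (state_nonneg g hgb h7)
  have key : ∀ y, f.gnsStarAlgHom y ((f.toPreGNS 1 : f.PreGNS) : f.GNS)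
      = ((f.toPreGNS y : f.PreGNS) : f.GNS) := fun y => by
    change f.gnsNonUnitalStarAlgHom y _ = _
    rw [f.gnsNonUnitalStarAlgHom_apply_coe]
    simp
  refine ⟨f.GNS, inferInstance, inferInstance, inferInstance, f.gnsStarAlgHom,
    ((f.toPreGNS 1 : f.PreGNS) : f.GNS), fun x y => ?_, fun b hb => ?_⟩
  · rw [key, key, UniformSpace.Completion.inner_coe, f.preGNS_inner_def]
    rfl
  · ext v
    induction v using UniformSpace.Completion.induction_on with
    | hp => exact isClosed_eq (by fun_prop) (by fun_prop)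
    | ih a =>
      have := hb (f.ofPreGNS a)
      rwa [key] at this

theorem exists_ext {D B : Type*} [AddCommGroup D] [Module ℂ D] [NormedAddCommGroup B]
    [NormedSpace ℂ B] (j : D →ₗ[ℂ] B) (g₀ : D →ₗ[ℂ] ℂ) (h : ∀ d, ‖g₀ d‖ ≤ ‖j d‖) :
    ∃ g : B →L[ℂ] ℂ, (∀ x, ‖g x‖ ≤ ‖x‖) ∧ ∀ d, g (j d) = g₀ d := by
  have hk : LinearMap.ker j ≤ LinearMap.ker g₀ := fun d hd => by
    have := h d
    rw [LinearMap.mem_ker.1 hd, norm_zero] at this
    exact norm_le_zero_iff.1 this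
  let f₀ : LinearMap.range j →ₗ[ℂ] ℂ :=
    (LinearMap.ker j).liftQ g₀ hk ∘ₗ j.quotKerEquivRange.symm.toLinearMap
  have hf₀ : ∀ d, f₀ ⟨j d, d, rfl⟩ = g₀ d := fun d => by
    have := j.quotKerEquivRange_symm_apply_image d ⟨d, rfl⟩
    simp only [f₀, LinearMap.comp_apply, LinearEquiv.coe_coe, this]
    rfl
  have hb : ∀ x, ‖f₀ x‖ ≤ 1 * ‖x‖ := by
    rintro ⟨_, d, rfl⟩
    rw [hf₀, one_mul]
    exact h d
  obtain ⟨g, hg, hn⟩ := exists_extension_norm_eq (LinearMap.range j) (f₀.mkContinuous 1 hb)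
  refine ⟨g, fun x => (g.le_opNorm x).trans (mul_le_of_le_one_left (norm_nonneg _) ?_), fun d => ?_⟩
  · rw [hn]; exact LinearMap.mkContinuous_norm_le _ zero_le_one _
  · exact (hg ⟨j d, d, rfl⟩).trans (hf₀ d)

theorem nontrivial_of_unit {H : Type*} [NormedAddCommGroup H] [InnerProductSpace ℂ H] {Ω : H}
    (h : ⟪Ω, Ω⟫_ℂ = 1) : Nontrivial (H →L[ℂ] H) :=
  ⟨⟨1, 0, fun e => by
    have : Ω = 0 := by simpa using DFunLike.congr_fun e Ω
    simp [this] at h⟩⟩

theorem fiber {B : Type u} [CStarAlgebra B] [Nontrivial B] (h b : B) (hh : IsSelfAdjoint h)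
    (hc : ∀ x, Commute h x) (h1 : ‖h‖ ≤ 1) (h2 : ‖1 - h‖ ≤ 1) :
    ∃ (H : Type u) (_ : NormedAddCommGroup H) (_ : InnerProductSpace ℂ H) (_ : CompleteSpace H)
      (π : B →⋆ₐ[ℂ] (H →L[ℂ] H)) (s : unitInterval),
      π h = algebraMap ℂ _ ((s : ℝ) : ℂ) ∧ ‖b‖ ≤ ‖π b‖ := by
  let _ := CStarAlgebra.spectralOrder B
  have := CStarAlgebra.spectralOrderedRing B
  set k := star b * b with hk
  have hks : IsSelfAdjoint k := IsSelfAdjoint.star_mul_self b
  set n := h + Complex.I • k with hn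
  have hsn : star n = h - Complex.I • k := by
    simp [hn, hh.star_eq, hks.star_eq, sub_eq_add_neg]
  have : IsStarNormal n := ⟨by
    rw [hsn, hn]
    exact ((Commute.refl h).add_right ((hc k).smul_right _)).sub_left
      (((hc k).symm.add_right ((Commute.refl k).smul_right _)).smul_left _)⟩
  have m1 := StarAlgebra.elemental.self_mem ℂ n
  have m2 := StarAlgebra.elemental.star_self_mem ℂ n
  have mh : h ∈ StarAlgebra.elemental ℂ n := by
    have := SMulMemClass.smul_mem (2⁻¹ : ℂ) (add_mem m1 m2)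
    rwa [show (2⁻¹ : ℂ) • (n + star n) = h by rw [hsn, hn]; module] at this
  have mk : k ∈ StarAlgebra.elemental ℂ n := by
    have := SMulMemClass.smul_mem (-Complex.I / 2 : ℂ) (sub_mem m1 m2)
    rwa [show (-Complex.I / 2 : ℂ) • (n - star n) = k by
      rw [hsn, hn, add_sub_sub_cancel, ← two_smul ℂ, smul_smul, smul_smul,
        show -Complex.I / 2 * 2 * Complex.I = 1 by
          linear_combination (-1 : ℂ) * Complex.I_mul_I, one_smul]] at this
  have hsp : ((‖k‖ : ℝ) : ℂ) ∈ spectrum ℂ (⟨k, mk⟩ : StarAlgebra.elemental ℂ n) := by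
    have := StarAlgebra.elemental.isClosed ℂ n
    rw [StarSubalgebra.mem_spectrum_iff]
    exact spectrum.algebraMap_mem ℂ
      (CStarAlgebra.norm_mem_spectrum_of_nonneg (star_mul_self_nonneg b))
  obtain ⟨χ, hχ⟩ := WeakDual.CharacterSpace.mem_spectrum_iff_exists.1 hsp
  obtain ⟨g, hg, he⟩ := exists_ext (StarAlgebra.elemental ℂ n).subtype.toLinearMap
    (WeakDual.CharacterSpace.toAlgHom χ).toLinearMap (fun d => AlgHom.norm_apply_le_self χ d)
  have he' : ∀ d : StarAlgebra.elemental ℂ n, g d = χ d := he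
  have g1 : g 1 = 1 := (he' 1).trans (map_one χ)
  obtain ⟨H, _, _, _, π, Ω, hi, hcyc⟩ := exists_gns g hg g1
  have hΩ : ⟪Ω, Ω⟫_ℂ = 1 := by simpa [g1] using hi 1 1
  set t := χ ⟨h, mh⟩ with ht
  have hts : (starRingEnd ℂ) t = t := by
    rw [ht, ← Complex.star_def, ← map_star]; congr 1; exact Subtype.ext hh.star_eq
  have htr : ((t.re : ℝ) : ℂ) = t := Complex.conj_eq_iff_re.1 hts
  have b1 : ‖t‖ ≤ 1 := (AlgHom.norm_apply_le_self χ _).trans h1
  have b2 : ‖1 - t‖ ≤ 1 := by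
    rw [ht, ← map_one χ, ← map_sub]
    exact (AlgHom.norm_apply_le_self χ _).trans h2
  have b3 : t.re ∈ unitInterval := by
    have := (Complex.re_le_norm _).trans b1
    have := (Complex.re_le_norm _).trans b2
    simp only [Complex.sub_re, Complex.one_re] at this
    constructor <;> linarith
  refine ⟨H, inferInstance, inferInstance, inferInstance, π, ⟨t.re, b3⟩, ?_, ?_⟩
  · have z : π (h - algebraMap ℂ B t) Ω = 0 := by
      rw [← inner_self_eq_zero (𝕜 := ℂ), hi]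
      have := he' (star (⟨h, mh⟩ - algebraMap ℂ _ t) * (⟨h, mh⟩ - algebraMap ℂ _ t))
      rw [map_mul χ, map_sub χ, AlgHomClass.commutes, ← ht] at this
      simpa using this
    have := hcyc (h - algebraMap ℂ B t) fun y => by
      rw [← mul_apply_eq_comp, ← map_mul,
        ((hc y).sub_left (Algebra.commute_algebraMap_left t y)).eq, map_mul,
        mul_apply_eq_comp, z, map_zero]
    rw [map_sub, AlgHomClass.commutes, sub_eq_zero] at this
    rw [this]; exact congrArg _ htr.symm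
  · have e1 : ⟪π b Ω, π b Ω⟫_ℂ = ((‖b‖ ^ 2 : ℝ) : ℂ) := by
      rw [hi, ← hk, he' ⟨k, mk⟩, hχ, hk, CStarRing.norm_star_mul_self, sq]
    have e2 : ‖Ω‖ = 1 := by
      have : ‖Ω‖ ^ 2 = 1 := by rw [← inner_self_eq_norm_sq (𝕜 := ℂ), hΩ]; rfl
      nlinarith [norm_nonneg Ω]
    have e3 : ‖π b Ω‖ ^ 2 = ‖b‖ ^ 2 := by rw [← inner_self_eq_norm_sq (𝕜 := ℂ), e1]; rfl
    have e4 := (π b).le_opNorm Ω
    rw [e2, mul_one, (pow_left_inj₀ (norm_nonneg _) (norm_nonneg _) two_ne_zero).1 e3] at e4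
    exact e4

end Vale.Agent.P101
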