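import Vale.Agent.P101.Defs
import Vale.Agent.P101.Fresh

/-! The ultrapower as a C*-algebra, and reindexing. -/

open Filter Topology TopologicalSpace BoundedContinuousFunction
open scoped BoundedContinuousFunction

namespace Vale.Agent.P101

universe u

variable {A : Type u} [CStarAlgebra A] {ω : Ultrafilter ℕ}

theorem tendsto_norm_mk (x : ℕ →ᵇ A) :
    Tendsto (fun n => ‖x n‖) ω (𝓝 ‖(Submodule.Quotient.mk x : Ultrapower A ω)‖) := by
  obtain ⟨L, hL, h⟩ := (isCompact_Icc (a := 0) (b := ‖x‖)).ultrafilter_le_nhds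
    (ω.map fun n => ‖x n‖) (by
      rw [le_principal_iff]
      exact mem_map.2 (univ_mem' fun n => ⟨norm_nonneg _, x.norm_coe_le_norm n⟩))
  have h' : Tendsto (fun n => ‖x n‖) ω (𝓝 L) := h
  convert h'
  refine le_antisymm (le_of_forall_pos_le_add fun ε hε => ?_)
    (QuotientAddGroup.le_norm_iff.2 fun y hy => ?_)
  · let y : ℕ →ᵇ A := ofNormedAddCommGroupDiscrete (fun n => if ‖x n‖ ≤ L + ε then x n else 0)
      (L + ε) fun n => by split_ifs with h; exacts [h, by simp; linarith [hL.1]]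
    have : (Submodule.Quotient.mk x : Ultrapower A ω) = Submodule.Quotient.mk y := by
      rw [Submodule.Quotient.eq]
      refine tendsto_const_nhds.congr' ?_
      filter_upwards [h'.eventually_le_const (lt_add_of_pos_right L hε)] with n hn
      simp [y, hn]
    rw [this]
    exact (Submodule.Quotient.norm_mk_le _ y).trans
      (norm_ofNormedAddCommGroup_le _ (by linarith [hL.1]) _)
  · have e : x - y ∈ nullIdeal A ω := (Submodule.Quotient.eq _).1 hy.symm
    have := Tendsto.const_add ‖y‖ (show Tendsto (fun n => ‖(x - y) n‖) ω (𝓝 0) from e)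
    rw [add_zero] at this
    refine le_of_tendsto_of_tendsto' h' this fun n => ?_
    exact (norm_le_norm_add_norm_sub' _ (y n)).trans (add_le_add_left (y.norm_coe_le_norm n) _)

/-- The normed ring structure of the ultrapower. -/
@[reducible] noncomputable def ultraNormedRing (A : Type u) [CStarAlgebra A] (ω : Ultrafilter ℕ) :
    NormedRing (Ultrapower A ω) where
  __ := ultrapowerRing A ω
  __ := NormedAddCommGroup.ofSeparation (E := Ultrapower A ω) (by
    rintro ⟨x⟩ hx
    have := tendsto_norm_mk (ω := ω) x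
    rw [show ‖(Submodule.Quotient.mk x : Ultrapower A ω)‖ = 0 from hx] at this
    exact (Submodule.Quotient.mk_eq_zero _).2 this)
  norm_mul_le := by
    rintro ⟨x⟩ ⟨y⟩
    exact le_of_tendsto_of_tendsto' (tendsto_norm_mk (x * y))
      ((tendsto_norm_mk x).mul (tendsto_norm_mk y)) fun n => norm_mul_le _ _

/-- The C*-algebra structure of the ultrapower. -/
@[reducible] noncomputable def ultraCStar (A : Type u) [CStarAlgebra A] (ω : Ultrafilter ℕ) :
    CStarAlgebra (Ultrapower A ω) where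
  __ := ultraNormedRing A ω
  __ := ultrapowerStarRing A ω
  __ := ultrapowerAlgebra A ω
  __ := ultrapowerStarModule A ω
  complete := (Submodule.Quotient.completeSpace (nullIdeal A ω)).complete
  norm_mul_self_le := by
    rintro ⟨x⟩
    exact le_of_tendsto_of_tendsto' ((tendsto_norm_mk x).mul (tendsto_norm_mk x))
      (tendsto_norm_mk (star x * x)) fun n => CStarRing.norm_mul_self_le _
  norm_smul_le c := by
    rintro ⟨x⟩
    exact le_of_tendsto_of_tendsto' (tendsto_norm_mk (c • x))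
      ((tendsto_norm_mk x).const_mul ‖c‖) fun n => norm_smul_le c (x n)

/-- `mk` presents `U` as the ultrapower of `A`. -/
structure IsUltra (ω : Ultrafilter ℕ) {U : Type u} [CStarAlgebra U] (mk : (ℕ →ᵇ A) →⋆ₐ[ℂ] U) :
    Prop where
  surj : Function.Surjective mk
  lim : ∀ x, Tendsto (fun n => ‖x n‖) ω (𝓝 ‖mk x‖)

/-- The relative commutant of the constant sequences. -/
noncomputable def cent {U : Type u} [CStarAlgebra U] (mk : (ℕ →ᵇ A) →⋆ₐ[ℂ] U) :
    StarSubalgebra ℂ U := StarSubalgebra.centralizer ℂ (Set.range fun a => mk (const ℕ a))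

instance {U : Type u} [CStarAlgebra U] (mk : (ℕ →ᵇ A) →⋆ₐ[ℂ] U) : IsClosed (cent mk : Set U) :=
  Set.isClosed_centralizer _

theorem mem_cent {U : Type u} [CStarAlgebra U] {mk : (ℕ →ᵇ A) →⋆ₐ[ℂ] U} {x : U} :
    x ∈ cent mk ↔ ∀ a, Commute x (mk (const ℕ a)) := by
  rw [cent, StarSubalgebra.mem_centralizer_iff]
  constructor
  · intro h a; exact (h _ ⟨a, rfl⟩).1.symm
  · rintro h _ ⟨a, rfl⟩
    exact ⟨(h a).symm, by rw [← map_star]; exact (h (star a)).symm⟩

theorem exists_ultra (A : Type u) [CStarAlgebra A] (ω : Ultrafilter ℕ) :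
    ∃ (U : Type u) (_ : CStarAlgebra U) (mk : (ℕ →ᵇ A) →⋆ₐ[ℂ] U), IsUltra ω mk ∧
      (¬ HasCharacter (CentralSeq A ω) → IsEmpty (cent mk →⋆ₐ[ℂ] ℂ)) :=
  letI := ultraCStar A ω
  ⟨Ultrapower A ω, ultraCStar A ω,
    { Ideal.Quotient.mkₐ ℂ (nullIdeal A ω) with map_star' := fun _ => rfl },
    ⟨Ideal.Quotient.mk_surjective, tendsto_norm_mk⟩, not_nonempty_iff.1⟩

variable {U : Type u} [CStarAlgebra U] {mk : (ℕ →ᵇ A) →⋆ₐ[ℂ] U}

theorem IsUltra.lt (h : IsUltra ω mk) {x : ℕ →ᵇ A} {r : ℝ} (hx : ‖mk x‖ < r) :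
    ∀ᶠ n in ω, ‖x n‖ < r := (h.lim x).eventually_lt_const hx

/-- Reindexing of bounded sequences. -/
noncomputable def reind (k : ℕ → ℕ) : (ℕ →ᵇ A) →⋆ₐ[ℂ] (ℕ →ᵇ A) where
  toFun x := x.compContinuous ⟨k, continuous_of_discreteTopology⟩
  map_one' := rfl
  map_mul' _ _ := rfl
  map_zero' := rfl
  map_add' _ _ := rfl
  commutes' _ := rfl
  map_star' _ := rfl

/-- Constant sequences. -/
noncomputable def cst : A →⋆ₐ[ℂ] (ℕ →ᵇ A) where
  toFun := const ℕ
  map_one' := rfl
  map_mul' _ _ := rfl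
  map_zero' := rfl
  map_add' _ _ := rfl
  commutes' _ := rfl
  map_star' _ := rfl

theorem IsUltra.fresh [SeparableSpace A] (h : IsUltra ω mk) (hω : (ω : Filter ℕ) ≤ cofinite) :
    Fresh (cent mk) := by
  intro D _ _ θ S hS
  rw [Nat.cofinite_eq_atTop] at hω
  have hc : Continuous fun a : A => mk (const ℕ a) :=
    hom_cont (mk.comp cst)
  obtain ⟨c, hc1, hc2⟩ := (hS.image continuous_subtype_val).union (isSeparable_range hc)
  obtain ⟨s₀, hs₀⟩ := (hc1.insert 0).exists_eq_range (Set.insert_nonempty _ _)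
  choose s hs using fun j => h.surj (s₀ j)
  choose x hx using fun i => h.surj (θ (denseSeq D i))
  let T := StarAlgebra.adjoin ℂ (Set.range fun i => (denseSeq D i, x i))
  have hT : ∀ t ∈ T, mk t.2 = θ t.1 := fun t ht =>
    (show T ≤ StarAlgHom.equalizer (mk.comp (StarAlgHom.snd ℂ _ _))
      (((cent mk).subtype.comp θ).comp (StarAlgHom.fst ℂ _ _)) from
      StarAlgebra.adjoin_le (by rintro _ ⟨i, rfl⟩; exact hx i)) ht
  have : SeparableSpace T := ((isSeparable_adjoin (Set.countable_range _).isSeparable).mono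
    (StarSubalgebra.le_topologicalClosure _)).separableSpace
  let τ := denseSeq T
  have ex : ∀ n, ∃ k, ∀ i ∈ Finset.range n, ‖(τ i).1.2 k‖ < ‖(τ i).1.1‖ + 1 / (n + 1) ∧
      ∀ j ∈ Finset.range n, ‖(τ i).1.2 k * s j n - s j n * (τ i).1.2 k‖ < 1 / (n + 1) := fun n => by
    have e : (0 : ℝ) < 1 / (n + 1) := by positivity
    refine Eventually.exists (f := (ω : Filter ℕ)) ((eventually_all_finset _).2 fun i _ =>
      (h.lt ?_).and ((eventually_all_finset _).2 fun j _ =>
        h.lt (x := (τ i).1.2 * const ℕ (s j n) - const ℕ (s j n) * (τ i).1.2) ?_))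
    · rw [hT _ (τ i).2]
      exact (hom_le θ _).trans_lt (lt_add_of_pos_right _ e)
    · rwa [map_sub, map_mul, map_mul, hT _ (τ i).2, (mem_cent.1 (θ _).2 _).eq, sub_self, norm_zero]
  choose k hk using ex
  have t0 : Tendsto (fun n : ℕ => (1 : ℝ) / (n + 1)) ω (𝓝 0) :=
    tendsto_one_div_add_atTop_nhds_zero_nat.mono_left hω
  have ev : ∀ i, ∀ᶠ n in ω, i ∈ Finset.range n := fun i =>
    ((eventually_gt_atTop i).filter_mono hω).mono (by simp)
  let p : T →⋆ₐ[ℂ] D := (StarAlgHom.fst ℂ _ _).comp T.subtype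
  let q : T →⋆ₐ[ℂ] U := (mk.comp (reind k)).comp ((StarAlgHom.snd ℂ _ _).comp T.subtype)
  have cp : Continuous p := continuous_fst.comp continuous_subtype_val
  have cq : Continuous q :=
    (hom_cont (mk.comp (reind k))).comp (continuous_snd.comp continuous_subtype_val)
  have dp : DenseRange p := (denseRange_denseSeq D).mono (by
    rintro _ ⟨i, rfl⟩; exact ⟨⟨_, StarAlgebra.subset_adjoin ℂ _ ⟨i, rfl⟩⟩, rfl⟩)
  obtain ⟨θ', hθ'⟩ := exists_of_graph p q dp fun t => (denseRange_denseSeq T).induction_on t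
    (isClosed_le cq.norm cp.norm) fun i => by
      have := t0.const_add ‖(τ i).1.1‖
      rw [add_zero] at this
      exact le_of_tendsto_of_tendsto (h.lim _) this ((ev i).mono fun n hn => (hk n i hn).1.le)
  have com : ∀ d, ∀ y ∈ closure c, Commute (θ' d) y := fun d y hy => by
    refine closure_minimal (t := {y | θ' d * y = y * θ' d}) (fun y hy => ?_)
      (isClosed_eq (by fun_prop) (by fun_prop)) hy
    obtain ⟨j, rfl⟩ : y ∈ Set.range s₀ := hs₀ ▸ Set.mem_insert_of_mem _ hy
    refine dp.induction_on (p := fun d => θ' d * s₀ j = s₀ j * θ' d) d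
      (isClosed_eq (by fun_prop) (by fun_prop)) fun t => ?_
    rw [hθ']
    refine (denseRange_denseSeq T).induction_on (p := fun t => q t * s₀ j = s₀ j * q t) t
      (isClosed_eq (by fun_prop) (by fun_prop)) fun i => ?_
    rw [← sub_eq_zero, ← norm_le_zero_iff, ← hs j]
    have := le_of_tendsto_of_tendsto (h.lim (reind k (τ i).1.2 * s j - s j * reind k (τ i).1.2)) t0
      (((ev i).and (ev j)).mono fun n hn => ((hk n i hn.1).2 j hn.2).le)
    rwa [map_sub, map_mul, map_mul] at this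
  exact ⟨θ'.codRestrict (cent mk) fun d => mem_cent.2 fun a => com d _ (hc2 (Or.inr ⟨a, rfl⟩)),
    fun d y hy => Subtype.ext (com d _ (hc2 (Or.inl ⟨y, hy, rfl⟩)))⟩

end Vale.Agent.P101
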